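import Vale.Agent.P073.H234.P2Defs
import Vale.Agent.P073.H953.Fill
import Vale.Agent.P073.H83.SqRel

/-!
# P073, P2h (exponent two, rank three): [CLOSE-SUB]

A conical homeomorphism which is close to the affine maps on the clean squares outside of the
discs, and maps every disc into a small set, is close to the affine maps on all the cubes of the
own lattice which do not touch the boundary of a big cube.
-/

namespace Vale.Agent.P073.H439

open Set Filter Topology Metric Vale.Agent.P073.St Vale.Agent.P073.AB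
open Vale.Agent.P073.H234
open Vale.Agent.P073.AB.P86 (rel)
open _root_.P073.Net (dyc dyo)
open _root_.P073 (ConHomeo ConBall)
open scoped ENNReal

variable {Ω Λ : Set V} {v : V} {m j : ℕ}

/-- the boundary circle of a disc is nonempty -/
theorem bdry_nonempty {E : Type*} [NormedAddCommGroup E] [NormedSpace ℝ E]
    {C B : Set E} (h : ConBall 2 C B) : B.Nonempty := by
  obtain ⟨φ, hφ⟩ := h.eq_preimage
  rw [← hφ]
  have h1 : (Metric.sphere (0 : Fin 2 → ℝ) 1).Nonempty := by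
    refine ⟨fun _ => 1, ?_⟩
    rw [mem_sphere_zero_iff_norm, pi_norm_const]
    simp
  exact h1.image _

/-- two points of a cube of generation `n` -/
theorem norm_sub_le_of_dyc {n : ℕ} {w : Fin 3 → ℤ} {x y : V} (hx : x ∈ dyc v n w)
    (hy : y ∈ dyc v n w) : ‖x - y‖ ≤ 1 / 2 ^ n := by
  rw [pi_norm_le_iff_of_nonneg (by positivity)]
  intro k
  obtain ⟨h1, h2⟩ := hx k
  obtain ⟨h3, h4⟩ := hy k
  rw [P86.div_add_one] at h2 h4
  rw [Pi.sub_apply, Real.norm_eq_abs, abs_le]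
  constructor <;> linarith

theorem squ_sub_dyc {s : Idx × Fin 3} : squ v s ⊆ dyc v s.1.1 s.1.2 := by
  intro x hx k
  by_cases hk : k = s.2
  · subst hk
    rw [hx.1, P86.div_add_one]
    refine ⟨le_rfl, ?_⟩
    have : (0:ℝ) < 1 / 2 ^ s.1.1 := by positivity
    linarith
  · exact hx.2 k hk

/-- the relative interior of a clean square is in the open big cube -/
theorem rel_sub_dyo {z : Fin 3 → ℤ} {s : Idx × Fin 3} (hs : Clean v m j z s) :
    rel v s ⊆ dyo v m z := by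
  obtain ⟨h0, h1, h2⟩ := hs
  intro x hx k
  have hp : (0:ℝ) < 1 / 2 ^ (m + j) := by positivity
  -- the corners of the two cubes
  have hlow : pt v (m + j) s.1.2 ∈ dyc v (m + j) s.1.2 := fun i =>
    ⟨le_rfl, by show v i + s.1.2 i / 2 ^ (m + j) ≤ _; rw [P86.div_add_one]; linarith⟩
  have hup : pt v (m + j) (fun i => s.1.2 i + 1) ∈ dyc v (m + j) s.1.2 := fun i =>
    ⟨by show _ ≤ v i + ((s.1.2 i + 1 : ℤ) : ℝ) / 2 ^ (m + j); push_cast; rw [P86.div_add_one]; linarith,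
      by show v i + ((s.1.2 i + 1 : ℤ) : ℝ) / 2 ^ (m + j) ≤ _; push_cast; exact le_rfl⟩
  have hdn : pt v (m + j) (dn s) ∈ dyc v (m + j) (dn s) := fun i =>
    ⟨le_rfl, by show v i + dn s i / 2 ^ (m + j) ≤ _; rw [P86.div_add_one]; linarith⟩
  have e1 := (h1 hlow k).1
  have e2 := (h1 hup k).2
  have e3 := (h2 hdn k).1
  have e1' : v k + z k / 2 ^ m ≤ v k + s.1.2 k / 2 ^ (m + j) := e1
  have e2' : v k + ((s.1.2 k + 1 : ℤ) : ℝ) / 2 ^ (m + j) ≤ v k + (z k + 1) / 2 ^ m := e2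
  have e3' : v k + z k / 2 ^ m ≤ v k + dn s k / 2 ^ (m + j) := e3
  push_cast at e2'
  rw [P86.div_add_one] at e2'
  by_cases hk : k = s.2
  · subst hk
    rw [hx.1, h0]
    have e4 : ((dn s s.2 : ℤ) : ℝ) = s.1.2 s.2 - 1 := by simp [dn]
    rw [e4, sub_div] at e3'
    constructor <;> linarith
  · obtain ⟨h3, h4⟩ := hx.2 k hk
    rw [h0] at h3 h4
    rw [P86.div_add_one] at h4
    constructor <;> linarith

/-- an open and a closed dyadic cube of the same generation -/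
theorem eq_of_mem {n : ℕ} {z z' : Fin 3 → ℤ} {x : V} (hx : x ∈ dyo v n z) (hx' : x ∈ dyc v n z') :
    z' = z := by
  have hp : (0:ℝ) < 2 ^ n := by positivity
  funext k
  obtain ⟨h1, h2⟩ := hx k
  obtain ⟨h3, h4⟩ := hx' k
  have h5 : (z k : ℝ) / 2 ^ n < (z' k + 1) / 2 ^ n := by linarith
  have h6 : (z' k : ℝ) / 2 ^ n < (z k + 1) / 2 ^ n := by linarith
  rw [div_lt_div_iff_of_pos_right hp] at h5 h6
  have h7 : z k < z' k + 1 := by exact_mod_cast h5
  have h8 : z' k < z k + 1 := by exact_mod_cast h6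
  omega

section Squares

variable {ι : Type} {D c : ι → Set V} {s : ι → Idx × Fin 3} {J : Finset (Fin 3 → ℤ)}
  {A : (Fin 3 → ℤ) → V → V} {L : (Fin 3 → ℤ) → V →L[ℝ] V} {M a : ℝ} {g : V → V}

/-- closeness on the whole clean squares, from the closeness off the discs and the size of the
images of the discs -/
theorem close_squ (hclean : ∀ i, ∃ z ∈ J, Clean v m j z (s i))
    (hball : ∀ i, ConBall 2 (D i) (c i)) (hsub : ∀ i, D i ⊆ rel v (s i))
    (hdisj : ∀ i i', i ≠ i' → Disjoint (D i) (D i'))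
    (haff : ∀ z ∈ J, ∀ x y, A z y - A z x = L z (y - x))
    (habove : ∀ z ∈ J, ∀ w, ‖L z w‖ ≤ M * ‖w‖) (hM : 0 ≤ M) (ha : 0 ≤ a)
    (hgood : ∀ z ∈ J, ∀ s, Clean v m j z s → ∀ x ∈ squ v s, (∀ i, x ∉ D i \ c i) →
      ‖g x - A z x‖ ≤ a / 2 ^ (m + j))
    (hdisc : ∀ i, ∀ x ∈ D i, ∀ y ∈ D i, ‖g x - g y‖ ≤ 2 * a / 2 ^ (m + j))
    {z : Fin 3 → ℤ} (hz : z ∈ J) {t : Idx × Fin 3} (ht : Clean v m j z t) {x : V}
    (hx : x ∈ squ v t) : ‖g x - A z x‖ ≤ (M + 3 * a) / 2 ^ (m + j) := by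
  have hp : (0:ℝ) < 2 ^ (m + j) := by positivity
  by_cases hxD : ∀ i, x ∉ D i \ c i
  · refine (hgood z hz t ht x hx hxD).trans ?_
    gcongr
    linarith
  · push Not at hxD
    obtain ⟨i, hxi, hxc⟩ := hxD
    obtain ⟨z', hz', hcl⟩ := hclean i
    obtain ⟨y, hy⟩ := bdry_nonempty (hball i)
    have hyD : y ∈ D i := (hball i).1 hy
    have hxs : x ∈ rel v (s i) := hsub i hxi
    have hys : y ∈ rel v (s i) := hsub i hyD
    -- the same big cube
    have hzz : z = z' := by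
      refine eq_of_mem (rel_sub_dyo hcl hxs) ?_
      have h1 := squ_sub_dyc hx
      rw [ht.1] at h1
      exact ht.2.1 h1
    subst hzz
    have h1 : ‖g y - A z y‖ ≤ a / 2 ^ (m + j) := by
      refine hgood z hz (s i) hcl y (P86.rel_sub hys) fun i' hi' => ?_
      by_cases hii : i' = i
      · subst hii
        exact hi'.2 hy
      · exact disjoint_left.1 (hdisj i' i hii) hi'.1 hyD
    have h2 := hdisc i x hxi y hyD
    have h3 : ‖x - y‖ ≤ 1 / 2 ^ (m + j) := by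
      have := norm_sub_le_of_dyc (squ_sub_dyc (P86.rel_sub hxs)) (squ_sub_dyc (P86.rel_sub hys))
      rwa [hcl.1] at this
    have h4 : ‖A z y - A z x‖ ≤ M / 2 ^ (m + j) := by
      rw [haff z hz]
      refine (habove z hz _).trans ?_
      rw [norm_sub_rev]
      calc M * ‖x - y‖ ≤ M * (1 / 2 ^ (m + j)) := by gcongr
        _ = _ := by rw [mul_one_div]
    calc ‖g x - A z x‖ = ‖(g x - g y) + (g y - A z y) + (A z y - A z x)‖ := by congr 1; abel
      _ ≤ ‖g x - g y‖ + ‖g y - A z y‖ + ‖A z y - A z x‖ := norm_add₃_le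
      _ ≤ 2 * a / 2 ^ (m + j) + a / 2 ^ (m + j) + M / 2 ^ (m + j) := by gcongr
      _ = _ := by ring

end Squares

/-- the squares which contain a boundary point of an inner cube of the own lattice are clean -/
theorem exists_clean {z w : Fin 3 → ℤ} (hw : dyc v (m + j) w ⊆ dyo v m z) {x : V}
    (hx : x ∈ frontier (dyc v (m + j) w)) : ∃ t, Clean v m j z t ∧ x ∈ squ v t := by
  have hp : (0:ℝ) < 2 ^ (m + j) := by positivity
  have hpm : (0:ℝ) < 2 ^ m := by positivity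
  have hp1 : (0:ℝ) < 1 / 2 ^ (m + j) := by positivity
  have hz1 : dyo v m z ⊆ dyc v m z := fun y hy k => ⟨(hy k).1.le, (hy k).2.le⟩
  obtain ⟨hxw, l, hl⟩ := Vale.Agent.P073.H83.frontier_dyc hx
  have hlow : pt v (m + j) w ∈ dyc v (m + j) w := fun i =>
    ⟨le_rfl, by show v i + w i / 2 ^ (m + j) ≤ _; rw [P86.div_add_one]; linarith⟩
  have hup : pt v (m + j) (fun i => w i + 1) ∈ dyc v (m + j) w := fun i =>
    ⟨by show _ ≤ v i + ((w i + 1 : ℤ) : ℝ) / 2 ^ (m + j); push_cast; rw [P86.div_add_one]; linarith,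
      by show v i + ((w i + 1 : ℤ) : ℝ) / 2 ^ (m + j) ≤ _; push_cast; exact le_rfl⟩
  have e1 : v l + z l / 2 ^ m < v l + w l / 2 ^ (m + j) := (hw hlow l).1
  have e2 : v l + ((w l + 1 : ℤ) : ℝ) / 2 ^ (m + j) < v l + (z l + 1) / 2 ^ m := (hw hup l).2
  have i1 : z l * 2 ^ j + 1 ≤ w l := by
    have h1 : (z l : ℝ) * 2 ^ j < w l := by
      have h2 : (z l : ℝ) / 2 ^ m < w l / 2 ^ (m + j) := by linarith
      rw [pow_add, div_lt_div_iff₀ hpm (by positivity)] at h2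
      have h3 : (z l : ℝ) * 2 ^ j * 2 ^ m < w l * 2 ^ m := by linarith
      exact lt_of_mul_lt_mul_right h3 hpm.le
    have h4 : z l * 2 ^ j < w l := by exact_mod_cast h1
    omega
  have i2 : w l + 2 ≤ (z l + 1) * 2 ^ j := by
    have h1 : ((w l + 1 : ℤ) : ℝ) < (z l + 1) * 2 ^ j := by
      have h2 : ((w l + 1 : ℤ) : ℝ) / 2 ^ (m + j) < (z l + 1) / 2 ^ m := by linarith
      rw [pow_add, div_lt_div_iff₀ (by positivity) hpm] at h2
      have h3 : ((w l + 1 : ℤ) : ℝ) * 2 ^ m < ((z l : ℝ) + 1) * 2 ^ j * 2 ^ m := by linarith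
      exact lt_of_mul_lt_mul_right h3 hpm.le
    have h4 : w l + 1 < (z l + 1) * 2 ^ j := by exact_mod_cast h1
    omega
  have r1 : (z l : ℝ) / 2 ^ m + 1 / 2 ^ (m + j) ≤ w l / 2 ^ (m + j) := by
    have h1 : (z l : ℝ) * 2 ^ j + 1 ≤ w l := by exact_mod_cast i1
    rw [pow_add, div_add_div _ _ (by positivity) (by positivity), div_le_div_iff₀ (by positivity)
      (by positivity)]
    nlinarith [mul_le_mul_of_nonneg_left h1 (by positivity : (0:ℝ) ≤ 2 ^ m * (2 ^ m * 2 ^ j))]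
  have r2 : (w l : ℝ) / 2 ^ (m + j) + 2 / 2 ^ (m + j) ≤ (z l + 1) / 2 ^ m := by
    have h1 : (w l : ℝ) + 2 ≤ (z l + 1) * 2 ^ j := by exact_mod_cast i2
    rw [← add_div, pow_add, div_le_div_iff₀ (by positivity) (by positivity)]
    nlinarith [mul_le_mul_of_nonneg_right h1 (by positivity : (0:ℝ) ≤ 2 ^ m)]
  have hwz : dyc v (m + j) w ⊆ dyc v m z := hw.trans hz1
  rcases hl with hl | hl
  · -- lower face
    refine ⟨((m + j, w), l), ⟨rfl, hwz, fun y hy k => ?_⟩, hl, fun k _ => hxw k⟩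
    by_cases hk : k = l
    · subst hk
      have h1 := hy k
      simp only [dn, if_true] at h1
      push_cast at h1
      rw [sub_add_cancel, sub_div] at h1
      obtain ⟨h2, h3⟩ := h1
      constructor
      · linarith
      · have := (hwz hlow k).2
        have h4 : v k + (w k : ℝ) / 2 ^ (m + j) ≤ v k + (z k + 1) / 2 ^ m := this
        linarith
    · have h1 := hy k
      simp only [dn, if_neg hk] at h1
      have h2 := (hwz hlow k).1
      have h3 := (hwz hup k).2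
      have h2' : v k + (z k : ℝ) / 2 ^ m ≤ v k + w k / 2 ^ (m + j) := h2
      have h3' : v k + ((w k + 1 : ℤ) : ℝ) / 2 ^ (m + j) ≤ v k + (z k + 1) / 2 ^ m := h3
      push_cast at h3'
      exact ⟨h2'.trans h1.1, h1.2.trans h3'⟩
  · -- upper face
    refine ⟨((m + j, Function.update w l (w l + 1)), l), ⟨rfl, fun y hy k => ?_, ?_⟩, ?_,
      fun k hk => ?_⟩
    · by_cases hk : k = l
      · subst hk
        have h1 := hy k
        simp only [Function.update_self] at h1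
        push_cast at h1
        obtain ⟨h2, h3⟩ := h1
        have e3 : ((w k : ℝ) + 1 + 1) / 2 ^ (m + j) = w k / 2 ^ (m + j) + 2 / 2 ^ (m + j) := by
          rw [← add_div]; ring_nf
        rw [e3] at h3
        rw [P86.div_add_one] at h2
        constructor <;> linarith
      · have h1 := hy k
        simp only [Function.update_of_ne hk] at h1
        have h2' : v k + (z k : ℝ) / 2 ^ m ≤ v k + w k / 2 ^ (m + j) := (hwz hlow k).1
        have h3' : v k + ((w k + 1 : ℤ) : ℝ) / 2 ^ (m + j) ≤ v k + (z k + 1) / 2 ^ m :=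
          (hwz hup k).2
        push_cast at h3'
        exact ⟨h2'.trans h1.1, h1.2.trans h3'⟩
    · have e : dn ((m + j, Function.update w l (w l + 1)), l) = w := by
        funext k
        by_cases hk : k = l
        · subst hk; simp [dn]
        · simp [dn, hk]
      rw [e]
      exact hwz
    · simp only [Function.update_self]
      push_cast
      exact hl
    · simp only [Function.update_of_ne hk]
      exact hxw k

/-- closeness on the inner cubes of the own lattice -/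
theorem close_cube (hΛ : IsOpen Λ) (h : ConHomeo Ω Λ) {A : V → V} {L : V →L[ℝ] V} {M a : ℝ}
    (haff : ∀ x y, A y - A x = L (y - x)) (habove : ∀ w, ‖L w‖ ≤ M * ‖w‖) (hM : 0 ≤ M)
    {z w : Fin 3 → ℤ} (hw : dyc v (m + j) w ⊆ dyo v m z) (hΩ : dyc v (m + j) w ⊆ Ω)
    (hsq : ∀ t, Clean v m j z t → ∀ x ∈ squ v t, ‖h.toFun x - A x‖ ≤ (M + 3 * a) / 2 ^ (m + j))
    {x : V} (hx : x ∈ dyc v (m + j) w) : ‖h.toFun x - A x‖ ≤ (3 * M + 3 * a) / 2 ^ (m + j) := by
  have hp : (0:ℝ) < 2 ^ (m + j) := by positivity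
  have hA : ∀ y ∈ dyc v (m + j) w, ‖A y - A x‖ ≤ M / 2 ^ (m + j) := by
    intro y hy
    rw [haff]
    refine (habove _).trans ?_
    calc M * ‖y - x‖ ≤ M * (1 / 2 ^ (m + j)) := by
          gcongr
          exact norm_sub_le_of_dyc hy hx
      _ = _ := by rw [mul_one_div]
  have h1 : h.toFun '' frontier (dyc v (m + j) w) ⊆
      closedBall (A x) ((2 * M + 3 * a) / 2 ^ (m + j)) := by
    rintro _ ⟨y, hy, rfl⟩
    obtain ⟨t, ht, hyt⟩ := exists_clean hw hy
    have h2 := hsq t ht y hyt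
    have hyw : y ∈ dyc v (m + j) w := (Vale.Agent.P073.H83.frontier_dyc hy).1
    have h3 := hA y hyw
    rw [mem_closedBall, dist_eq_norm]
    calc ‖h.toFun y - A x‖ = ‖(h.toFun y - A y) + (A y - A x)‖ := by congr 1; abel
      _ ≤ ‖h.toFun y - A y‖ + ‖A y - A x‖ := norm_add_le _ _
      _ ≤ (M + 3 * a) / 2 ^ (m + j) + M / 2 ^ (m + j) := by gcongr
      _ = _ := by ring
  have h4 := _root_.P073.H953.fill_dyc hΛ h hΩ h1 (mem_image_of_mem _ hx)
  rw [mem_closedBall, dist_eq_norm] at h4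
  refine h4.trans ?_
  gcongr
  linarith

/-- a point of a cube of generation `n` is in a sub-cube of generation `N ≥ n` -/
theorem exists_sub {n N : ℕ} (hn : n ≤ N) {q : Fin 3 → ℤ} {x : V} (hx : x ∈ dyc v n q) :
    ∃ w, x ∈ dyc v N w ∧ dyc v N w ⊆ dyc v n q := by
  obtain ⟨i, rfl⟩ := Nat.exists_eq_add_of_le hn
  have hp : (0:ℝ) < 2 ^ (n + i) := by positivity
  have hpn : (0:ℝ) < 2 ^ n := by positivity
  have hpi : (0:ℤ) < 2 ^ i := by positivity
  -- the index, cut off at the upper end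
  refine ⟨fun k => min ⌊2 ^ (n + i) * (x k - v k)⌋ ((q k + 1) * 2 ^ i - 1), fun k => ?_,
    fun y hy k => ?_⟩
  · obtain ⟨h1, h2⟩ := hx k
    have h3 : ((q k + 1 : ℝ)) / 2 ^ n = (q k + 1) * 2 ^ i / 2 ^ (n + i) := by
      rw [pow_add]; field_simp
    constructor
    · have h4 : ((min ⌊2 ^ (n + i) * (x k - v k)⌋ ((q k + 1) * 2 ^ i - 1) : ℤ) : ℝ) ≤
          2 ^ (n + i) * (x k - v k) :=
        (Int.cast_le.2 (min_le_left _ _)).trans (Int.floor_le _)
      have h5 : ((min ⌊2 ^ (n + i) * (x k - v k)⌋ ((q k + 1) * 2 ^ i - 1) : ℤ) : ℝ) / 2 ^ (n + i) ≤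
          x k - v k := by
        rw [div_le_iff₀ hp]; linarith
      linarith
    · rcases min_cases ⌊2 ^ (n + i) * (x k - v k)⌋ ((q k + 1) * 2 ^ i - 1) with ⟨h4, -⟩ | ⟨h4, -⟩
      · show x k ≤ v k + (((min ⌊2 ^ (n + i) * (x k - v k)⌋ ((q k + 1) * 2 ^ i - 1) : ℤ) : ℝ) + 1) /
          2 ^ (n + i)
        rw [h4]
        have h5 := (Int.lt_floor_add_one (2 ^ (n + i) * (x k - v k))).le
        have h6 : x k - v k ≤ ((⌊2 ^ (n + i) * (x k - v k)⌋ : ℝ) + 1) / 2 ^ (n + i) := by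
          rw [le_div_iff₀ hp]; linarith
        linarith
      · show x k ≤ v k + (((min ⌊2 ^ (n + i) * (x k - v k)⌋ ((q k + 1) * 2 ^ i - 1) : ℤ) : ℝ) + 1) /
          2 ^ (n + i)
        rw [h4]
        push_cast
        rw [sub_add_cancel, ← h3]
        exact h2
  · obtain ⟨h1, h2⟩ := hy k
    have h3 : (q k : ℝ) / 2 ^ n = q k * 2 ^ i / 2 ^ (n + i) := by
      rw [pow_add]; field_simp
    have h3' : ((q k + 1 : ℝ)) / 2 ^ n = (q k + 1) * 2 ^ i / 2 ^ (n + i) := by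
      rw [pow_add]; field_simp
    have hx1 := (hx k).1
    have h4 : q k * 2 ^ i ≤ ⌊2 ^ (n + i) * (x k - v k)⌋ := by
      rw [Int.le_floor]
      push_cast
      have h5 : (q k : ℝ) * 2 ^ i / 2 ^ (n + i) ≤ x k - v k := by rw [← h3]; linarith
      rw [div_le_iff₀ hp] at h5
      linarith
    have h6 : q k * 2 ^ i ≤ (q k + 1) * 2 ^ i - 1 := by
      have : (q k + 1) * 2 ^ i = q k * 2 ^ i + 2 ^ i := by ring
      omega
    have h7 : (q k : ℝ) * 2 ^ i ≤
        ((min ⌊2 ^ (n + i) * (x k - v k)⌋ ((q k + 1) * 2 ^ i - 1) : ℤ) : ℝ) := by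
      exact_mod_cast le_min h4 h6
    have h8 : ((min ⌊2 ^ (n + i) * (x k - v k)⌋ ((q k + 1) * 2 ^ i - 1) : ℤ) : ℝ) + 1 ≤
        (q k + 1) * 2 ^ i := by
      have : min ⌊2 ^ (n + i) * (x k - v k)⌋ ((q k + 1) * 2 ^ i - 1) + 1 ≤ (q k + 1) * 2 ^ i := by
        have := min_le_right ⌊2 ^ (n + i) * (x k - v k)⌋ ((q k + 1) * 2 ^ i - 1)
        omega
      exact_mod_cast this
    constructor
    · rw [h3]
      have : (q k : ℝ) * 2 ^ i / 2 ^ (n + i) ≤
        ((min ⌊2 ^ (n + i) * (x k - v k)⌋ ((q k + 1) * 2 ^ i - 1) : ℤ) : ℝ) / 2 ^ (n + i) := by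
        gcongr
      linarith
    · rw [h3']
      have : (((min ⌊2 ^ (n + i) * (x k - v k)⌋ ((q k + 1) * 2 ^ i - 1) : ℤ) : ℝ) + 1) /
          2 ^ (n + i) ≤ (q k + 1) * 2 ^ i / 2 ^ (n + i) := by
        gcongr
      linarith

/-- **[CLOSE-SUB]** -/
theorem close_sub {p : ℝ} {ε : ℝ≥0∞} {θ M κ c₀ t₀ δ₀ : ℝ} {f : V → V} {F : V → Mat} {T : Set V}
    (hΛ : IsOpen Λ) (P : P2Cells p ε θ M κ c₀ t₀ δ₀ j Ω Λ f F T v m) (hM : 0 ≤ M)
    {ι : Type} {D c : ι → Set V} {s : ι → Idx × Fin 3}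
    (hclean : ∀ i, ∃ z ∈ P.J, Clean v m j z (s i))
    (hball : ∀ i, ConBall 2 (D i) (c i)) (hsub : ∀ i, D i ⊆ rel v (s i))
    (hdisj : ∀ i i', i ≠ i' → Disjoint (D i) (D i')) {a : ℝ} (ha : 0 ≤ a) (h : ConHomeo Ω Λ)
    (hgood : ∀ z ∈ P.J, ∀ s, Clean v m j z s → ∀ x ∈ squ v s, (∀ i, x ∉ D i \ c i) →
      ‖h.toFun x - P.A z x‖ ≤ a / 2 ^ (m + j))
    (hdisc : ∀ i, ∀ x ∈ D i, ∀ y ∈ D i, ‖h.toFun x - h.toFun y‖ ≤ 2 * a / 2 ^ (m + j))
    {z : Fin 3 → ℤ} (hz : z ∈ P.J) (hΩ : dyc v m z ⊆ Ω) {n : ℕ} (hn : n ≤ m + j)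
    {q : Fin 3 → ℤ} (hq : dyc v n q ⊆ dyo v m z) :
    ∀ x ∈ dyc v n q, ‖h.toFun x - P.A z x‖ ≤ (3 * M + 3 * a) / 2 ^ (m + j) := by
  intro x hx
  obtain ⟨w, hxw, hwq⟩ := exists_sub hn hx
  have hwz : dyc v (m + j) w ⊆ dyo v m z := hwq.trans hq
  refine close_cube hΛ h (P.aff z hz) (P.above z hz) hM hwz
    (hwz.trans fun y hy => hΩ fun k => ⟨(hy k).1.le, (hy k).2.le⟩) (fun t ht y hy => ?_) hxw
  exact close_squ hclean hball hsub hdisj P.aff P.above hM ha hgood hdisc hz ht hy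

end Vale.Agent.P073.H439
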