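import Vale.Agent.P073.H235.PreParts
import Vale.Agent.P073.H407.PlateT3
import Vale.Agent.P073.AB.Sum308d

/-!
# P073, block A16: the density on the flat box, **[ENER]**
-/

namespace Vale.Agent.P073.H439.EN

open MeasureTheory Set Filter Topology Metric Vale.Agent.P073.St Vale.Agent.P073.AB
open Vale.Agent.P073.H235
open Vale.Agent.P073.SQ (ev)
open Vale.Agent.P073.H194 (sInt Gen idx measurableSet_dyc update_mem_squ)
open _root_.P073.Net (len dyc dyo)
open scoped ENNReal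

theorem norm_P2 : ‖P2‖ ≤ 1 := by
  refine ContinuousLinearMap.opNorm_le_bound _ zero_le_one fun x => ?_
  have h := H407.norm_P2_sub_le x 0
  rw [one_mul]
  simpa using h

/-- `G ≤ 2 ^ p (H₁ + 1)` -/
theorem dens_le {p : ℝ} (hp : 1 ≤ p) (A : V →L[ℝ] V) :
    ‖A‖ₑ ^ p + 1 ≤ ENNReal.ofReal (2 ^ p) * (‖A - P2‖ₑ ^ p + 1) := by
  have h0 : (0:ℝ) ≤ p := zero_le_one.trans hp
  have h1 : ‖A‖ₑ ≤ ‖A - P2‖ₑ + 1 := by
    have h2 : ‖A‖ ≤ ‖A - P2‖ + 1 := by
      have h3 := norm_add_le (A - P2) P2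
      rw [sub_add_cancel] at h3
      linarith [norm_P2]
    rw [← ofReal_norm, ← ofReal_norm, ← ENNReal.ofReal_one,
      ← ENNReal.ofReal_add (norm_nonneg _) zero_le_one]
    exact ENNReal.ofReal_le_ofReal h2
  have h2 : (2:ℝ≥0∞) ^ (p - 1) + 1 ≤ ENNReal.ofReal (2 ^ p) := by
    have e1 : (2:ℝ≥0∞) ^ (p - 1) = ENNReal.ofReal (2 ^ (p - 1)) := by
      rw [← ENNReal.ofReal_rpow_of_pos (by norm_num)]
      norm_num
    rw [e1, ← ENNReal.ofReal_one, ← ENNReal.ofReal_add (by positivity) (by norm_num)]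
    refine ENNReal.ofReal_le_ofReal ?_
    have e2 : (2:ℝ) ^ p = 2 * 2 ^ (p - 1) := by
      rw [Real.rpow_sub_one (by norm_num)]
      ring
    have e3 : (1:ℝ) ≤ 2 ^ (p - 1) := Real.one_le_rpow (by norm_num) (by linarith)
    linarith
  calc ‖A‖ₑ ^ p + 1 ≤ (‖A - P2‖ₑ + 1) ^ p + 1 := by
        gcongr
    _ ≤ 2 ^ (p - 1) * (‖A - P2‖ₑ ^ p + 1 ^ p) + 1 := by
        gcongr
        exact ENNReal.rpow_add_le_mul_rpow_add_rpow _ _ hp
    _ = 2 ^ (p - 1) * (‖A - P2‖ₑ ^ p + 1) + 1 := by rw [ENNReal.one_rpow]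
    _ ≤ 2 ^ (p - 1) * (‖A - P2‖ₑ ^ p + 1) + 1 * (‖A - P2‖ₑ ^ p + 1) := by
        gcongr
        rw [one_mul]
        exact le_add_self
    _ = ((2:ℝ≥0∞) ^ (p - 1) + 1) * (‖A - P2‖ₑ ^ p + 1) := by rw [add_mul]
    _ ≤ _ := by gcongr

/-- Young -/
theorem young {p t : ℝ} (hp : 1 ≤ p) (ht : 0 < t) (a : ℝ≥0∞) :
    a ≤ ENNReal.ofReal t + ENNReal.ofReal (t ^ (1 - p)) * a ^ p := by
  rcases le_total a (ENNReal.ofReal t) with h | h
  · exact h.trans le_self_add
  · rcases eq_or_ne a ⊤ with rfl | ha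
    · have h1 : (⊤:ℝ≥0∞) ^ p = ⊤ := ENNReal.top_rpow_of_pos (by linarith)
      have h2 : ENNReal.ofReal (t ^ (1 - p)) ≠ 0 := by
        rw [Ne, ENNReal.ofReal_eq_zero, not_le]
        positivity
      rw [h1, ENNReal.mul_top h2]
      exact le_add_self
    · have h0 : a ≠ 0 := by
        intro h0
        rw [h0] at h
        have := ENNReal.ofReal_pos.2 ht
        exact absurd h (not_le.2 this)
      refine le_trans ?_ le_add_self
      have e1 : ENNReal.ofReal (t ^ (1 - p)) = ENNReal.ofReal t ^ (1 - p) := by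
        rw [ENNReal.ofReal_rpow_of_pos ht]
      have e2 : a ^ (1 - p) ≤ ENNReal.ofReal t ^ (1 - p) := by
        have e3 : (1 - p) = -(p - 1) := by ring
        rw [e3, ENNReal.rpow_neg, ENNReal.rpow_neg]
        exact ENNReal.inv_le_inv.2 (ENNReal.rpow_le_rpow h (by linarith))
      calc a = a ^ (1 - p) * a ^ p := by
            rw [← ENNReal.rpow_add _ _ h0 ha]
            simp
        _ ≤ _ := by
            rw [e1]
            gcongr

theorem sInt_const (v : V) (s : Idx × Fin 3) (c : ℝ≥0∞) :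
    sInt v s (fun _ => c) = c * ENNReal.ofReal (1 / 4 ^ s.1.1) := by
  unfold sInt
  rw [setLIntegral_const, AB.S308.volume_dyc]
  have h1 : (2:ℝ≥0∞) ^ s.1.1 = ENNReal.ofReal (2 ^ s.1.1) := by
    rw [ENNReal.ofReal_pow (by norm_num)]
    norm_num
  rw [h1, mul_comm, mul_assoc, ← ENNReal.ofReal_mul (by positivity)]
  congr 2
  have : (4:ℝ) ^ s.1.1 = 2 ^ s.1.1 * 2 ^ s.1.1 := by
    rw [← mul_pow]; norm_num
  have h8 : (8:ℝ) ^ s.1.1 = (2 ^ s.1.1) ^ 3 := by
    rw [← pow_mul, mul_comm s.1.1 3, pow_mul]; norm_num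
  rw [this, h8]
  field_simp

/-- linearity -/
theorem sInt_affine (v : V) (s : Idx × Fin 3) {H : V → ℝ≥0∞} (hH : Measurable H) (a b : ℝ≥0∞) :
    sInt v s (fun x => a * H x + b) = a * sInt v s H + b * ENNReal.ofReal (1 / 4 ^ s.1.1) := by
  have hm : Measurable fun x : V => H (Function.update x s.2 (pt v s.1.1 s.1.2 s.2)) :=
    hH.comp (measurable_update_left)
  have h1 : sInt v s (fun x => a * H x + b) =
      sInt v s (fun x => a * H x) + sInt v s (fun _ => b) := by
    unfold sInt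
    rw [← mul_add, lintegral_add_right _ measurable_const]
  have h2 : sInt v s (fun x => a * H x) = a * sInt v s H := by
    unfold sInt
    rw [lintegral_const_mul _ hm]
    ring
  rw [h1, h2, sInt_const]

/-- the volume of a box -/
theorem volume_box (a b : V) : volume {x : V | ∀ i, a i < x i ∧ x i < b i} =
    ∏ i, ENNReal.ofReal (b i - a i) := by
  have : {x : V | ∀ i, a i < x i ∧ x i < b i} = pi univ fun i => Ioo (a i) (b i) := by
    ext x
    simp
  rw [this, Real.volume_pi_Ioo]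

theorem fl0 (θ : ℝ) : fl θ 0 = 1 := rfl
theorem fl1 (θ : ℝ) : fl θ 1 = 1 := rfl
theorem fl2 (θ : ℝ) : fl θ 2 = 2 * θ := rfl

theorem isOpen_Bx (a : V) : IsOpen (Bx a) := by
  have : Bx a = ⋂ i, {x : V | 0 < x i ∧ x i < a i} := by
    ext x
    simp [Bx]
  rw [this]
  refine isOpen_iInter_of_finite fun i => ?_
  exact (isOpen_lt continuous_const (continuous_apply i)).inter
    (isOpen_lt (continuous_apply i) continuous_const)

theorem volume_Bx_le (θ : ℝ) :
    volume (Bx (fl θ)) ≤ ENNReal.ofReal (2 * θ) := by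
  have h := volume_box 0 (fl θ)
  have h1 : Bx (fl θ) = {x : V | ∀ i, (0 : V) i < x i ∧ x i < fl θ i} := rfl
  rw [h1, h, Fin.prod_univ_three, fl0, fl1, fl2]
  simp

/-- a layer of the flat box -/
theorem volume_layer {θ : ℝ} (i : Fin 3) (s t : ℝ) (hst : s ≤ t) :
    volume (Bx (fl θ) ∩ {x | s ≤ x i ∧ x i ≤ t}) ≤ ENNReal.ofReal ((t - s) *
      if i = 2 then 1 else 2 * θ) := by
  have hsub : Bx (fl θ) ∩ {x | s ≤ x i ∧ x i ≤ t} ⊆
      pi univ fun j => if j = i then Icc s t else Icc 0 (fl θ j) := by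
    rintro x ⟨hx, hx'⟩ j -
    by_cases hj : j = i
    · subst hj
      simpa using hx'
    · simp only [hj, if_false]
      exact ⟨(hx j).1.le, (hx j).2.le⟩
  refine (measure_mono hsub).trans ?_
  rw [volume_pi_pi]
  have e2 : ENNReal.ofReal ((t - s) * (2 * θ)) =
      ENNReal.ofReal (t - s) * (2 * ENNReal.ofReal θ) := by
    rw [ENNReal.ofReal_mul (sub_nonneg.2 hst), ENNReal.ofReal_mul (by norm_num)]
    norm_num
  fin_cases i
  · simp [Fin.prod_univ_three, fl1, fl2, e2]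
  · simp [Fin.prod_univ_three, fl0, fl2, e2]
  · simp [Fin.prod_univ_three, fl0, fl1]

theorem volume_frame {θ : ℝ} (hθ : 0 < θ) {ν : ℝ} (hν : 0 < ν) :
    volume (Bx (fl θ) ∩ Fr (fl θ) (3 * ν) {0, 1}) ≤ ENNReal.ofReal (24 * ν * θ) := by
  have hsub : Bx (fl θ) ∩ Fr (fl θ) (3 * ν) {0, 1} ⊆
      ((Bx (fl θ) ∩ {x | 0 ≤ x 0 ∧ x 0 ≤ 3 * ν}) ∪
        (Bx (fl θ) ∩ {x | 1 - 3 * ν ≤ x 0 ∧ x 0 ≤ 1})) ∪
      ((Bx (fl θ) ∩ {x | 0 ≤ x 1 ∧ x 1 ≤ 3 * ν}) ∪
        (Bx (fl θ) ∩ {x | 1 - 3 * ν ≤ x 1 ∧ x 1 ≤ 1})) := by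
    rintro x ⟨hx, i, hi, h⟩
    simp only [Finset.mem_insert, Finset.mem_singleton] at hi
    have hx0 := hx 0
    have hx1 := hx 1
    rw [fl0] at hx0
    rw [fl1] at hx1
    rcases hi with rfl | rfl
    · rw [fl0, mul_one, mul_one] at h
      left
      rcases h with h | h
      · exact Or.inl ⟨hx, hx0.1.le, h⟩
      · exact Or.inr ⟨hx, h, hx0.2.le⟩
    · rw [fl1, mul_one, mul_one] at h
      right
      rcases h with h | h
      · exact Or.inl ⟨hx, hx1.1.le, h⟩
      · exact Or.inr ⟨hx, h, hx1.2.le⟩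
  have a1 := volume_layer (θ := θ) 0 0 (3 * ν) (by positivity)
  have a2 := volume_layer (θ := θ) 0 (1 - 3 * ν) 1 (by linarith)
  have a3 := volume_layer (θ := θ) 1 0 (3 * ν) (by positivity)
  have a4 := volume_layer (θ := θ) 1 (1 - 3 * ν) 1 (by linarith)
  rw [if_neg (by decide)] at a1 a2 a3 a4
  have e : ENNReal.ofReal (24 * ν * θ) =
      (ENNReal.ofReal ((3 * ν - 0) * (2 * θ)) + ENNReal.ofReal ((1 - (1 - 3 * ν)) * (2 * θ))) +
      (ENNReal.ofReal ((3 * ν - 0) * (2 * θ)) +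
        ENNReal.ofReal ((1 - (1 - 3 * ν)) * (2 * θ))) := by
    have e1 : 1 - (1 - 3 * ν) = 3 * ν - 0 := by ring
    rw [e1, ← ENNReal.ofReal_add (by nlinarith) (by nlinarith),
      ← ENNReal.ofReal_add (by nlinarith) (by nlinarith)]
    congr 1
    ring
  refine (measure_mono hsub).trans ?_
  rw [e]
  refine (measure_union_le _ _).trans (add_le_add ?_ ?_)
  · exact (measure_union_le _ _).trans (add_le_add a1 a2)
  · exact (measure_union_le _ _).trans (add_le_add a3 a4)

theorem Bk_one {θ : ℝ} (hθ' : θ ≤ 1 / 2) {x : V} (hx : x ∈ Bx (fl θ)) : H194.Bk 1 x = 1 := by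
  unfold H194.Bk
  refine indicator_of_mem ?_ _
  rw [mem_closedBall_zero_iff]
  refine (pi_norm_le_iff_of_nonneg (by norm_num)).2 fun j => ?_
  have h1 := hx j
  have h2 : fl θ j ≤ 1 := by
    fin_cases j
    · exact le_rfl
    · exact le_rfl
    · show 2 * θ ≤ 1
      linarith
  rw [Real.norm_eq_abs, abs_of_pos h1.1]
  push_cast
  linarith [h1.2]

/-- **[ENER]** -/
theorem specEner : SpecEner := by
  intro p C₀ θ κ m₀ Λ f F hp hθ hθ' D
  have hpos : (0:ℝ) < p := by linarith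
  have hG : ∀ x ∈ Bx (fl θ), x ∉ D.N → D.H x + H194.Bk 1 x ≤
      ENNReal.ofReal (2 ^ p) * (D.H₁ x + 1) := by
    intro x hx hN
    rw [D.eq x hx hN, D.eq₁ x hx hN, Bk_one hθ' hx]
    exact dens_le hp _
  have hae : ∀ᵐ x : V, x ∉ D.N := measure_eq_zero_iff_ae_notMem.1 D.null
  refine ⟨fun R hR hRm => ?_, fun x hx => Bk_one hθ' hx, volume_Bx_le θ,
    fun ν hν => volume_frame hθ hν, fun c ε N hε => ?_, fun n S hS => ?_⟩
  · calc ∫⁻ x in R, (D.H x + H194.Bk 1 x)
        ≤ ∫⁻ x in R, ENNReal.ofReal (2 ^ p) * (D.H₁ x + 1) := by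
          refine lintegral_mono_ae ?_
          filter_upwards [ae_restrict_mem hRm, ae_restrict_of_ae hae] with x h1 h2
          exact hG x (hR h1) h2
      _ = _ := by
          rw [lintegral_const_mul _ (D.meas₁.add_const 1),
            lintegral_add_right _ measurable_const, setLIntegral_const, one_mul]
  · -- thin layers
    have hfin : ∫⁻ x in Bx (fl θ), (D.H x + H194.Bk 1 x) ≠ ⊤ := by
      rw [lintegral_add_left D.meas]
      refine ENNReal.add_ne_top.2 ⟨ne_top_of_le_ne_top D.fin (setLIntegral_le_lintegral _ _), ?_⟩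
      have h1 : ∫⁻ x in Bx (fl θ), H194.Bk 1 x ≤ volume (Bx (fl θ)) := by
        rw [setLIntegral_congr_fun (isOpen_Bx _).measurableSet fun x hx => Bk_one hθ' hx,
          setLIntegral_const, one_mul]
      exact ne_top_of_le_ne_top (ne_top_of_le_ne_top ENNReal.ofReal_ne_top (volume_Bx_le θ)) h1
    have hlim : Tendsto (fun n : ℕ => volume.restrict (Bx (fl θ))
        {x : V | |x 2 - c| ≤ 1 / 2 ^ n}) atTop (𝓝 0) := by
      have hup : ∀ n : ℕ, volume.restrict (Bx (fl θ)) {x : V | |x 2 - c| ≤ 1 / 2 ^ n} ≤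
          ENNReal.ofReal (2 * (1 / 2) ^ n) := by
        intro n
        have hm : MeasurableSet {x : V | |x 2 - c| ≤ 1 / 2 ^ n} :=
          (isClosed_le (by fun_prop) continuous_const).measurableSet
        rw [Measure.restrict_apply hm, inter_comm]
        have h2 := volume_layer (θ := θ) 2 (c - 1 / 2 ^ n) (c + 1 / 2 ^ n)
          (by have : (0:ℝ) < 1 / 2 ^ n := by positivity
              linarith)
        refine (measure_mono ?_).trans (h2.trans (ENNReal.ofReal_le_ofReal ?_))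
        · rintro x ⟨hx, hx'⟩
          have h3 : -(1 / 2 ^ n) ≤ x 2 - c ∧ x 2 - c ≤ 1 / 2 ^ n := abs_le.1 hx'
          exact ⟨hx, by linarith [h3.1], by linarith [h3.2]⟩
        · rw [if_pos rfl, mul_one]
          have : (1:ℝ) / 2 ^ n = (1 / 2) ^ n := by rw [one_div_pow]
          rw [this]
          apply le_of_eq
          ring
      refine tendsto_of_tendsto_of_tendsto_of_le_of_le tendsto_const_nhds ?_
        (fun n => zero_le) hup
      have h3 : Tendsto (fun n : ℕ => 2 * ((1:ℝ) / 2) ^ n) atTop (𝓝 (2 * 0)) :=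
        (tendsto_pow_atTop_nhds_zero_of_lt_one (by norm_num) (by norm_num)).const_mul 2
      have h4 := ENNReal.tendsto_ofReal h3
      simpa using h4
    have h5 := tendsto_setLIntegral_zero hfin hlim
    have h6 := h5.eventually_le_const (ENNReal.ofReal_pos.2 hε)
    obtain ⟨n, hn, hnN⟩ := (h6.and (eventually_ge_atTop N)).exists
    refine ⟨n, hnN, ?_⟩
    have hm : MeasurableSet {x : V | |x 2 - c| ≤ 1 / 2 ^ n} :=
      (isClosed_le (by fun_prop) continuous_const).measurableSet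
    rw [Measure.restrict_restrict hm, inter_comm] at hn
    exact hn
  · -- squares
    classical
    have hcard : (∑ k ∈ S, ENNReal.ofReal (1 / 4 ^ n)) = ENNReal.ofReal ((S.card : ℝ) / 4 ^ n) := by
      rw [Finset.sum_const, nsmul_eq_mul, ← ENNReal.ofReal_natCast,
        ← ENNReal.ofReal_mul (by positivity)]
      congr 1
      ring
    refine ⟨?_, fun t ht => ?_⟩
    · set A' : V → ℝ≥0∞ := fun x => if x ∈ D.N then 0 else D.H x + H194.Bk 1 x with hA'
      have h1 : ∀ k ∈ S, sInt D.v ((n, k), 2) (fun x => D.H x + H194.Bk 1 x) ≤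
          ENNReal.ofReal (2 ^ p) * (sInt D.v ((n, k), 2) D.H₁ +
            ENNReal.ofReal (1 / 4 ^ n)) := by
        intro k hk
        have h2 : sInt D.v ((n, k), 2) (fun x => D.H x + H194.Bk 1 x) =
            sInt D.v ((n, k), 2) A' :=
          (D.rep _ _ fun x hx => by rw [hA']; simp [hx]).2 _
        have h3 : sInt D.v ((n, k), 2) A' ≤ sInt D.v ((n, k), 2)
            (fun x => ENNReal.ofReal (2 ^ p) * D.H₁ x + ENNReal.ofReal (2 ^ p)) := by
          refine H194.sInt_mono fun x hx => ?_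
          by_cases hN : x ∈ D.N
          · simp [hA', hN]
          · have h4 := hG x (hS k hk hx) hN
            rw [mul_add, mul_one] at h4
            simpa [hA', hN] using h4
        rw [h2]
        refine h3.trans (le_of_eq ?_)
        rw [sInt_affine _ _ D.meas₁, mul_add]
      calc ∑ k ∈ S, sInt D.v ((n, k), 2) (fun x => D.H x + H194.Bk 1 x)
          ≤ ∑ k ∈ S, ENNReal.ofReal (2 ^ p) * (sInt D.v ((n, k), 2) D.H₁ +
            ENNReal.ofReal (1 / 4 ^ n)) := Finset.sum_le_sum h1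
        _ = _ := by rw [← Finset.mul_sum, Finset.sum_add_distrib, hcard]
    · set B : V → ℝ≥0∞ := fun x => ‖cl (cmpD (fl θ) F x) - P2‖ₑ with hB
      set B' : V → ℝ≥0∞ := fun x => if x ∈ D.N then 0 else B x with hB'
      have h1 : ∀ k ∈ S, sInt D.v ((n, k), 2) B ≤
          ENNReal.ofReal (t ^ (1 - p)) * sInt D.v ((n, k), 2) D.H₁ +
            ENNReal.ofReal t * ENNReal.ofReal (1 / 4 ^ n) := by
        intro k hk
        have h2 : sInt D.v ((n, k), 2) B = sInt D.v ((n, k), 2) B' :=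
          (D.rep _ _ fun x hx => by rw [hB']; simp [hx]).2 _
        have h3 : sInt D.v ((n, k), 2) B' ≤ sInt D.v ((n, k), 2)
            (fun x => ENNReal.ofReal (t ^ (1 - p)) * D.H₁ x + ENNReal.ofReal t) := by
          refine H194.sInt_mono fun x hx => ?_
          by_cases hN : x ∈ D.N
          · simp [hB', hN]
          · have h4 := young hp ht (B x)
            have h5 : D.H₁ x = B x ^ p := D.eq₁ x (hS k hk hx) hN
            rw [add_comm, ← h5] at h4
            simpa [hB', hN] using h4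
        rw [h2]
        refine h3.trans (le_of_eq ?_)
        rw [sInt_affine _ _ D.meas₁]
      have h6 : ENNReal.ofReal (t * (S.card / 4 ^ n)) =
          ∑ k ∈ S, ENNReal.ofReal t * ENNReal.ofReal (1 / 4 ^ n) := by
        rw [← Finset.mul_sum, hcard, ENNReal.ofReal_mul ht.le]
      rw [h6, Finset.mul_sum, add_comm, ← Finset.sum_add_distrib]
      exact Finset.sum_le_sum h1

end Vale.Agent.P073.H439.EN
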