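import Vale.Agent.P073.H439.P2K0

/-!
# P073, P2h (exponent two, rank three): [K1], closeness of the cleaned homeomorphism
-/

namespace Vale.Agent.P073.H439

open MeasureTheory Set Filter Topology Metric Vale.Agent.P073.St Vale.Agent.P073.AB
open Vale.Agent.P073.SQ (ev)
open Vale.Agent.P073.AB.P86 (rel)
open Vale.Agent.P073.H234
open _root_.P073.Net (dyc dyo)
open _root_.P073 (ConBall ConHomeo)
open scoped ENNReal

variable {p : ℝ} {ε : ℝ≥0∞} {θ M κ c₀ t₀ δ₀ ε₁ : ℝ} {j : ℕ} {Ω Λ : Set V} {f : V → V}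
  {F : V → Mat} {T : Set V} {v : V} {m : ℕ}
  {C : P2Cells p ε θ M κ c₀ t₀ δ₀ j Ω Λ f F T v m} {β σ : ℝ}

/-- the centre of the neck is close to the affine images of the points near `o` -/
theorem near_b2 (hT : TSet θ M κ t₀ δ₀ ε₁ Ω f F T) (hN : Num θ M κ β) {b o : V} {z : Fin 3 → ℤ}
    {s : Idx × Fin 3} (H : NeckPt C β b o z s) {z' : Fin 3 → ℤ} (hz' : z' ∈ C.J) {a : Fin 3 → ℤ}
    (ha : pt v (m + j) a ∈ dyc v m z') {x : V} (hxa : ‖x - pt v (m + j) a‖ ≤ 1 / 2 ^ (m + j))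
    (hxo : ‖x - o‖ ≤ 16 * β / θ / 2 ^ (m + j)) (hxt : ‖x - o‖ ≤ 3 / 2 * t₀) :
    ‖C.A z' x - b‖ ≤ (16 * M / θ + 7 / 2) * β / 2 ^ (m + j) := by
  have hθ := hN.θ0
  have hβ := hN.β0
  have hM := hN.M0
  have hκβ := hN.κβ
  have hκθ := hN.κθ
  have hr : (0:ℝ) < 1 / 2 ^ (m + j) := by positivity
  have hk := kap_nonneg C H.mem
  have hl := C.lat_le
  have ht := hT.t_pos C
  obtain ⟨h1, h2, h3⟩ := H.vert
  have h4 : ‖C.A z' x - C.A z' x‖ ≤ 0 := by rw [sub_self, norm_zero]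
  have h5 := C.at_vertex hz' ha h4
  have h6 : κ * ‖x - pt v (m + j) a‖ ≤ κ * (1 / 2 ^ (m + j)) := mul_le_mul_of_nonneg_left hxa hk
  have h7 : ‖pt v (m + j) a - pt v (m + j) s.1.2‖ ≤ ‖x - o‖ + 2 * (1 / 2 ^ (m + j)) := by
    calc ‖pt v (m + j) a - pt v (m + j) s.1.2‖
        = ‖-(x - pt v (m + j) a) + (x - o) + (o - pt v (m + j) s.1.2)‖ := by
          congr 1; abel
      _ ≤ ‖-(x - pt v (m + j) a)‖ + ‖x - o‖ + ‖o - pt v (m + j) s.1.2‖ := norm_add₃_le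
      _ ≤ 1 / 2 ^ (m + j) + ‖x - o‖ + 1 / 2 ^ (m + j) := by
          rw [norm_neg]
          gcongr
      _ = _ := by ring
  have h8 := hT.upp_of (C.vert z' hz' a ha).1 h1 (by linarith) h5 h3
  have h9 : M * ‖x - o‖ ≤ 16 * M / θ * β * (1 / 2 ^ (m + j)) := by
    calc M * ‖x - o‖ ≤ M * (16 * β / θ / 2 ^ (m + j)) := by gcongr
      _ = _ := by ring
  have h10 : κ * ‖pt v (m + j) a - pt v (m + j) s.1.2‖ ≤
      β * (1 / 2 ^ (m + j)) + 2 * κ * (1 / 2 ^ (m + j)) := by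
    have h11 : κ * ‖x - o‖ ≤ β * (1 / 2 ^ (m + j)) := by
      have h12 : κ * (16 / θ) ≤ 1 := by
        rw [mul_div_assoc', div_le_one hθ]
        linarith
      calc κ * ‖x - o‖ ≤ κ * (16 * β / θ / 2 ^ (m + j)) := by gcongr
        _ = (κ * (16 / θ)) * (β * (1 / 2 ^ (m + j))) := by ring
        _ ≤ 1 * (β * (1 / 2 ^ (m + j))) := by gcongr
        _ = _ := one_mul _
    calc κ * ‖pt v (m + j) a - pt v (m + j) s.1.2‖ ≤ κ * (‖x - o‖ + 2 * (1 / 2 ^ (m + j))) := by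
          gcongr
      _ = κ * ‖x - o‖ + 2 * κ * (1 / 2 ^ (m + j)) := by ring
      _ ≤ _ := by gcongr
  have h11 : 8 * κ * (1 / 2 ^ (m + j)) ≤ β / 2 * (1 / 2 ^ (m + j)) :=
    mul_le_mul_of_nonneg_right (by linarith) hr.le
  have h12 : 0 ≤ κ * (1 / 2 ^ (m + j)) := by positivity
  have e1 : κ / 2 ^ (m + j) = κ * (1 / 2 ^ (m + j)) := by ring
  have e2 : (2 * β + 2 * κ) / 2 ^ (m + j) = (2 * β + 2 * κ) * (1 / 2 ^ (m + j)) := by ring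
  have e3 : (16 * M / θ + 7 / 2) * β / 2 ^ (m + j) =
    16 * M / θ * β * (1 / 2 ^ (m + j)) + 7 / 2 * β * (1 / 2 ^ (m + j)) := by ring
  rw [e1, e2] at h8
  rw [e3]
  linarith

/-- `f` on the own edges -/
theorem edge_close2 (hT : TSet θ M κ t₀ δ₀ ε₁ Ω f F T) (hN : Num θ M κ β)
    {z' : Fin 3 → ℤ} {e : Idx × Fin 3} (hz' : z' ∈ C.J) (he : e.1.1 = m + j)
    (hez : edge v e ⊆ dyc v m z') {x : V} (hx : x ∈ edge v e) :
    ‖f x - C.A z' x‖ ≤ β / 2 ^ (m + j) ∧ pt v (m + j) e.1.2 ∈ dyc v m z' ∧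
      ‖x - pt v (m + j) e.1.2‖ ≤ 1 / 2 ^ (m + j) := by
  obtain ⟨t, ht0, ht1, rfl⟩ := exists_of_mem_edge hx
  have hr : (0:ℝ) < 1 / 2 ^ (m + j) := by positivity
  have hk := kap_nonneg C hz'
  have hl := C.lat_le
  have ht := hT.t_pos C
  have ha : pt v e.1.1 e.1.2 ∈ edge v e := left_mem_segment ℝ _ _
  have ha' : pt v (m + j) e.1.2 ∈ dyc v m z' := by
    have := hez ha
    rwa [he] at this
  obtain ⟨h1, h2, h3⟩ := C.vert z' hz' _ ha'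
  rw [he] at ht1 ⊢
  set a := pt v (m + j) e.1.2 with hadef
  have hxa : a + t • ev e.2 - a = t • ev e.2 := add_sub_cancel_left _ _
  have hn : ‖t • ev e.2‖ = t := by rw [norm_smul, S293.ev_norm, mul_one, Real.norm_eq_abs,
    abs_of_nonneg ht0]
  have h4 := hT.ray a h1 e.2 t (by rw [abs_of_nonneg ht0]; linarith)
  rw [abs_of_nonneg ht0] at h4
  refine ⟨?_, ha', by rw [hxa, hn]; exact ht1⟩
  have h5 : ‖(cl (F a) - C.L z') (t • ev e.2)‖ ≤ κ * t := by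
    calc _ ≤ ‖cl (F a) - C.L z'‖ * ‖t • ev e.2‖ := (cl (F a) - C.L z').le_opNorm _
      _ ≤ κ * t := by rw [hn]; gcongr
  have h6 := C.aff z' hz' a (a + t • ev e.2)
  rw [hxa] at h6
  have e1 : f (a + t • ev e.2) - C.A z' (a + t • ev e.2) =
      (f (a + t • ev e.2) - f a - t • cl (F a) (ev e.2)) + (f a - C.A z' a) +
        (cl (F a) - C.L z') (t • ev e.2) := by
    rw [_root_.sub_apply, ← h6, map_smul]
    abel
  rw [e1]
  have h7 : κ * t ≤ κ * (1 / 2 ^ (m + j)) := mul_le_mul_of_nonneg_left ht1 hk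
  have hκβ := hN.κβ
  have hβ := hN.β0
  calc _ ≤ ‖f (a + t • ev e.2) - f a - t • cl (F a) (ev e.2)‖ + ‖f a - C.A z' a‖ +
        ‖(cl (F a) - C.L z') (t • ev e.2)‖ := norm_add₃_le
    _ ≤ κ * (1 / 2 ^ (m + j)) + κ / 2 ^ (m + j) + κ * (1 / 2 ^ (m + j)) := by
        gcongr
        · exact h4.trans h7
        · exact h5.trans h7
    _ = 3 * κ * (1 / 2 ^ (m + j)) := by ring
    _ ≤ β * (1 / 2 ^ (m + j)) := mul_le_mul_of_nonneg_right (by linarith) hr.le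
    _ = _ := by ring

section

variable {Nk : Necks θ M β σ f v m j C.J C.A} {n N : ℕ} {J' : Finset (Fin 3 → ℤ)}
  {π : (Fin 3 → ℤ) → Fin 3 → ℤ} {η l₀ : ℝ} {o : Nk.γ → V} {h₀ h' h₁ : ConHomeo Ω Λ} {Tc : V → V}
  {G : Finset Nk.γ}

/-- a point off the lattice cubes is off the cubes of the discs -/
theorem notMem_qC (Nk : Necks θ M β σ f v m j C.J C.A) {x : V} (hx : ∀ w, x ∉ dyo v (m + j) w)
    (i : Nk.ι) : x ∉ qC v (Nk.s i) := by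
  obtain ⟨z₁, hz₁, hs₁⟩ := Nk.clean i
  refine qC_notMem fun w => ?_
  rw [hs₁.1]
  exact hx w

/-- `Tc` moves the points by at most `3 σ / 2 ^ (m + j)` -/
theorem disp_le (K : Cleaned C Nk n N J' η l₀ o h₀ h' h₁ Tc G) (y : V) :
    ‖Tc y - y‖ ≤ 3 * σ * (1 / 2 ^ (m + j)) := K.col.disp y

/-- the common step: `h'` -/
theorem close'_of (hT : TSet θ M κ t₀ δ₀ ε₁ Ω f F T) (hN : Num θ M κ β)
    (K : Cleaned C Nk n N J' η l₀ o h₀ h' h₁ Tc G) (hη : η ≤ β / 2 ^ (m + j)) (hσ : σ ≤ β / 2)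
    {z' : Fin 3 → ℤ} (hz' : z' ∈ C.J)
    {a : Fin 3 → ℤ} (ha : pt v (m + j) a ∈ dyc v m z') {x : V} (hxΩ : x ∈ Ω)
    (hxa : ‖x - pt v (m + j) a‖ ≤ 1 / 2 ^ (m + j)) (hxw : ∀ w, x ∉ dyo v (m + j) w)
    (hxD : ∀ i, x ∉ Nk.D i \ Nk.c i)
    (hfx : ‖f x - C.A z' x‖ ≤ β / 2 ^ (m + j))
    (hfar : ∀ g, 16 * β / θ / 2 ^ (m + j) < ‖x - o g‖ →
      x ∈ NSet v m j C.J t₀ Nk.D Nk.c Ω (o g) (16 * β / θ / 2 ^ (m + j))) :
    ‖h'.toFun x - C.A z' x‖ ≤ (16 * M / θ + 4) * β / 2 ^ (m + j) := by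
  have hθ := hN.θ0
  have hβ := hN.β0
  have hM := hN.M0
  have hr : (0:ℝ) < 1 / 2 ^ (m + j) := by positivity
  have hK : 0 ≤ 16 * M / θ * β * (1 / 2 ^ (m + j)) := by positivity
  have e3 : (16 * M / θ + 4) * β / 2 ^ (m + j) =
    16 * M / θ * β * (1 / 2 ^ (m + j)) + 4 * β * (1 / 2 ^ (m + j)) := by ring
  rcases K.dich x hxΩ fun i _ => notMem_qC Nk hxw i with h1 | ⟨g, hgG, hg⟩
  · rw [h1, e3]
    have h2 := K.near₀ x hxΩ
    have h3 : ‖h₀.toFun x - C.A z' x‖ ≤ ‖h₀.toFun x - f x‖ + ‖f x - C.A z' x‖ :=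
      norm_sub_le_norm_sub_add_norm_sub _ _ _
    have e1 : β / 2 ^ (m + j) = β * (1 / 2 ^ (m + j)) := by ring
    rw [e1] at hfx hη
    have h4 : 0 < β * (1 / 2 ^ (m + j)) := by positivity
    linarith
  · have hav : x ∉ NSet v m j C.J t₀ Nk.D Nk.c Ω (o g) (16 * β / θ / 2 ^ (m + j)) :=
      fun hx => K.avoid g hgG x hx (ball_subset_closedBall hg)
    have hxo : ‖x - o g‖ ≤ 16 * β / θ / 2 ^ (m + j) := by
      by_contra hcon
      exact hav (hfar g (not_le.1 hcon))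
    have hxt : ‖x - o g‖ ≤ 3 / 2 * t₀ := by
      by_contra hcon
      refine hav (Or.inl (Or.inl (Or.inl (Or.inl ⟨hxΩ, notMem_ownO hxw, hxD, fun hd => ?_⟩))))
      have := dbox_sub C.small hd
      rw [mem_closedBall, dist_eq_norm] at this
      exact hcon this
    obtain ⟨z₁, s₁, Ho, -⟩ := K.pt g hgG
    have h2 := near_b2 hT hN Ho hz' ha hxa hxo hxt
    have h3 := K.ρle g
    rw [Metric.mem_ball, dist_eq_norm] at hg
    have h4 : ‖h'.toFun x - C.A z' x‖ ≤ ‖h'.toFun x - Nk.b g‖ + ‖C.A z' x - Nk.b g‖ := by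
      rw [norm_sub_rev (C.A z' x)]
      exact norm_sub_le_norm_sub_add_norm_sub _ _ _
    have e1 : (16 * M / θ + 7 / 2) * β / 2 ^ (m + j) =
      16 * M / θ * β * (1 / 2 ^ (m + j)) + 7 / 2 * β * (1 / 2 ^ (m + j)) := by ring
    have e2 : σ / 2 ^ (m + j) = σ * (1 / 2 ^ (m + j)) := by ring
    have e4 : σ * (1 / 2 ^ (m + j)) ≤ β / 2 * (1 / 2 ^ (m + j)) :=
      mul_le_mul_of_nonneg_right hσ hr.le
    rw [e1] at h2
    rw [e2] at h3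
    rw [e3]
    linarith

/-- from `h'` to `h₁` -/
theorem close₁_of (hN : Num θ M κ β) (K : Cleaned C Nk n N J' η l₀ o h₀ h' h₁ Tc G)
    (hσ : σ ≤ β / 2) {x y : V} (hx : x ∈ Ω)
    (h : ‖h'.toFun x - y‖ ≤ (16 * M / θ + 4) * β / 2 ^ (m + j)) :
    ‖h₁.toFun x - y‖ ≤ (16 * M / θ + 20) * β / 2 ^ (m + j) := by
  have hr : (0:ℝ) < 1 / 2 ^ (m + j) := by positivity
  have hβ := hN.β0
  have h1 := disp_le K (h'.toFun x)
  rw [K.eq x hx]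
  have h2 : ‖Tc (h'.toFun x) - y‖ ≤ ‖Tc (h'.toFun x) - h'.toFun x‖ + ‖h'.toFun x - y‖ :=
    norm_sub_le_norm_sub_add_norm_sub _ _ _
  have h3 : 3 * σ * (1 / 2 ^ (m + j)) ≤ 3 / 2 * β * (1 / 2 ^ (m + j)) :=
    mul_le_mul_of_nonneg_right (by linarith) hr.le
  have e1 : (16 * M / θ + 4) * β / 2 ^ (m + j) =
    16 * M / θ * β * (1 / 2 ^ (m + j)) + 4 * β * (1 / 2 ^ (m + j)) := by ring
  have e2 : (16 * M / θ + 20) * β / 2 ^ (m + j) =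
    16 * M / θ * β * (1 / 2 ^ (m + j)) + 20 * β * (1 / 2 ^ (m + j)) := by ring
  rw [e1] at h
  rw [e2]
  have h4 : 0 < β * (1 / 2 ^ (m + j)) := by positivity
  linarith

/-- **[K1] (a), squares** -/
theorem K1.close'_sq (hT : TSet θ M κ t₀ δ₀ ε₁ Ω f F T) (hN : Num θ M κ β)
    (K : Cleaned C Nk n N J' η l₀ o h₀ h' h₁ Tc G) (hη : η ≤ β / 2 ^ (m + j)) (hσ : σ ≤ β / 2)
    {z : Fin 3 → ℤ} (hz : z ∈ C.J) {s : Idx × Fin 3} (hs : Clean v m j z s) {x : V}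
    (hx : x ∈ squ v s) (hxD : ∀ i, x ∉ Nk.D i \ Nk.c i) :
    ‖h'.toFun x - C.A z x‖ ≤ (16 * M / θ + 4) * β / 2 ^ (m + j) := by
  obtain ⟨h1, h2⟩ := hs.vertex
  have h3 := squ_dist hx h2
  rw [hs.1] at h3
  refine close'_of hT hN K hη hσ hz h1 (C.sub hT hz (hs.sub hx)) h3
    (squ_notMem_dyo hs.1 hx) hxD (Nk.close z hz s hs x hx hxD) fun g hg => ?_
  by_cases hc : ∃ i, x ∈ Nk.D i
  · obtain ⟨i, hi⟩ := hc
    have hxc : x ∈ Nk.c i := by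
      by_contra hn
      exact hxD i ⟨hi, hn⟩
    exact Or.inl (Or.inl (Or.inr ⟨i, hxc, x, hxc, hg⟩))
  · push Not at hc
    exact Or.inl (Or.inl (Or.inl (Or.inr ⟨⟨z, hz, s, hs, hx⟩, hc, hg⟩)))

theorem K1.close_sq (hT : TSet θ M κ t₀ δ₀ ε₁ Ω f F T) (hN : Num θ M κ β)
    (K : Cleaned C Nk n N J' η l₀ o h₀ h' h₁ Tc G) (hη : η ≤ β / 2 ^ (m + j)) (hσ : σ ≤ β / 2)
    {z : Fin 3 → ℤ} (hz : z ∈ C.J) {s : Idx × Fin 3} (hs : Clean v m j z s) {x : V}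
    (hx : x ∈ squ v s) (hxD : ∀ i, x ∉ Nk.D i \ Nk.c i) :
    ‖h₁.toFun x - C.A z x‖ ≤ (16 * M / θ + 20) * β / 2 ^ (m + j) :=
  close₁_of hN K hσ (C.sub hT hz (hs.sub hx)) (K1.close'_sq hT hN K hη hσ hz hs hx hxD)

/-- **[K1] (a), own edges** -/
theorem K1.close'_edge (hT : TSet θ M κ t₀ δ₀ ε₁ Ω f F T) (hN : Num θ M κ β)
    (K : Cleaned C Nk n N J' η l₀ o h₀ h' h₁ Tc G) (hη : η ≤ β / 2 ^ (m + j)) (hσ : σ ≤ β / 2)
    {z : Fin 3 → ℤ} (hz : z ∈ C.J) {e : Idx × Fin 3} (he : e.1.1 = m + j)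
    (hez : edge v e ⊆ dyc v m z) {x : V} (hx : x ∈ edge v e) :
    ‖h'.toFun x - C.A z x‖ ≤ (16 * M / θ + 4) * β / 2 ^ (m + j) := by
  obtain ⟨h1, h2, h3⟩ := edge_close2 hT hN hz he hez hx
  refine close'_of hT hN K hη hσ hz h2 (C.sub hT hz (hez hx)) h3
    (edge_notMem_dyo he hx) (fun i hi => ?_) h1
    fun g hg => Or.inl (Or.inr ⟨⟨z, hz, e, he, hez, hx⟩, hg⟩)
  obtain ⟨z₁, -, hs₁⟩ := Nk.clean i
  exact edge_notMem_rel (he.trans hs₁.1.symm) hx (Nk.sub i hi.1)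

theorem K1.close_edge (hT : TSet θ M κ t₀ δ₀ ε₁ Ω f F T) (hN : Num θ M κ β)
    (K : Cleaned C Nk n N J' η l₀ o h₀ h' h₁ Tc G) (hη : η ≤ β / 2 ^ (m + j)) (hσ : σ ≤ β / 2)
    {z : Fin 3 → ℤ} (hz : z ∈ C.J) {e : Idx × Fin 3} (he : e.1.1 = m + j)
    (hez : edge v e ⊆ dyc v m z) {x : V} (hx : x ∈ edge v e) :
    ‖h₁.toFun x - C.A z x‖ ≤ (16 * M / θ + 20) * β / 2 ^ (m + j) :=
  close₁_of hN K hσ (C.sub hT hz (hez hx)) (K1.close'_edge hT hN K hη hσ hz he hez hx)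

/-- on an own edge, `h'` is `h₀` or in a selected neck cube -/
theorem K1.dich_edge (hT : TSet θ M κ t₀ δ₀ ε₁ Ω f F T)
    (K : Cleaned C Nk n N J' η l₀ o h₀ h' h₁ Tc G) {z : Fin 3 → ℤ} (hz : z ∈ C.J)
    {e : Idx × Fin 3} (he : e.1.1 = m + j) (hez : edge v e ⊆ dyc v m z) {x : V}
    (hx : x ∈ edge v e) : h'.toFun x = h₀.toFun x ∨
      ∃ g ∈ G, h'.toFun x ∈ Metric.ball (Nk.b g) (Nk.ρ g) :=
  K.dich x (C.sub hT hz (hez hx)) fun i _ => notMem_qC Nk (edge_notMem_dyo he hx) i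

/-- **[K1] (a), vertices** -/
theorem K1.close'_vert (hT : TSet θ M κ t₀ δ₀ ε₁ Ω f F T) (hN : Num θ M κ β)
    (K : Cleaned C Nk n N J' η l₀ o h₀ h' h₁ Tc G) (hη : η ≤ β / 2 ^ (m + j)) (hσ : σ ≤ β / 2)
    {z : Fin 3 → ℤ} (hz : z ∈ C.J) {a : Fin 3 → ℤ} (ha : pt v (m + j) a ∈ dyc v m z) :
    ‖h'.toFun (pt v (m + j) a) - C.A z (pt v (m + j) a)‖ ≤
      (16 * M / θ + 4) * β / 2 ^ (m + j) := by
  have ht := hT.t_pos C
  have hr : (0:ℝ) < 1 / 2 ^ (m + j) := by positivity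
  have hβ := hN.β0
  have hκβ := hN.κβ
  have hk := kap_nonneg C hz
  have hw : ∀ w, pt v (m + j) a ∉ dyo v (m + j) w := by
    intro w
    have := line_notMem_dyo v (m + j) a 0 0 w
    rwa [zero_smul, add_zero] at this
  refine close'_of hT hN K hη hσ hz ha (C.sub hT hz ha) (by rw [sub_self, norm_zero]; positivity)
    hw (fun i hi => ?_) ?_ fun g hg => ?_
  · obtain ⟨z₁, -, hs₁⟩ := Nk.clean i
    have h1 := line_notMem_rel v a 0 0 hs₁.1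
    rw [zero_smul, add_zero] at h1
    exact h1 (Nk.sub i hi.1)
  · refine ((C.vert z hz a ha).2.1).trans ?_
    gcongr
    linarith
  · refine Or.inr ⟨z, hz, a, ha, ?_⟩
    -- the coordinate which realizes the norm
    obtain ⟨k, hk⟩ : ∃ k, |pt v (m + j) a k - o g k| = ‖pt v (m + j) a - o g‖ := by
      obtain ⟨k, -, hk⟩ := Finset.exists_max_image Finset.univ
        (fun k => |pt v (m + j) a k - o g k|) ⟨0, Finset.mem_univ _⟩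
      refine ⟨k, le_antisymm ?_ ?_⟩
      · have := norm_le_pi_norm (pt v (m + j) a - o g) k
        rwa [Pi.sub_apply, Real.norm_eq_abs] at this
      · rw [pi_norm_le_iff_of_nonneg (abs_nonneg _)]
        intro l
        rw [Pi.sub_apply, Real.norm_eq_abs]
        exact hk l (Finset.mem_univ _)
    refine ⟨k, 0, ?_, ?_, ?_, hk, hg⟩
    · rw [abs_zero]; positivity
    · rw [zero_smul, add_zero]
    · rw [zero_mul]

theorem K1.close_vert (hT : TSet θ M κ t₀ δ₀ ε₁ Ω f F T) (hN : Num θ M κ β)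
    (K : Cleaned C Nk n N J' η l₀ o h₀ h' h₁ Tc G) (hη : η ≤ β / 2 ^ (m + j)) (hσ : σ ≤ β / 2)
    {z : Fin 3 → ℤ} (hz : z ∈ C.J) {a : Fin 3 → ℤ} (ha : pt v (m + j) a ∈ dyc v m z) :
    ‖h₁.toFun (pt v (m + j) a) - C.A z (pt v (m + j) a)‖ ≤
      (16 * M / θ + 20) * β / 2 ^ (m + j) :=
  close₁_of hN K hσ (C.sub hT hz ha) (K1.close'_vert hT hN K hη hσ hz ha)

/-- the images of the selected discs are small -/
theorem K1.disc_le (hT : TSet θ M κ t₀ δ₀ ε₁ Ω f F T) (hN : Num θ M κ β)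
    (K : Cleaned C Nk n N J' η l₀ o h₀ h' h₁ Tc G) (hσ : σ ≤ β / 2) (hl0 : 0 ≤ l₀)
    (hl : l₀ ≤ 1 / 2)
    {i : Nk.ι} (hi : i ∈ selI Nk n N J') {x y : V} (hx : x ∈ Nk.D i) (hy : y ∈ Nk.D i) :
    ‖h₁.toFun x - h₁.toFun y‖ ≤ β / 2 / 2 ^ (m + j) := by
  obtain ⟨g, hgG, hg⟩ := K.disc i hi
  obtain ⟨z₁, hz₁, hs₁⟩ := Nk.clean i
  have hsub : Nk.D i ⊆ Ω := fun x hx => C.sub hT hz₁ (hs₁.sub (P86.rel_sub (Nk.sub i hx)))
  have h1 := hg x hx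
  have h2 := hg y hy
  rw [Metric.mem_ball, dist_eq_norm] at h1 h2
  rw [K.eq x (hsub hx), K.eq y (hsub hy)]
  refine (K.col.sq g hgG _ h1.le _ h2.le).trans ?_
  have h3 : ‖h'.toFun x - h'.toFun y‖ ≤ 2 * Nk.ρ g := by
    have := norm_sub_le_norm_sub_add_norm_sub (h'.toFun x) (Nk.b g) (h'.toFun y)
    rw [norm_sub_rev (Nk.b g)] at this
    linarith
  have h4 := K.ρle g
  have h5 := (Nk.pos g).le
  have e1 : σ / 2 ^ (m + j) ≤ β / 2 / 2 ^ (m + j) := by gcongr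
  calc l₀ * ‖h'.toFun x - h'.toFun y‖ ≤ 1 / 2 * (2 * Nk.ρ g) := by gcongr
    _ = Nk.ρ g := by ring
    _ ≤ _ := h4.trans e1

/-- **[K1] (b), selected squares** (squares of the lattice whose discs are selected) -/
theorem K1.close_selsq (hT : TSet θ M κ t₀ δ₀ ε₁ Ω f F T) (hN : Num θ M κ β)
    (K : Cleaned C Nk n N J' η l₀ o h₀ h' h₁ Tc G) (hη : η ≤ β / 2 ^ (m + j)) (hσ : σ ≤ β / 2)
    (hl0 : 0 ≤ l₀) (hl : l₀ ≤ 1 / 2) {z : Fin 3 → ℤ} (hz : z ∈ C.J) {s : Idx × Fin 3}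
    (hs : Clean v m j z s) (hsel : Sel v (m + j) n N J' s) {x : V} (hx : x ∈ squ v s) :
    ‖h₁.toFun x - C.A z x‖ ≤ (M + 3 * ((16 * M / θ + 20) * β)) / 2 ^ (m + j) := by
  have hβ := hN.β0
  have hM := hN.M0
  have hθ := hN.θ0
  have hK0 : 0 ≤ 16 * M / θ * β := by positivity
  refine close_squL (s := Nk.s) (D := Nk.D) (c := Nk.c) hs.1 (fun i => ?_) Nk.ball Nk.sub Nk.disj
    (C.aff z hz) (C.above z hz) hM (by positivity)
    (fun y hy hyD => K1.close_sq hT hN K hη hσ hz hs hy hyD)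
    (fun i hi y hy y' hy' => ?_) hx
  · obtain ⟨z₁, -, hs₁⟩ := Nk.clean i
    exact hs₁.1
  · refine (K1.disc_le hT hN K hσ hl0 hl (show Sel v (m + j) n N J' (Nk.s i) by rw [hi]; exact hsel)
      hy hy').trans ?_
    gcongr
    have e : 2 * ((16 * M / θ + 20) * β) = 2 * (16 * M / θ * β) + 40 * β := by ring
    rw [e]
    linarith

/-- **[K1] (b), good cells** -/
theorem K1.close_cell (hT : TSet θ M κ t₀ δ₀ ε₁ Ω f F T) (hN : Num θ M κ β)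
    (K : Cleaned C Nk n N J' η l₀ o h₀ h' h₁ Tc G) (hη : η ≤ β / 2 ^ (m + j)) (hσ : σ ≤ β / 2)
    (hl0 : 0 ≤ l₀) (hl : l₀ ≤ 1 / 2) (hΛ : IsOpen Λ) (S : SubCells C n J' π) (hnN : n ≤ N)
    (hNj : N ≤ m + j) {z : Fin 3 → ℤ} (hz : z ∈ J') {x : V} (hx : x ∈ dyc v n z) :
    ‖h₁.toFun x - C.A (π z) x‖ ≤ (3 * M + 3 * ((16 * M / θ + 20) * β)) / 2 ^ (m + j) := by
  have hβ := hN.β0
  have hM := hN.M0
  have hθ := hN.θ0
  have hK0 : 0 ≤ 16 * M / θ * β := by positivity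
  have hzC := S.mem z hz
  have hsub : dyc v n z ⊆ dyc v m (π z) := (S.sub z hz).trans P86.dyo_sub_dyc
  refine (close_cellL (s := Nk.s) (D := Nk.D) (c := Nk.c) (hnN.trans hNj) hΛ h₁
    (hsub.trans (C.sub hT hzC)) (fun i => ?_) Nk.ball Nk.sub Nk.disj (C.aff _ hzC)
    (C.above _ hzC) hM (a := (16 * M / θ + 20) * β) (by positivity) (fun t ht htq y hy hyD => ?_)
    (fun i hi y hy y' hy' => ?_) x hx).trans ?_
  · obtain ⟨z₁, -, hs₁⟩ := Nk.clean i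
    exact hs₁.1
  · exact K1.close_sq hT hN K hη hσ hzC (clean_of_cell (S.sub z hz) ht htq) hy hyD
  · have hs : (Nk.s i).1.1 = m + j := by
      obtain ⟨z₁, -, hs₁⟩ := Nk.clean i
      exact hs₁.1
    refine (K1.disc_le hT hN K hσ hl0 hl (sel_of_cell hz hNj hs hi) hy hy').trans ?_
    gcongr
    have e : 2 * ((16 * M / θ + 20) * β) = 2 * (16 * M / θ * β) + 40 * β := by ring
    rw [e]
    linarith
  · gcongr
    linarith

/-- **[K1] (b), the squares between two tiles which touch a good cell** -/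
theorem K1.close_osq (hT : TSet θ M κ t₀ δ₀ ε₁ Ω f F T) (hN : Num θ M κ β)
    (K : Cleaned C Nk n N J' η l₀ o h₀ h' h₁ Tc G) (hη : η ≤ β / 2 ^ (m + j)) (hσ : σ ≤ β / 2)
    (hl0 : 0 ≤ l₀) (hl : l₀ ≤ 1 / 2) (S : SubCells C n J' π) (hmN : m ≤ N)
    (hNj : N ≤ m + j) {z : Fin 3 → ℤ} (hz : z ∈ J') {s : Idx × Fin 3} (hs : s.1.1 = N)
    (h1 : Touch v n N z s.1.2) (h2 : Touch v n N z (dn s)) {x : V} (hx : x ∈ squ v s) :
    ‖h₁.toFun x - C.A (π z) x‖ ≤ (M + 3 * ((16 * M / θ + 20) * β)) / 2 ^ (m + j) := by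
  obtain ⟨t, ht, -, hxt, -, h3, h4⟩ := exists_subsq hNj hs hx
  have hsel : Sel v (m + j) n N J' t := sel_of_sub hz h1 h2 ht h3 h4
  have hcl : Clean v m j (π z) t := ⟨ht, h3.trans (touch_sub (S.sub z hz) hmN h1),
    h4.trans (touch_sub (S.sub z hz) hmN h2)⟩
  exact K1.close_selsq hT hN K hη hσ hl0 hl (S.mem z hz) hcl hsel hxt

end

end Vale.Agent.P073.H439
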