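import Vale.Agent.P073.H439.EnerG
import Vale.Agent.P073.H732.BeamParts

/-!
# P073, block A16, rank one: the density on the beam, **[ENER-B]**
-/

namespace Vale.Agent.P073.H439.EN

open MeasureTheory Set Filter Topology Metric Vale.Agent.P073.St Vale.Agent.P073.AB
open Vale.Agent.P073.H235
open Vale.Agent.P073.SQ (ev)
open Vale.Agent.P073.H194 (sInt)
open Vale.Agent.P073.H253 (BVData ledge)
open scoped ENNReal

theorem bm0 (θ₁ θ₂ : ℝ) : bm θ₁ θ₂ 0 = 1 := rfl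
theorem bm1 (θ₁ θ₂ : ℝ) : bm θ₁ θ₂ 1 = 2 * θ₁ := rfl
theorem bm2 (θ₁ θ₂ : ℝ) : bm θ₁ θ₂ 2 = 2 * θ₂ := rfl

theorem norm_P1 : ‖P1‖ ≤ 1 := by
  refine ContinuousLinearMap.opNorm_le_bound _ zero_le_one fun x => ?_
  rw [one_mul]
  refine (pi_norm_le_iff_of_nonneg (norm_nonneg _)).2 fun j => ?_
  have h1 : P1 x j = x 0 * ev 0 j := rfl
  rw [h1]
  fin_cases j
  · simp [ev]
    exact norm_le_pi_norm x 0
  · simp [ev]
  · simp [ev]

theorem volume_layerB {θ₁ θ₂ : ℝ} (hθ₁ : 0 < θ₁) (hθ₂ : 0 < θ₂) (i : Fin 3) (s t : ℝ)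
    (hst : s ≤ t) (hi : i ≠ 1) {c : ℝ} (hc : (t - s) * (if i = 0 then 4 * θ₁ * θ₂ else 2 * θ₁) ≤ c) :
    volume (Bx (bm θ₁ θ₂) ∩ {x | s ≤ x i ∧ x i ≤ t}) ≤ ENNReal.ofReal c := by
  have hsub : Bx (bm θ₁ θ₂) ∩ {x | s ≤ x i ∧ x i ≤ t} ⊆
      pi univ fun j => if j = i then Icc s t else Icc 0 (bm θ₁ θ₂ j) := by
    rintro x ⟨hx, hx'⟩ j -
    by_cases hj : j = i
    · subst hj
      simpa using hx'
    · simp only [hj, if_false]
      exact ⟨(hx j).1.le, (hx j).2.le⟩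
  refine (measure_mono hsub).trans ?_
  rw [volume_pi_pi]
  have hst' := sub_nonneg.2 hst
  refine le_trans (le_of_eq ?_) (ENNReal.ofReal_le_ofReal hc)
  have hv : ∀ j, volume (if j = i then Icc s t else Icc 0 (bm θ₁ θ₂ j)) =
      ENNReal.ofReal (if j = i then t - s else bm θ₁ θ₂ j) := by
    intro j
    by_cases hj : j = i
    · rw [if_pos hj, if_pos hj, Real.volume_Icc]
    · rw [if_neg hj, if_neg hj, Real.volume_Icc, sub_zero]
  rw [Finset.prod_congr rfl fun j _ => hv j, ← ENNReal.ofReal_prod_of_nonneg]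
  · congr 1
    have h0 : i = 0 ∨ i = 2 := by
      fin_cases i
      · exact Or.inl rfl
      · exact absurd rfl hi
      · exact Or.inr rfl
    rcases h0 with rfl | rfl
    · simp only [Fin.prod_univ_three, Fin.isValue, if_true, bm1, bm2]
      rw [if_neg (by decide), if_neg (by decide)]
      ring
    · simp only [Fin.prod_univ_three, Fin.isValue, if_true, bm0, bm1]
      rw [if_neg (by decide), if_neg (by decide), if_neg (by decide)]
      ring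
  · intro j _
    split_ifs
    · exact hst'
    · fin_cases j
      · exact zero_le_one
      · show (0:ℝ) ≤ 2 * θ₁
        linarith
      · show (0:ℝ) ≤ 2 * θ₂
        linarith

theorem volume_frameB {θ₁ θ₂ : ℝ} (hθ₁ : 0 < θ₁) (hθ₂ : 0 < θ₂) {ν : ℝ} (hν : 0 < ν) :
    volume (Bx (bm θ₁ θ₂) ∩ Fr (bm θ₁ θ₂) (3 * ν) {0, 2}) ≤
      ENNReal.ofReal (48 * ν * θ₁ * θ₂) := by
  have hsub : Bx (bm θ₁ θ₂) ∩ Fr (bm θ₁ θ₂) (3 * ν) {0, 2} ⊆
      ((Bx (bm θ₁ θ₂) ∩ {x | 0 ≤ x 0 ∧ x 0 ≤ 3 * ν}) ∪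
        (Bx (bm θ₁ θ₂) ∩ {x | 1 - 3 * ν ≤ x 0 ∧ x 0 ≤ 1})) ∪
      ((Bx (bm θ₁ θ₂) ∩ {x | 0 ≤ x 2 ∧ x 2 ≤ 3 * ν * (2 * θ₂)}) ∪
        (Bx (bm θ₁ θ₂) ∩ {x | (1 - 3 * ν) * (2 * θ₂) ≤ x 2 ∧ x 2 ≤ 2 * θ₂})) := by
    rintro x ⟨hx, i, hi, h⟩
    simp only [Finset.mem_insert, Finset.mem_singleton] at hi
    have hx0 := hx 0
    have hx2 := hx 2
    rw [bm0] at hx0
    rw [bm2] at hx2
    rcases hi with rfl | rfl
    · rw [bm0, mul_one, mul_one] at h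
      left
      rcases h with h | h
      · exact Or.inl ⟨hx, hx0.1.le, h⟩
      · exact Or.inr ⟨hx, h, hx0.2.le⟩
    · rw [bm2] at h
      right
      rcases h with h | h
      · exact Or.inl ⟨hx, hx2.1.le, h⟩
      · exact Or.inr ⟨hx, h, hx2.2.le⟩
  have hp1 : 0 < ν * θ₂ := mul_pos hν hθ₂
  have a1 := volume_layerB hθ₁ hθ₂ 0 0 (3 * ν) (by positivity) (by decide)
    (c := 12 * ν * θ₁ * θ₂) (le_of_eq (by rw [if_pos rfl]; ring))
  have a2 := volume_layerB hθ₁ hθ₂ 0 (1 - 3 * ν) 1 (by linarith) (by decide)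
    (c := 12 * ν * θ₁ * θ₂) (le_of_eq (by rw [if_pos rfl]; ring))
  have a3 := volume_layerB hθ₁ hθ₂ 2 0 (3 * ν * (2 * θ₂)) (by positivity) (by decide)
    (c := 12 * ν * θ₁ * θ₂) (le_of_eq (by rw [if_neg (by decide)]; ring))
  have a4 := volume_layerB hθ₁ hθ₂ 2 ((1 - 3 * ν) * (2 * θ₂)) (2 * θ₂) (by nlinarith) (by decide)
    (c := 12 * ν * θ₁ * θ₂) (le_of_eq (by rw [if_neg (by decide)]; ring))
  have e : ENNReal.ofReal (48 * ν * θ₁ * θ₂) =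
      (ENNReal.ofReal (12 * ν * θ₁ * θ₂) + ENNReal.ofReal (12 * ν * θ₁ * θ₂)) +
      (ENNReal.ofReal (12 * ν * θ₁ * θ₂) + ENNReal.ofReal (12 * ν * θ₁ * θ₂)) := by
    rw [← ENNReal.ofReal_add (by positivity) (by positivity),
      ← ENNReal.ofReal_add (by positivity) (by positivity)]
    congr 1
    ring
  refine (measure_mono hsub).trans ?_
  rw [e]
  refine (measure_union_le _ _).trans (add_le_add ?_ ?_)
  · exact (measure_union_le _ _).trans (add_le_add a1 a2)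
  · exact (measure_union_le _ _).trans (add_le_add a3 a4)

theorem Bx_bm_ball {θ₁ θ₂ : ℝ} (h1 : θ₁ ≤ 1 / 4) (h2 : θ₂ ≤ 1 / 4) :
    Bx (bm θ₁ θ₂) ⊆ closedBall 0 1 := by
  intro x hx
  rw [mem_closedBall_zero_iff]
  refine (pi_norm_le_iff_of_nonneg (by norm_num)).2 fun j => ?_
  have h3 := hx j
  have h4 : bm θ₁ θ₂ j ≤ 1 := by
    fin_cases j
    · exact le_rfl
    · show 2 * θ₁ ≤ 1
      linarith
    · show 2 * θ₂ ≤ 1
      linarith
  rw [Real.norm_eq_abs, abs_of_pos h3.1]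
  linarith [h3.2]

theorem Bx_fl_ball {θ : ℝ} (h : θ ≤ 1 / 2) : Bx (fl θ) ⊆ closedBall 0 1 := by
  intro x hx
  rw [mem_closedBall_zero_iff]
  refine (pi_norm_le_iff_of_nonneg (by norm_num)).2 fun j => ?_
  have h3 := hx j
  have h4 : fl θ j ≤ 1 := by
    fin_cases j
    · exact le_rfl
    · exact le_rfl
    · show 2 * θ ≤ 1
      linarith
  rw [Real.norm_eq_abs, abs_of_pos h3.1]
  linarith [h3.2]

theorem sum_scale (S : Finset ℤ) (n : ℕ) (c : ℝ≥0∞) :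
    ∑ _k ∈ S, c * ENNReal.ofReal (1 / 2 ^ n) = c * ENNReal.ofReal ((S.card : ℝ) / 2 ^ n) := by
  rw [Finset.sum_const, nsmul_eq_mul, ← ENNReal.ofReal_natCast, mul_left_comm,
    ← ENNReal.ofReal_mul (by positivity)]
  congr 2
  ring

theorem sum_scale' (S : Finset (Fin 3 → ℤ)) (n : ℕ) :
    ∑ _k ∈ S, ENNReal.ofReal (1 / 4 ^ n) = ENNReal.ofReal ((S.card : ℝ) / 4 ^ n) := by
  rw [Finset.sum_const, nsmul_eq_mul, ← ENNReal.ofReal_natCast,
    ← ENNReal.ofReal_mul (by positivity)]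
  congr 1
  ring

/-- the data of the beam are densities in the sense of `ED` -/
theorem ED.of_beam {p θ₁ θ₂ κ : ℝ} {m₀ : ℕ} {Λ : Set V} {f : V → V} {F : V → Mat} (hp : 1 ≤ p)
    (h1 : θ₁ ≤ 1 / 4) (h2 : θ₂ ≤ 1 / 4) (D : BVData p θ₁ θ₂ κ m₀ Λ f F) :
    ED p (Bx (bm θ₁ θ₂)) P1 (fun x => cl (cmpD (bm θ₁ θ₂) F x)) D.v D.N D.H D.H₁ where
  hp := hp
  hL := norm_P1
  ball := Bx_bm_ball h1 h2
  null := D.null
  rep := D.rep
  meas := D.meas
  meas₁ := D.meas₁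
  fin := D.fin
  eq := D.eq
  eq₁ := D.eq₁

/-- the data of the flat box are densities in the sense of `ED` -/
theorem ED.of_flat {p C₀ θ κ : ℝ} {m₀ : ℕ} {Λ : Set V} {f : V → V} {F : V → Mat} (hp : 1 ≤ p)
    (h1 : θ ≤ 1 / 2) (D : VData p C₀ θ κ m₀ Λ f F) :
    ED p (Bx (fl θ)) P2 (fun x => cl (cmpD (fl θ) F x)) D.v D.N D.H D.H₁ where
  hp := hp
  hL := norm_P2
  ball := Bx_fl_ball h1
  null := D.null
  rep := D.rep
  meas := D.meas
  meas₁ := D.meas₁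
  fin := D.fin
  eq := D.eq
  eq₁ := D.eq₁

/-- **[ENER-B]** -/
theorem specEnerB : H732.SpecEnerB := by
  intro p θ₁ θ₂ κ m₀ Λ f F hp h1 h1' h2 h2' D
  have E := ED.of_beam hp h1' h2' D
  have hU : MeasurableSet (Bx (bm θ₁ θ₂)) := (isOpen_Bx _).measurableSet
  refine ⟨fun R hR hRm => E.int_le hR hRm, fun x hx => E.bk hx, ?_,
    fun ν hν => volume_frameB h1 h2 hν, fun c ε N hε => E.layer hU 1 c hε N, fun n S hS => ?_,
    fun n k₁ k₂ S hS => ⟨?_, fun t ht => ?_⟩⟩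
  · have h := volume_box 0 (bm θ₁ θ₂)
    have h3 : Bx (bm θ₁ θ₂) = {x : V | ∀ i, (0 : V) i < x i ∧ x i < bm θ₁ θ₂ i} := rfl
    rw [h3, h, Fin.prod_univ_three, bm0, bm1, bm2, ← ENNReal.ofReal_mul (by simp),
      ← ENNReal.ofReal_mul (by simp [h1.le])]
    refine ENNReal.ofReal_le_ofReal (le_of_eq ?_)
    simp only [Pi.zero_apply]
    ring
  · calc ∑ k ∈ S, sInt D.v ((n, k), 1) (fun x => D.H x + H194.Bk 1 x)
        ≤ ∑ k ∈ S, ENNReal.ofReal (2 ^ p) * (sInt D.v ((n, k), 1) D.H₁ +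
            ENNReal.ofReal (1 / 4 ^ n)) :=
          Finset.sum_le_sum fun k hk => E.squ_le (s := ((n, k), 1)) (hS k hk)
      _ = _ := by rw [← Finset.mul_sum, Finset.sum_add_distrib, sum_scale']
  · calc ∑ k ∈ S, eInt D.v (ledge n k₁ k₂ k) (fun x => D.H x + H194.Bk 1 x)
        ≤ ∑ k ∈ S, ENNReal.ofReal (2 ^ p) * (eInt D.v (ledge n k₁ k₂ k) D.H₁ +
            1 * ENNReal.ofReal (1 / 2 ^ n)) :=
          Finset.sum_le_sum fun k hk => by
            rw [one_mul]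
            exact E.edge_le (e := ledge n k₁ k₂ k) (hS k hk)
      _ = _ := by rw [← Finset.mul_sum, Finset.sum_add_distrib, sum_scale, one_mul]
  · calc ∑ k ∈ S, eInt D.v (ledge n k₁ k₂ k) (fun x => ‖cl (cmpD (bm θ₁ θ₂) F x) - P1‖ₑ)
        ≤ ∑ k ∈ S, (ENNReal.ofReal (t ^ (1 - p)) * eInt D.v (ledge n k₁ k₂ k) D.H₁ +
            ENNReal.ofReal t * ENNReal.ofReal (1 / 2 ^ n)) :=
          Finset.sum_le_sum fun k hk => E.edge_young (e := ledge n k₁ k₂ k) (hS k hk) ht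
      _ = _ := by
          rw [Finset.sum_add_distrib, sum_scale, ← Finset.mul_sum, add_comm,
            ENNReal.ofReal_mul ht.le]

end Vale.Agent.P073.H439.EN
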