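import Vale.Agent.P073.H235.RedP2

/-!
# P073: the approximation theorem with closeness, reduction to finite distortion

`CloseA q`: every uniformly continuous `W^{1,q}` homeomorphism `f` between bounded domains has a
diffeomorphism `φ` which is close in `W^{1,q}`, uniformly close, and whose distance to `f` tends to
zero at the boundary.
-/

namespace Vale.Agent.P073.H439

open MeasureTheory Set Filter Topology Metric Vale.Agent.P073.St Vale.Agent.P073.RED
open Vale.Agent.P073.SQ (ev)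
open Vale.Agent.P073.AB (cl err FinDist)
open Vale.Agent.P073.PK (cl_apply)
open Vale.Agent.P073.H235 (Rk1 Rk2 fine_p)
open scoped ContDiff ENNReal

/-- `φ - f` tends to zero at the boundary of `Ω` -/
def BdZ (Ω : Set V) (w : V → V) : Prop :=
  ∀ η > 0, ∃ K ⊆ Ω, IsCompact K ∧ ∀ x ∈ Ω \ K, ‖w x‖ ≤ η

/-- the conclusion of the theorem with closeness -/
def CloseOut (q : ℝ) (Ω Λ : Set V) (f : V → V) (F : V → Mat) : Prop :=
  ∀ ε > 0, ∃ φ : V → V, St.IsDiffeo Ω Λ φ ∧ err q Ω f F φ ≤ ENNReal.ofReal ε ∧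
    (∀ x ∈ Ω, ‖φ x - f x‖ ≤ ε) ∧ ∀ η > 0, ∃ K ⊆ Ω, IsCompact K ∧ ∀ x ∈ Ω \ K, ‖φ x - f x‖ ≤ η

/-- the theorem with closeness -/
def CloseA (q : ℝ) : Prop :=
  ∀ (Ω Λ : Set V) (f : V → V) (F : V → Mat), St.IsBoundedDomain Ω → St.IsBoundedDomain Λ →
    St.IsHomeo Ω Λ f → St.IsSobolev q Ω f F → UniformContinuousOn f Ω → CloseOut q Ω Λ f F

/-- the theorem with closeness for finite distortion -/
def CloseFD (q : ℝ) : Prop :=
  ∀ (Ω Λ : Set V) (f : V → V) (F : V → Mat), St.IsBoundedDomain Ω → St.IsBoundedDomain Λ →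
    St.IsHomeo Ω Λ f → St.IsSobolev q Ω f F → UniformContinuousOn f Ω → FinDist Ω F →
    CloseOut q Ω Λ f F

theorem BdZ.add {Ω : Set V} {w w' : V → V} (h : BdZ Ω w) (h' : BdZ Ω w') :
    BdZ Ω fun x => w x + w' x := by
  intro η hη
  obtain ⟨K, hK, hKc, h1⟩ := h (η / 2) (by positivity)
  obtain ⟨K', hK', hKc', h2⟩ := h' (η / 2) (by positivity)
  refine ⟨K ∪ K', union_subset hK hK', hKc.union hKc', fun x hx => ?_⟩
  have a1 := h1 x ⟨hx.1, fun h => hx.2 (Or.inl h)⟩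
  have a2 := h2 x ⟨hx.1, fun h => hx.2 (Or.inr h)⟩
  exact (norm_add_le _ _).trans (by linarith)

/-- a continuous function which tends to zero at the boundary is uniformly continuous -/
theorem BdZ.uc {Ω : Set V} (hΩ : IsOpen Ω) {w : V → V} (hw : ContinuousOn w Ω) (h : BdZ Ω w) :
    UniformContinuousOn w Ω := by
  rw [Metric.uniformContinuousOn_iff]
  intro η hη
  obtain ⟨K, hK, hKc, h1⟩ := h (η / 3) (by positivity)
  obtain ⟨r, hr, hrΩ⟩ := hKc.exists_cthickening_subset_open hΩ hK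
  have hc : IsCompact (cthickening r K) := hKc.cthickening
  have huc := hc.uniformContinuousOn_of_continuous (hw.mono hrΩ)
  obtain ⟨δ, hδ, h2⟩ := Metric.uniformContinuousOn_iff.1 huc η hη
  refine ⟨min δ r, lt_min hδ hr, fun x hx y hy hxy => ?_⟩
  have hδ' := hxy.trans_le (min_le_left _ _)
  have hr' := hxy.trans_le (min_le_right _ _)
  by_cases hxK : x ∈ K
  · exact h2 x (self_subset_cthickening _ hxK) y
      (mem_cthickening_of_dist_le y x r K hxK (by rw [dist_comm]; exact hr'.le)) hδ'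
  · by_cases hyK : y ∈ K
    · exact h2 x (mem_cthickening_of_dist_le x y r K hyK hr'.le) y
        (self_subset_cthickening _ hyK) hδ'
    · have a1 := h1 x ⟨hx, hxK⟩
      have a2 := h1 y ⟨hy, hyK⟩
      rw [dist_eq_norm]
      calc ‖w x - w y‖ ≤ ‖w x‖ + ‖w y‖ := norm_sub_le _ _
        _ ≤ η / 3 + η / 3 := add_le_add a1 a2
        _ < η := by linarith

/-- the glued perturbation tends to zero at the boundary -/
theorem bdZ_glue {p : ℝ} {Ω : Set V} {f : V → V} {F : V → Mat} (hΩ : St.IsBoundedDomain Ω)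
    (hf : UniformContinuousOn f Ω) {ι : Type} {ε : ℝ} {K : ι → Set V} {u : ι → V → V}
    {U : ι → V → Mat} (hC : ∀ i, Cell p Ω f F ε (K i) (u i) (U i))
    (hd : ∀ i j, i ≠ j → Disjoint (K i) (K j)) : BdZ Ω (glue K u) := by
  intro η hη
  obtain ⟨δ, hδ, h⟩ := Metric.uniformContinuousOn_iff.1 hf η hη
  have hfin := GlueH.finite_diam hΩ (fun i => (hC i).comp) (fun i => (hC i).sub)
    (fun i => (hC i).fat) hd hδ
  refine ⟨⋃ i ∈ {i | δ ≤ diam (K i)}, K i, iUnion₂_subset fun i _ => (hC i).sub,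
    hfin.isCompact_biUnion fun i _ => (hC i).comp, fun x hx => ?_⟩
  by_cases hi : ∃ i, x ∈ interior (K i)
  · obtain ⟨i, hi⟩ := hi
    rw [GlueH.glue_in hd hi]
    obtain ⟨h', hinv, -, -⟩ := (hC i).diffeo
    obtain ⟨y, hy, hfy⟩ := (hinv.1 x hi).1
    have hsm : diam (K i) < δ := by
      by_contra hcon
      exact hx.2 (mem_iUnion₂.2 ⟨i, not_lt.1 hcon, interior_subset hi⟩)
    have hxy : dist y x < δ := (dist_le_diam_of_mem (hC i).comp.isBounded (interior_subset hy)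
      (interior_subset hi)).trans_lt hsm
    have h1 := h y ((hC i).sub (interior_subset hy)) x hx.1 hxy
    have h2 : u i x = f y - f x := by
      have : f y = f x + u i x := hfy
      rw [this]; abel
    rw [h2, ← dist_eq_norm]
    exact h1.le
  · push Not at hi
    rw [GlueH.glue_off hi, norm_zero]
    exact hη.le

open Red225 GlueH in
/-- the error of the composite approximation -/
theorem err_glue_le {p : ℝ} (hp : 1 ≤ p) {Ω Λ : Set V} {f : V → V} {F : V → Mat}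
    (hΩ : St.IsBoundedDomain Ω) (hΛ : St.IsBoundedDomain Λ) (hf : St.IsHomeo Ω Λ f)
    (hF : St.IsSobolev p Ω f F) {ι : Type} [hι : Countable ι] {ε₁ : ℝ} (hε₁0 : 0 < ε₁)
    (hε₁1 : ε₁ ≤ 1) {K : ι → Set V} {u : ι → V → V} {U : ι → V → Mat}
    (hC : ∀ i, Cell p Ω f F ε₁ (K i) (u i) (U i)) (hd : ∀ i j, i ≠ j → Disjoint (K i) (K j))
    (g : V → V) : err p Ω f F g ≤ 2 ^ (p - 1) * err p Ω (fun x => f x + glue K u x)
      (fun x => F x + glue K U x) g + 2 ^ (p - 1) * (2 * (ENNReal.ofReal ε₁ * volume Ω)) := by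
  have hp0 : 0 ≤ p := by linarith
  have hF1 := specGlueS p Ω Λ f F hp hΩ hΛ hf hF ι hι ε₁ K u U hC hd
  have hfc : ContinuousOn f Ω := by
    obtain ⟨_, _, h, _⟩ := hf
    exact h
  have hgc : ContinuousOn (glue K u) Ω := continuousOn_glue hΩ hfc hC hd
  have hmu : AEMeasurable (fun x => ENNReal.ofReal (‖glue K u x‖ ^ p)) (volume.restrict Ω) :=
    ((hgc.aemeasurable hΩ.1.measurableSet).norm.pow_const p).ennreal_ofReal
  have hmU : ∀ j, AEMeasurable (fun x => ENNReal.ofReal (‖cl (glue K U x) (ev j)‖ ^ p))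
      (volume.restrict Ω) := by
    intro j
    have h1 : AEMeasurable (fun x => cl (F x + glue K U x) (ev j)) (volume.restrict Ω) :=
      ((ContinuousLinearMap.apply ℝ V (ev j)).continuous.comp_aestronglyMeasurable
        (PK.IsSob.aesm hF1)).aemeasurable
    have h2 : AEMeasurable (fun x => cl (F x) (ev j)) (volume.restrict Ω) :=
      ((ContinuousLinearMap.apply ℝ V (ev j)).continuous.comp_aestronglyMeasurable
        (PK.IsSob.aesm hF)).aemeasurable
    have e : (fun x => cl (glue K U x) (ev j)) =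
        fun x => cl (F x + glue K U x) (ev j) - cl (F x) (ev j) := by
      funext x i
      rw [Pi.sub_apply, cl_apply, cl_apply, cl_apply, ← Finset.sum_sub_distrib]
      exact Finset.sum_congr rfl fun l _ => by simp only [Pi.add_apply]; ring
    have h3 : AEMeasurable (fun x => cl (glue K U x) (ev j)) (volume.restrict Ω) := by
      rw [e]; exact h1.sub h2
    exact (h3.norm.pow_const p).ennreal_ofReal
  -- the two parts of the error
  have hA : ∫⁻ x in Ω, ENNReal.ofReal (‖g x - f x‖ ^ p) ≤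
      2 ^ (p - 1) * ((∫⁻ x in Ω, ENNReal.ofReal (‖g x - (f x + glue K u x)‖ ^ p)) +
        ∫⁻ x in Ω, ENNReal.ofReal (‖glue K u x‖ ^ p)) := by
    rw [← lintegral_add_right' _ hmu, ← lintegral_const_mul' _ _ H880.two_rpow_ne_top]
    refine lintegral_mono fun x => ?_
    have h1 := H880.add_rpow_le hp (g x - (f x + glue K u x)) (glue K u x)
    have e : g x - (f x + glue K u x) + glue K u x = g x - f x := by abel
    rwa [e] at h1
  have hB : ∀ j, ∫⁻ x in Ω, ENNReal.ofReal (‖fderiv ℝ g x (ev j) - cl (F x) (ev j)‖ ^ p) ≤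
      2 ^ (p - 1) * ((∫⁻ x in Ω, ENNReal.ofReal (‖fderiv ℝ g x (ev j) -
        cl (F x + glue K U x) (ev j)‖ ^ p)) +
        ∫⁻ x in Ω, ENNReal.ofReal (‖cl (glue K U x) (ev j)‖ ^ p)) := by
    intro j
    rw [← lintegral_add_right' _ (hmU j), ← lintegral_const_mul' _ _ H880.two_rpow_ne_top]
    refine lintegral_mono fun x => ?_
    have h1 := H880.add_rpow_le hp (fderiv ℝ g x (ev j) - cl (F x + glue K U x) (ev j))
      (cl (glue K U x) (ev j))
    have e : fderiv ℝ g x (ev j) - cl (F x + glue K U x) (ev j) + cl (glue K U x) (ev j) =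
        fderiv ℝ g x (ev j) - cl (F x) (ev j) := by
      funext i
      simp only [Pi.sub_apply, Pi.add_apply, cl_apply, add_mul, Finset.sum_add_distrib]
      ring
    rwa [e] at h1
  have h1 := sup_le hp hε₁0.le hε₁1 hC hd
  have h2 := energy_le hp hC hd
  unfold err
  calc (∫⁻ x in Ω, ENNReal.ofReal (‖g x - f x‖ ^ p)) +
      ∑ j, ∫⁻ x in Ω, ENNReal.ofReal (‖fderiv ℝ g x (ev j) - cl (F x) (ev j)‖ ^ p)
      ≤ 2 ^ (p - 1) * ((∫⁻ x in Ω, ENNReal.ofReal (‖g x - (f x + glue K u x)‖ ^ p)) +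
        ∫⁻ x in Ω, ENNReal.ofReal (‖glue K u x‖ ^ p)) +
        ∑ j, 2 ^ (p - 1) * ((∫⁻ x in Ω, ENNReal.ofReal (‖fderiv ℝ g x (ev j) -
        cl (F x + glue K U x) (ev j)‖ ^ p)) +
        ∫⁻ x in Ω, ENNReal.ofReal (‖cl (glue K U x) (ev j)‖ ^ p)) :=
        add_le_add hA (Finset.sum_le_sum fun j _ => hB j)
    _ = 2 ^ (p - 1) * ((∫⁻ x in Ω, ENNReal.ofReal (‖g x - (f x + glue K u x)‖ ^ p)) +
        ∑ j, ∫⁻ x in Ω, ENNReal.ofReal (‖fderiv ℝ g x (ev j) -
        cl (F x + glue K U x) (ev j)‖ ^ p)) +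
        2 ^ (p - 1) * ((∫⁻ x in Ω, ENNReal.ofReal (‖glue K u x‖ ^ p)) +
        ∑ j, ∫⁻ x in Ω, ENNReal.ofReal (‖cl (glue K U x) (ev j)‖ ^ p)) := by
        rw [← Finset.mul_sum, Finset.sum_add_distrib]
        ring
    _ ≤ 2 ^ (p - 1) * ((∫⁻ x in Ω, ENNReal.ofReal (‖g x - (f x + glue K u x)‖ ^ p)) +
        ∑ j, ∫⁻ x in Ω, ENNReal.ofReal (‖fderiv ℝ g x (ev j) -
        cl (F x + glue K U x) (ev j)‖ ^ p)) +
        2 ^ (p - 1) * (ENNReal.ofReal ε₁ * volume Ω + ENNReal.ofReal ε₁ * volume Ω) := by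
        gcongr
    _ = _ := by ring

open Red225 GlueH in
/-- **[RED-V]**: the theorem with closeness, from finite distortion and the local theorems -/
theorem closeA_of {p : ℝ} (hp : 1 ≤ p) (hM1 : CloseFD p) (hL1 : ∀ L, Rk1 L → Loc p L)
    (hL2 : ∀ L, Rk2 L → Loc p L) : CloseA p := by
  intro Ω Λ f F hΩ hΛ hf hF huc ε hε
  have hp0 : 0 ≤ p := by linarith
  have hΩt : volume Ω ≠ ⊤ := PK.volume_ne_top_of_domain hΩ
  set m : ℝ := (volume Ω).toReal with hm
  have hm0 : 0 ≤ m := ENNReal.toReal_nonneg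
  have hmv : volume Ω = ENNReal.ofReal m := (ENNReal.ofReal_toReal hΩt).symm
  have h2P : (1 : ℝ) ≤ 2 ^ (p - 1) := Real.one_le_rpow (by norm_num) (by linarith)
  have h2pos : (0 : ℝ) < 2 ^ (p - 1) := by positivity
  have h2E : (2 : ℝ≥0∞) ^ (p - 1) = ENNReal.ofReal (2 ^ (p - 1)) := by
    rw [← ENNReal.ofReal_rpow_of_pos (by norm_num)]
    simp
  set ε₁ : ℝ := min (min 1 (ε / 2)) (ε / 2 ^ (p - 1) / (4 * (m + 1))) with hε₁
  have hε₁0 : 0 < ε₁ := lt_min (lt_min one_pos (by positivity)) (by positivity)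
  have hε₁1 : ε₁ ≤ 1 := (min_le_left _ _).trans (min_le_left _ _)
  have hε₁2 : ε₁ ≤ ε / 2 := (min_le_left _ _).trans (min_le_right _ _)
  obtain ⟨ι, K, u, U, hι, hC, hd, hn⟩ := specVit p Ω f F ε₁ hΩ (fine_p hp hL1 hL2 hΩ hΛ hf hF hε₁0)
  have hf1 := specGlueH p Ω Λ f F hp hΩ hΛ hf ι hι ε₁ K u U hC hd
  have hF1 := specGlueS p Ω Λ f F hp hΩ hΛ hf hF ι hι ε₁ K u U hC hd
  have hfc : ContinuousOn f Ω := by
    obtain ⟨_, _, h, _⟩ := hf
    exact h
  have hgc : ContinuousOn (glue K u) Ω := continuousOn_glue hΩ hfc hC hd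
  have hbd : BdZ Ω (glue K u) := bdZ_glue hΩ huc hC hd
  have huc1 : UniformContinuousOn (fun x => f x + glue K u x) Ω :=
    uniformContinuousOn_iff_restrict.2 ((uniformContinuousOn_iff_restrict.1 huc).add
      (uniformContinuousOn_iff_restrict.1 (hbd.uc hΩ.1 hgc)))
  obtain ⟨g, hg, hge, hgn, hgb⟩ := hM1 Ω Λ _ _ hΩ hΛ hf1 hF1 huc1 (finDist hC hd hn)
    (ε / 2 ^ (p - 1) / 2) (by positivity)
  refine ⟨g, hg, ?_, fun x hx => ?_, ?_⟩
  · refine (err_glue_le hp hΩ hΛ hf hF hε₁0 hε₁1 hC hd g).trans ?_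
    have h2 : (2 : ℝ≥0∞) = ENNReal.ofReal 2 := by norm_num
    calc 2 ^ (p - 1) * err p Ω (fun x => f x + glue K u x) (fun x => F x + glue K U x) g +
          2 ^ (p - 1) * (2 * (ENNReal.ofReal ε₁ * volume Ω))
        ≤ 2 ^ (p - 1) * ENNReal.ofReal (ε / 2 ^ (p - 1) / 2) +
          2 ^ (p - 1) * (2 * (ENNReal.ofReal ε₁ * ENNReal.ofReal m)) := by
          rw [hmv]; gcongr
      _ = ENNReal.ofReal (2 ^ (p - 1) * (ε / 2 ^ (p - 1) / 2) +
          2 ^ (p - 1) * (2 * (ε₁ * m))) := by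
          rw [ENNReal.ofReal_add (by positivity) (by positivity), ENNReal.ofReal_mul h2pos.le,
            ENNReal.ofReal_mul h2pos.le, ENNReal.ofReal_mul (by norm_num),
            ENNReal.ofReal_mul hε₁0.le, ← h2E, ← h2]
      _ ≤ ENNReal.ofReal ε := by
          apply ENNReal.ofReal_le_ofReal
          have h5 : ε₁ * (4 * (m + 1)) ≤ ε / 2 ^ (p - 1) := by
            calc ε₁ * (4 * (m + 1)) ≤ ε / 2 ^ (p - 1) / (4 * (m + 1)) * (4 * (m + 1)) := by
                  gcongr; exact min_le_right _ _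
              _ = ε / 2 ^ (p - 1) := by field_simp
          have h6 : 2 * (ε₁ * m) ≤ ε / 2 ^ (p - 1) / 2 := by nlinarith
          calc 2 ^ (p - 1) * (ε / 2 ^ (p - 1) / 2) + 2 ^ (p - 1) * (2 * (ε₁ * m))
              ≤ 2 ^ (p - 1) * (ε / 2 ^ (p - 1) / 2) + 2 ^ (p - 1) * (ε / 2 ^ (p - 1) / 2) := by
                gcongr
            _ = ε := by field_simp; ring
  · have h1 := hgn x hx
    have h2 := norm_glue_le hε₁0.le hC hd x
    have h3 : ε / 2 ^ (p - 1) / 2 ≤ ε / 2 := by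
      have : ε / 2 ^ (p - 1) ≤ ε := div_le_self hε.le h2P
      linarith
    have e : g x - f x = (g x - (f x + glue K u x)) + glue K u x := by abel
    rw [e]
    exact (norm_add_le _ _).trans (by linarith)
  · have hgb' : BdZ Ω fun x => g x - (f x + glue K u x) := hgb
    have h1 := hgb'.add hbd
    intro η hη
    obtain ⟨C, hCΩ, hCc, h2⟩ := h1 η hη
    refine ⟨C, hCΩ, hCc, fun x hx => ?_⟩
    have e : g x - f x = (g x - (f x + glue K u x)) + glue K u x := by abel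
    rw [e]
    exact h2 x hx

end Vale.Agent.P073.H439
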