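import Vale.Agent.P073.H309.BelowThree
import Vale.Agent.P073.H439.CloseA
import Vale.Agent.P073.H194.BackN
import Vale.Agent.P073.H989.DifR

/-!
# P073: the approximation theorem with closeness for `2 ≤ q < 3`

The reduction to finite distortion, with the local theorems for the ranks one and two inserted.
-/

namespace Vale.Agent.P073.H439

open Vale.Agent.P073 Vale.Agent.P073.St Vale.Agent.P073.H235 Vale.Agent.P073.LOC
open Vale.Agent.P073.RED (Loc)
open Vale.Agent.P073.AB (FinDist)

/-- rank one, `2 ≤ p < 3` -/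
theorem rk1_of {p : ℝ} (hp : 2 ≤ p) (hp3 : p < 3) : ∀ L, Rk1 L → Loc p L :=
  H608.rk1_lt (by linarith) hp3 (H253.specConBeamT_of
    (H471.k2as_of_k2c (by linarith) (H309.open23 hp hp3).k2c) (H309.open23 hp hp3).preBeam
    (H608.postBeam hp))

/-- rank two, `2 ≤ p < 3` -/
theorem rk2_of {p : ℝ} (hp : 2 ≤ p) (hp3 : p < 3) : ∀ L, Rk2 L → Loc p L :=
  H608.rk2_lt (by linarith) hp3 (specConFlat_of
    (H471.k2as_of_k2c (by linarith) (H309.open23 hp hp3).k2c) (H309.open23 hp hp3).preFlat
    (H608.postFlat (by linarith)))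

/-- the theorem with closeness, from finite distortion -/
theorem closeA_final {q : ℝ} (hq : 2 ≤ q) (hq3 : q < 3) (hFD : CloseFD q) : CloseA q :=
  closeA_of (by linarith) hFD (rk1_of hq hq3) (rk2_of hq hq3)

/-- the same in the form of block B09 -/
theorem closeK_final {q : ℝ} (hq : 2 ≤ q) (hq3 : q < 3) (hFD : CloseFD q) : H989.CloseK q :=
  closeA_final hq hq3 hFD

/-- from the face theorem with closeness -/
theorem closeK_of_confaceN {q : ℝ} (hq : 2 ≤ q) (hq3 : q < 3)
    (H : ∀ (Ω Λ : Set V) (f : V → V) (F : V → Mat), St.IsBoundedDomain Ω →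
      St.IsBoundedDomain Λ → St.IsHomeo Ω Λ f → St.IsSobolev q Ω f F → UniformContinuousOn f Ω →
      FinDist Ω F → ∀ ε > 0, H194.ConFaceN q ε Ω Λ f F) : H989.CloseK q :=
  closeK_final hq hq3 (H194.closeFD_of (by linarith) hq3 H)

end Vale.Agent.P073.H439
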