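import Vale.Agent.P073.H193.CellG
import Vale.Agent.P073.H669.PLevD
import Vale.Agent.P073.H233.Tail3E
import Vale.Agent.P073.H233.Small3E
import Vale.Agent.P073.H237.LipW

/-!
# P073: the numbers of the rows `cell` and `lip`, as bounds for the slots of `exists_chain`

* `exists_tin`: the tiny numbers of the cells (field `cd` of `CellNum`);
* `exists_m1`: slot (1), the numbers `εe` (fields `num`, `numL`);
* `exists_dm`: slot (3), the spacing of the levels (field `om`);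
* `exists_tol4c`: slot (6) (field `ε5`); `exists_hwc`, `exists_tol5c`: slot (7).
-/

open Set Metric Topology Filter MeasureTheory
open scoped ENNReal

set_option linter.unusedSectionVars false

namespace Vale.Agent.P073.H439

open _root_.P073 _root_.P073.Net _root_.P073.PA691 _root_.P073.H936 _root_.P073.H936.K3
  _root_.P073.H142 _root_.P073.H880 _root_.P073.H880.RP _root_.P073.H345 _root_.P073.H236
  _root_.P073.H579 _root_.P073.H919 _root_.P073.H228 _root_.P073.H429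
open Vale.Agent.P073
open Vale.Agent.P073.St (V)
open Vale.Agent.P073.AB (Idx squ)
open Vale.Agent.P073.H73 (Mesh onSeg sqr)
open Vale.Agent.P073.H471 Vale.Agent.P073.H267
open Vale.Agent.P073.H926
open Vale.Agent.P073.H193
open Vale.Agent.P073.H238.K3 (Zd Wc Act TOut3)
open Vale.Agent.P073.H267.K3
open _root_.P073.Net (len dyc dyo)

section mesh

variable {Ω Λ : Set V} {M : Mesh Ω}

/-- **(i)** the tiny numbers of the cells -/
theorem exists_tin {p : ℝ} (hp : 0 < p) {v : V} {bn : (edges M).ε → ℝ} (hbn : ∀ e, 0 < bn e)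
    {lam : M.ι → ℝ} (hlam : ∀ i, 0 < lam i) :
    ∃ tin : M.ι → ℝ, (∀ i, 0 < tin i) ∧
      ∀ i, (∀ k, M.F k ⊆ M.Q i → ∃ s, M.F k = squ v s) → ∀ z : Idx, M.Q i = dyc v z.1 z.2 →
        ∃ 𝓢 kf, CellD M p (fun _ e => 2 * bn e) (lam i) i v z 𝓢 kf (tin i) := by
  have key : ∀ i, ∃ t > 0, (∀ k, M.F k ⊆ M.Q i → ∃ s, M.F k = squ v s) →
      ∀ z : Idx, M.Q i = dyc v z.1 z.2 →
        ∃ 𝓢 kf, CellD M p (fun _ e => 2 * bn e) (lam i) i v z 𝓢 kf t := by
    intro i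
    by_cases hF : ∀ k, M.F k ⊆ M.Q i → ∃ s, M.F k = squ v s
    · obtain ⟨t, ht, h⟩ := exists_cellD (v := v) (b := fun _ e => 2 * bn e) hp (hlam i)
        (fun _ _ e _ => mul_pos two_pos (hbn e)) hF
      exact ⟨t, ht, fun _ => h⟩
    · exact ⟨1, one_pos, fun h => absurd h hF⟩
  choose t h0 h1 using key
  exact ⟨t, h0, h1⟩

/-- the tiny number of a face for `Num` -/
theorem exists_tk (M : Mesh Ω) {ε : M.κ → ℝ} (hε : ∀ k, 0 < ε k) :
    ∃ t : M.κ → ℝ, (∀ k, 0 < t k) ∧ (∀ k, t k ≤ ε k) ∧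
      ∀ k e, (edges M).seg e ⊆ M.F k → ∀ (a : V) (l : Fin 3) (σ : ℝ), 0 < σ →
        M.F k = sqr a l σ → t k ≤ ε k / σ * ‖(edges M).b e - (edges M).a e‖ := by
  have key : ∀ k, ∃ t > 0, t ≤ ε k ∧ ∀ e, (edges M).seg e ⊆ M.F k → ∀ (a : V) (l : Fin 3)
      (σ : ℝ), 0 < σ → M.F k = sqr a l σ →
        t ≤ ε k / σ * ‖(edges M).b e - (edges M).a e‖ := by
    intro k
    obtain ⟨C, hC⟩ := (H233.isCompact_face M k).isBounded.exists_norm_le
    set d : ℝ := |C| + 1 with hd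
    have hd0 : 0 < d := by positivity
    have hdC : C ≤ d := (le_abs_self C).trans (by linarith)
    have hσd : ∀ (a : V) (l : Fin 3) (σ : ℝ), 0 < σ → M.F k = sqr a l σ → σ ≤ d := by
      intro a l σ hσ hF
      obtain ⟨m, hm⟩ : ∃ m : Fin 3, m ≠ l := ⟨l + 1, by fin_cases l <;> decide⟩
      have hx : ∀ s : ℝ, |s| = 1 → Function.update a m (a m + s * σ) ∈ M.F k := by
        intro s hs
        rw [hF]
        refine ⟨?_, fun j => ?_⟩
        · rw [Function.update_of_ne hm.symm]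
        · by_cases hj : j = m
          · subst hj
            rw [Function.update_self, add_sub_cancel_left, abs_mul, hs, one_mul, abs_of_pos hσ]
          · rw [Function.update_of_ne hj, sub_self, abs_zero]
            exact hσ.le
      have h1 := hC _ (hx 1 (by simp))
      have h2 := hC _ (hx (-1) (by simp))
      have h3 := norm_le_pi_norm (Function.update a m (a m + 1 * σ)) m
      have h4 := norm_le_pi_norm (Function.update a m (a m + -1 * σ)) m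
      rw [Function.update_self, Real.norm_eq_abs] at h3 h4
      have h5 := (abs_le.1 (h3.trans h1)).2
      have h6 := (abs_le.1 (h4.trans h2)).1
      linarith
    set T := ((edges M).fin_face k).toFinset with hT
    have hg : ∀ e, 0 < ε k / d * ‖(edges M).b e - (edges M).a e‖ := fun e =>
      mul_pos (div_pos (hε k) hd0) (_root_.P073.H142.elen_pos (edges M) e)
    obtain ⟨m, hm0, hm⟩ : ∃ m > 0, ∀ e ∈ T, m ≤ ε k / d * ‖(edges M).b e - (edges M).a e‖ := by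
      rcases T.eq_empty_or_nonempty with h0 | h0
      · exact ⟨1, one_pos, fun e he => by rw [h0] at he; exact absurd he (Finset.notMem_empty e)⟩
      · exact ⟨T.inf' h0 _, (Finset.lt_inf'_iff h0).2 fun e _ => hg e, fun e he =>
          Finset.inf'_le (fun e => ε k / d * ‖(edges M).b e - (edges M).a e‖) he⟩
    refine ⟨min (ε k) m, lt_min (hε k) hm0, min_le_left _ _, fun e he a l σ hσ hF => ?_⟩
    refine (min_le_right _ _).trans ((hm e ?_).trans ?_)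
    · rw [hT, Set.Finite.mem_toFinset]
      exact he
    · have := hσd a l σ hσ hF
      have h1 : ε k / d ≤ ε k / σ := div_le_div_of_nonneg_left (hε k).le hσ this
      exact mul_le_mul_of_nonneg_right h1 (norm_nonneg _)
  choose t h0 h1 h2 using key
  exact ⟨t, h0, h1, h2⟩

/-- a tolerance for the cells which meet a compact set -/
theorem exists_tolC (M : Mesh Ω) (f : ConHomeo Ω Λ) {A : Set V}
    (hA : IsCompact A) (hAΛ : A ⊆ Λ) {tin : M.ι → ℝ} (h0 : ∀ i, 0 < tin i) :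
    ∃ t > 0, ∀ i, (∃ x ∈ M.Q i, f.toFun x ∈ A) → t ≤ tin i := by
  have hK : IsCompact (f.invFun '' A) := hA.image_of_continuousOn (f.cont_inv.mono hAΛ)
  have hKΩ : f.invFun '' A ⊆ Ω := by
    rintro _ ⟨y, hy, rfl⟩
    exact f.mapsTo_inv (hAΛ hy)
  have hfin := M.fin _ hKΩ hK
  set T := hfin.toFinset with hT
  obtain ⟨t, ht, hle⟩ : ∃ t > 0, ∀ i ∈ T, t ≤ tin i := by
    rcases T.eq_empty_or_nonempty with h2 | h2
    · exact ⟨1, one_pos, fun i hi => by rw [h2] at hi; exact absurd hi (Finset.notMem_empty i)⟩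
    · exact ⟨T.inf' h2 tin, (Finset.lt_inf'_iff h2).2 fun i _ => h0 i, fun i hi =>
        Finset.inf'_le tin hi⟩
  refine ⟨t, ht, fun i ⟨x, hx, hxA⟩ => hle i ?_⟩
  rw [hT, Set.Finite.mem_toFinset]
  exact ⟨x, hx, _, hxA, f.left_inv (M.sub i hx)⟩

end mesh

variable {c₀ n δ : ℝ} {j : ℕ} {Ω Λ : Set V} {v w : V} {ρ : V → ℝ} {M : Mesh Ω} {h : ConHomeo Ω Λ}
  {J₀ J : Set (ℕ × (Fin 3 → ℤ))} {P Z : Set M.ι} {K : BoxCx Λ w}
  {D : KIn3 c₀ n j δ v w ρ M h J₀ J P Z} {C : Cells ρ w K} {C₀ μT : ℝ}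

/-- **(ii)**, slot (1): the numbers `εe` -/
theorem exists_m1 (D : KIn3 c₀ n j δ v w ρ M h J₀ J P Z) (C : Cells ρ w K) {ε : M.κ → ℝ}
    (hε : ∀ k, 0 < ε k) {εL : (edges M).ε → ℝ} (hεL : ∀ e, 0 < εL e) :
    ∃ m : (edges M).ε → ℝ, (∀ e, 0 < m e) ∧ ∀ (C₀ μT : ℝ) (X : S1 D C C₀ μT) (D₀ : ℝ), 2 ≤ D₀ →
      (∀ e, X.εe e ≤ m e) →
      (∀ k, (∀ e, (edges M).seg e ⊆ M.F k → ∀ i ∈ Wc D C, ¬ (edges M).seg e ⊆ M.Q i) →
        Num k h.toFun D₀ (ε k) (fun e => 2 * X.bn e)) ∧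
      ∀ e, (∀ i ∈ Wc D C, ¬ (edges M).seg e ⊆ M.Q i) → ENNReal.ofReal (2 * X.bn e) ≤
        ENNReal.ofReal D₀ * (len (onSeg h.toFun ((edges M).a e, (edges M).b e)) (Icc 0 1) +
          ENNReal.ofReal (εL e)) := by
  obtain ⟨t, t0, t1, t2⟩ := exists_tk M hε
  obtain ⟨m, m0, hm⟩ := Vale.Agent.P073.H669.exists_le_of_finite
    (R := fun (e : (edges M).ε) k => (edges M).seg e ⊆ M.F k) (H233.finite_faces_edge M) t0
  refine ⟨fun e => min (m e) (εL e), fun e => lt_min (m0 e) (hεL e),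
    fun C₀ μT X D₀ hD₀ hX => ?_⟩
  have key : ∀ e, (∀ i ∈ Wc D C, ¬ (edges M).seg e ⊆ M.Q i) → ∀ s, X.εe e ≤ s →
      ENNReal.ofReal (2 * X.bn e) ≤ ENNReal.ofReal D₀ *
        (len (onSeg h.toFun ((edges M).a e, (edges M).b e)) (Icc 0 1) + ENNReal.ofReal s) := by
    intro e he s hs
    have h1 : ENNReal.ofReal (X.bn e) ≤
        len (onSeg h.toFun ((edges M).a e, (edges M).b e)) (Icc 0 1) +
          ENNReal.ofReal (X.εe e) := X.num.b_le e he
    rw [ENNReal.ofReal_mul zero_le_two]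
    exact mul_le_mul' (ENNReal.ofReal_le_ofReal hD₀)
      (h1.trans (add_le_add le_rfl (ENNReal.ofReal_le_ofReal hs)))
  refine ⟨fun k hk => ⟨fun e _ => (mul_pos two_pos (X.num.b_pos e)).le, t k, t1 k, t2 k,
    fun e he => key e (hk e he) _ (((hX e).trans (min_le_left _ _)).trans (hm e k he))⟩,
    fun e he => key e he _ ((hX e).trans (min_le_right _ _))⟩

/-- **(iii)**, slot (3): the spacing of the levels -/
theorem exists_dm {tin : M.ι → ℝ} (h0 : ∀ i, 0 < tin i) (X : S1 D C C₀ μT) :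
    ∃ m : K.S → ℝ, (∀ s, 0 < m s) ∧ ∀ (Y₂ : S2 X), (∀ s, Y₂.dP s ≤ m s) →
      ∀ (Ys : Set M.κ) (sc : Sharp) (Y₃ : S3 Y₂ Ys sc), S4 Y₃ → ∀ (s : (D.dat C).S₀) i,
        i ∈ _root_.P073.H919.ZbP (D.G C) (D.dat C) Y₃.h4 s → Y₂.Lw.om s.1 false ≤ tin i := by
  choose t ht0 ht using fun s : K.S => exists_tolC M X.h1
    (_root_.P073.H919.isCompact_PK (D.G C) s) (P073.H196.PK_sub_Λ (D.G C) s) h0
  refine ⟨fun s => t s / 2, fun s => half_pos (ht0 s), fun Y₂ hd Ys sc Y₃ Y₄ s i hi => ?_⟩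
  obtain ⟨x, hx⟩ := (M.poly i).int
  have h1 := pos1 Y₄ hi (interior_subset hx)
  have h2 := ht s.1 i ⟨x, interior_subset hx, h1⟩
  have h3 := Y₂.Lw.om_le_two s.1 false
  have h4 := hd s.1
  linarith

/-- **(iv)**, slot (6): the tolerance of the second staircases -/
theorem exists_tol4c {tin : M.ι → ℝ} (h0 : ∀ i, 0 < tin i) (X : S1 D C C₀ μT) :
    ∃ m : (D.dat C).S₀ → ℝ, (∀ s, 0 < m s) ∧ ∀ (Y₂ : S2 X) (Ys : Set M.κ) (sc : Sharp)
      (Y₃ : S3 Y₂ Ys sc) (Y₄ : S4 Y₃), (∀ s, Y₄.ε s ≤ m s) → ∀ (s : (D.dat C).S₀) i,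
        i ∈ _root_.P073.H919.ZbP (D.G C) (D.dat C) Y₃.h4 s → 48 * Y₄.ε s ≤ tin i := by
  choose t ht0 ht using fun s : (D.dat C).S₀ => exists_tolC M X.h1
    (_root_.P073.H919.isCompact_PK (D.G C) s.1) (P073.H196.PK_sub_Λ (D.G C) s.1) h0
  refine ⟨fun s => t s / 48, fun s => div_pos (ht0 s) (by norm_num),
    fun Y₂ Ys sc Y₃ Y₄ hd s i hi => ?_⟩
  obtain ⟨x, hx⟩ := (M.poly i).int
  have h1 := pos1 Y₄ hi (interior_subset hx)
  have h2 := ht s i ⟨x, interior_subset hx, h1⟩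
  have h4 := hd s
  linarith

section tube

variable {X : S1 D C C₀ μT} {Y₂ : S2 X} {Ys : Set M.κ} {sc : Sharp} {Y₃ : S3 Y₂ Ys sc}

/-- **(v)**, slot (7): the thin bands of the tubes -/
theorem exists_hwc {tin : M.ι → ℝ} (h0 : ∀ i, 0 < tin i) (Y₄ : S4 Y₃) :
    ∃ m : pG C J₀ → ℝ, (∀ b, 0 < m b) ∧ ∀ Y₅ : S5 Y₄,
      (∀ b, (ebe (D.W C) b.1 - eal (D.W C) b.1) / (Y₅.Th b).M ≤ m b) →
      ∀ b i, i ∈ ZbT Y₄ b → (Y₅.Th b).hw ≤ tin i := by
  choose t ht0 ht using fun b : pG C J₀ => exists_tolC M Y₄.f5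
    (A := YB (YT (D.G C) (pS C J₀)) b.1) isCompact_Icc (YB_sub _ _) h0
  refine ⟨t, ht0, fun Y₅ hd b i hi => ?_⟩
  obtain ⟨x, hx⟩ := (M.poly i).int
  have h1 := interior_subset (hi.2.2 ⟨x, interior_subset hx, rfl⟩)
  have h2 := ht b i ⟨x, interior_subset hx, h1⟩
  have h3 : (Y₅.Th b).hw ≤ (Y₅.Th b).om := by
    have h4 := (Y₅.Th b).om_pos
    have h5 := (Y₅.Th b).e0
    unfold Thn.hw
    linarith
  exact (h3.trans (hd b)).trans h2

/-- **(vi)**, slot (7): the tolerance of the last staircase -/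
theorem exists_tol5c (D : KIn3 c₀ n j δ v w ρ M h J₀ J P Z) (C : Cells ρ w K)
    {tin : M.ι → ℝ} (h0 : ∀ i, 0 < tin i) (f : ConHomeo Ω Λ) :
    ∃ m : pG C J₀ → ℝ, (∀ b, 0 < m b) ∧ ∀ b i, (∃ x ∈ M.Q i, f.toFun x ∈
      YB ((YS (D.G C)).add (rT (D.G C)) (rT_pos (D.G C)) (fun e k => (YS_p_lt (D.G C) e k).le)
        fun e k => (YS_q_lt (D.G C) e k).le) b.1) → ∀ e ≤ m b, 16 * e ≤ tin i := by
  choose t ht0 ht using fun b : pG C J₀ => exists_tolC M f
    (A := YB ((YS (D.G C)).add (rT (D.G C)) (rT_pos (D.G C)) (fun e k => (YS_p_lt (D.G C) e k).le)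
        fun e k => (YS_q_lt (D.G C) e k).le) b.1) isCompact_Icc (YB_sub _ _) h0
  refine ⟨fun b => t b / 16, fun b => div_pos (ht0 b) (by norm_num), fun b i hi e he => ?_⟩
  have := ht b i hi
  linarith

end tube

end Vale.Agent.P073.H439
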