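import Vale.Agent.P073.H235.BoxSpec
import Vale.Agent.P073.H73.PostC1
import Vale.Agent.P073.H687.Dict

/-!
# P073, block A16, [BOX-SUM]: the cubes of the partition as cells, and the energies of the cells
-/

namespace Vale.Agent.P073.H439

open MeasureTheory Set Filter Topology Metric Vale.Agent.P073.St Vale.Agent.P073.AB
open Vale.Agent.P073.SQ (ev Cells cube)
open Vale.Agent.P073.AB.P86 (sc rel cen cells mem_dyo_iff cube_eq)
open Vale.Agent.P073.LOC (BdClose)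
open Vale.Agent.P073.H73 (MinEdge segP onSeg ctr WLe Mesh Adapted faceL enL sum_bd tsum_subset_le
  tsum_subset_le' tsum_split_le)
open Vale.Agent.P073.H235
open _root_.P073 (ConHomeo)
open _root_.P073.Net (len dyc dyo IsTile SizeFn)
open scoped ENNReal

section Cells

variable {Ω : Set V} {v : V} {I : Set Idx}

/-- the cubes of the partition, all squares controlled -/
noncomputable def bcells (hΩ : IsOpen Ω) (hI : Part Ω v I) : Cells Ω ∅ where
  ι := (cells hΩ hI (empty_subset I)).ι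
  cnt := (cells hΩ hI (empty_subset I)).cnt
  c := (cells hΩ hI (empty_subset I)).c
  ρ := (cells hΩ hI (empty_subset I)).ρ
  ρpos := (cells hΩ hI (empty_subset I)).ρpos
  sub := (cells hΩ hI (empty_subset I)).sub
  κ := (cells hΩ hI (empty_subset I)).κ
  cntκ := (cells hΩ hI (empty_subset I)).cntκ
  a := (cells hΩ hI (empty_subset I)).a
  k := (cells hΩ hI (empty_subset I)).k
  σ := (cells hΩ hI (empty_subset I)).σ
  σpos := (cells hΩ hI (empty_subset I)).σpos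
  ctrl := univ
  bd := (cells hΩ hI (empty_subset I)).bd
  disj := (cells hΩ hI (empty_subset I)).disj
  cover := by
    intro x hx
    rcases (cells hΩ hI (empty_subset I)).cover hx with h | h
    · obtain ⟨q, hq, -⟩ := mem_iUnion₂.1 h
      exact absurd hq (notMem_empty q)
    · exact Or.inr h
  miss := fun i x hx => absurd hx (notMem_empty x)
  fin := (cells hΩ hI (empty_subset I)).fin
  finκ := (cells hΩ hI (empty_subset I)).finκ
  subκ := (cells hΩ hI (empty_subset I)).subκ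
  bd_sub := (cells hΩ hI (empty_subset I)).bd_sub
  bd_cover := (cells hΩ hI (empty_subset I)).bd_cover
  disjκ := (cells hΩ hI (empty_subset I)).disjκ
  used := (cells hΩ hI (empty_subset I)).used
  unc := fun q hq => absurd (mem_univ q) hq

end Cells

/-! ### Finiteness of the large cells -/

/-- finitely many large dyadic cubes in a bounded set -/
theorem finite_large {v : V} {S : Set V} (hS : Bornology.IsBounded S) (n : ℕ) :
    {q : Idx | q.1 ≤ n ∧ dyc v q.1 q.2 ⊆ S}.Finite := by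
  obtain ⟨R, hR⟩ := hS.subset_closedBall v
  have h1 : {q : Idx | q.1 ≤ n ∧ dyc v q.1 q.2 ⊆ S} ⊆
      Set.Iic n ×ˢ {z : Fin 3 → ℤ | ∀ k, z k ∈ Set.Icc (-⌈2 ^ n * |R|⌉) ⌈2 ^ n * |R|⌉} := by
    rintro ⟨m, z⟩ ⟨hm, hz⟩
    refine ⟨hm, fun k => ?_⟩
    have hp : (0:ℝ) < 2 ^ m := by positivity
    have h2 : pt v m z ∈ dyc v m z := fun i =>
      ⟨le_rfl, by
        show v i + z i / 2 ^ m ≤ _
        have : (0:ℝ) < 1 / 2 ^ m := by positivity
        rw [P86.div_add_one]; linarith⟩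
    have h3 := hR (hz h2)
    rw [mem_closedBall, dist_eq_norm] at h3
    have h4 := (norm_le_pi_norm (pt v m z - v) k).trans h3
    have h5 : (pt v m z - v) k = z k / 2 ^ m := by simp [pt]
    rw [h5, Real.norm_eq_abs, abs_div, abs_of_pos hp, div_le_iff₀ hp] at h4
    have h6 : (2:ℝ) ^ m ≤ 2 ^ n := pow_le_pow_right₀ (by norm_num) hm
    have h7 : |(z k : ℝ)| ≤ 2 ^ n * |R| := by
      calc |(z k : ℝ)| ≤ R * 2 ^ m := h4
        _ ≤ |R| * 2 ^ n := by
          have := le_abs_self R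
          gcongr
        _ = _ := mul_comm _ _
    have h8 : (|z k| : ℝ) ≤ (⌈2 ^ n * |R|⌉ : ℤ) := h7.trans (Int.le_ceil _)
    have h9 : |z k| ≤ ⌈2 ^ n * |R|⌉ := by exact_mod_cast h8
    exact ⟨(abs_le.1 h9).1, (abs_le.1 h9).2⟩
  refine Set.Finite.subset (Set.Finite.prod (Set.finite_Iic n) ?_) h1
  exact Set.Finite.pi' fun k => Set.finite_Icc _ _

theorem isOpen_Bx (a : V) : IsOpen (Bx a) := by
  have h : Bx a = Set.pi univ fun i => Ioo 0 (a i) := by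
    ext x; simp [Bx]
  rw [h]
  exact isOpen_set_pi finite_univ fun i _ => isOpen_Ioo

theorem isBounded_Bx (a : V) : Bornology.IsBounded (Bx a) := by
  have h : Bx a ⊆ Set.pi univ fun i => Icc 0 (a i) := by
    intro x hx i _
    exact ⟨(hx i).1.le, (hx i).2.le⟩
  exact (isCompact_univ_pi fun _ => isCompact_Icc).isBounded.subset h

theorem dec_bcells {a v : V} {I : Set Idx} (hI : Part (Bx a) v I) {k : Fin 3} {x₀ : ℝ}
    (h : ∀ q ∈ I, ∀ x : V, x k = x₀ → x ∉ dyo v q.1 q.2) :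
    Dec (bcells (isOpen_Bx a) hI) k x₀ where
  ctrl := fun q => mem_univ q
  small := by
    intro δ hδ
    obtain ⟨n, hn⟩ := exists_pow_lt_of_lt_one hδ (by norm_num : (1/2:ℝ) < 1)
    have h1 := (finite_large (v := v) (isBounded_Bx a) n).preimage
      (f := fun i : {q : Idx // q ∈ I \ ∅} => i.1) Subtype.val_injective.injOn
    refine h1.subset ?_
    intro i hi
    have hi' : δ ≤ 1 / 2 / 2 ^ i.1.1 := hi
    refine ⟨?_, hI.sub _ i.2.1⟩
    by_contra hcon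
    have h2 : n ≤ i.1.1 := le_of_lt (not_le.1 hcon)
    have h3 : (1:ℝ) / 2 ^ i.1.1 ≤ 1 / 2 ^ n := by
      rw [one_div_le_one_div (by positivity) (by positivity)]
      exact pow_le_pow_right₀ (by norm_num) h2
    have h4 : (1/2:ℝ) ^ n = 1 / 2 ^ n := by rw [div_pow, one_pow]
    have h5 : (1:ℝ) / 2 / 2 ^ i.1.1 = 1 / 2 * (1 / 2 ^ i.1.1) := by ring
    have h6 : (0:ℝ) < 1 / 2 ^ i.1.1 := by positivity
    rw [h4] at hn
    rw [h5] at hi'
    linarith
  plane := by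
    intro i x hx hx'
    exact h i.1 i.2.1 x hx ((mem_dyo_iff v i.1.1 i.1.2 x).1 hx')

/-! ### The sums -/

section Sums

variable {U : Set V} {v : V} {I : Set Idx} {p : ℝ}

/-- weights of the minimal edges of a square -/
noncomputable def wE (p : ℝ) (v : V) (I : Set Idx) (s : Idx × Fin 3) : ℝ≥0∞ :=
  ∑' e : {e : Idx × Fin 3 // MinEdge v I e ∧ edge v e ⊆ squ v s},
    ENNReal.ofReal ((1 / 2 ^ e.1.1.1) ^ (1 - p))

theorem wE_ne_top (hI : Part U v I) {s : Idx × Fin 3} (hs : MinSq v I s) :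
    wE p v I s ≠ ⊤ := by
  have hfin := H687.finite_minEdge hI hs
  haveI : Finite {e : Idx × Fin 3 // MinEdge v I e ∧ edge v e ⊆ squ v s} := hfin.to_subtype
  haveI := Fintype.ofFinite {e : Idx × Fin 3 // MinEdge v I e ∧ edge v e ⊆ squ v s}
  rw [wE, tsum_fintype]
  exact ENNReal.sum_ne_top.2 fun e _ => ENNReal.ofReal_ne_top

/-- finitely many cubes contain a given square -/
theorem finite_cubes (hI : Part U v I) {s : Idx × Fin 3} (hs : MinSq v I s) :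
    {q | q ∈ I ∧ squ v s ⊆ dyc v q.1 q.2}.Finite := by
  refine (hI.fin (squ v s) (H687.squ_sub_Ω hI hs) (H687.isCompact_squ v s)).subset ?_
  rintro q ⟨h1, h2⟩
  exact ⟨h1, sc v s, h2 (P86.rel_sub P86.sc_mem), P86.rel_sub P86.sc_mem⟩

/-- the small numbers -/
theorem exists_beta (hI : Part U v I) (hp : 1 ≤ p) {τ : Idx × (Idx × Fin 3) → ℝ≥0∞}
    (hτ : ∀ a, 0 < τ a) : ∃ β : Idx × Fin 3 → ℝ, (∀ s, 0 < β s) ∧
      ∀ s, MinSq v I s → ∀ q ∈ I, squ v s ⊆ dyc v q.1 q.2 →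
        2 ^ (p - 1) * wE p v I s * ENNReal.ofReal (β s) ^ p ≤ τ (q, s) := by
  have key : ∀ s, ∃ b : ℝ, 0 < b ∧ (MinSq v I s → ∀ q ∈ I, squ v s ⊆ dyc v q.1 q.2 →
      2 ^ (p - 1) * wE p v I s * ENNReal.ofReal b ^ p ≤ τ (q, s)) := by
    intro s
    by_cases hs : MinSq v I s
    · have hc : (2:ℝ≥0∞) ^ (p - 1) * wE p v I s ≠ ⊤ :=
        ENNReal.mul_ne_top (ENNReal.rpow_ne_top_of_nonneg (by linarith) ENNReal.ofNat_ne_top)
          (wE_ne_top hI hs)
      have hlim : Tendsto (fun b : ℝ => 2 ^ (p - 1) * wE p v I s * ENNReal.ofReal b ^ p)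
          (𝓝[>] 0) (𝓝 0) := by
        have h1 : Tendsto (fun b : ℝ => ENNReal.ofReal b ^ p) (𝓝[>] 0) (𝓝 0) := by
          have h2 : Tendsto (fun b : ℝ => ENNReal.ofReal b ^ p) (𝓝 0)
              (𝓝 (ENNReal.ofReal 0 ^ p)) :=
            ((ENNReal.continuous_rpow_const).comp ENNReal.continuous_ofReal).tendsto 0
          rw [ENNReal.ofReal_zero, ENNReal.zero_rpow_of_pos (by linarith)] at h2
          exact h2.mono_left nhdsWithin_le_nhds
        have h3 := ENNReal.Tendsto.const_mul h1 (Or.inr hc)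
        rwa [mul_zero] at h3
      have hev : ∀ᶠ b in 𝓝[>] (0:ℝ), ∀ q ∈ {q | q ∈ I ∧ squ v s ⊆ dyc v q.1 q.2},
          2 ^ (p - 1) * wE p v I s * ENNReal.ofReal b ^ p ≤ τ (q, s) := by
        rw [eventually_all_finite (finite_cubes hI hs)]
        intro q _
        exact (hlim.eventually (gt_mem_nhds (hτ (q, s)))).mono fun b hb => hb.le
      obtain ⟨b, hb, hb'⟩ := (hev.and self_mem_nhdsWithin).exists
      exact ⟨b, hb', fun _ q hq hqs => hb q ⟨hq, hqs⟩⟩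
    · exact ⟨1, one_pos, fun h => absurd h hs⟩
  choose β h1 h2 using key
  exact ⟨β, h1, h2⟩

/-- the contribution of one cube to `eSum` -/
noncomputable def gE (p : ℝ) (v : V) (I : Set Idx) (ℓ : Idx × Fin 3 → ℝ≥0∞) (i : Idx) : ℝ≥0∞ :=
  ∑' s : {s : Idx × Fin 3 // MinSq v I s ∧ squ v s ⊆ dyc v i.1 i.2},
    ∑' e : {e : Idx × Fin 3 // MinEdge v I e ∧ edge v e ⊆ squ v s.1},
      ENNReal.ofReal (1 / 2 ^ i.1 * (1 / 2 ^ s.1.1.1)) *
        (ENNReal.ofReal ((1 / 2 ^ e.1.1.1) ^ (1 - p)) * ℓ e.1 ^ p)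

theorem eSum_eq (ℓ : Idx × Fin 3 → ℝ≥0∞) (S : Set V) : eSum p v I ℓ S =
    ∑' i : {i : Idx // i ∈ I ∧ (dyc v i.1 i.2 ∩ S).Nonempty}, gE p v I ℓ i.1 := rfl

/-- one square -/
theorem square_le (hp : 1 ≤ p) {ℓ : Idx × Fin 3 → ℝ≥0∞} {s : Idx × Fin 3} {i : Idx}
    {D₁ D' b b' : ℝ} (hD1 : 0 ≤ D₁) (hD : D₁ ≤ D') (hD' : 1 ≤ D') (hb : 0 < b) (hb' : b' ≤ b / D')
    {E τ : ℝ≥0∞}
    (hE : E ≤ ENNReal.ofReal (D₁ * (1 / 2 ^ s.1.1) ^ 2) *
      ∑' e : {e : Idx × Fin 3 // MinEdge v I e ∧ edge v e ⊆ squ v s},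
        ENNReal.ofReal ((1 / 2 ^ e.1.1.1) ^ (1 - p)) * (ℓ e.1 + ENNReal.ofReal b') ^ p)
    (hτ : 2 ^ (p - 1) * wE p v I s * ENNReal.ofReal b ^ p ≤ τ) :
    ENNReal.ofReal (1 / 2 / 2 ^ i.1 / (1 / 2 / 2 ^ s.1.1)) * E ≤
      ENNReal.ofReal (2 ^ (p - 1) * D₁) *
        (∑' e : {e : Idx × Fin 3 // MinEdge v I e ∧ edge v e ⊆ squ v s},
          ENNReal.ofReal (1 / 2 ^ i.1 * (1 / 2 ^ s.1.1)) *
          (ENNReal.ofReal ((1 / 2 ^ e.1.1.1) ^ (1 - p)) * ℓ e.1 ^ p)) + τ := by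
  set w : ℝ≥0∞ := ENNReal.ofReal (1 / 2 ^ i.1 * (1 / 2 ^ s.1.1)) with hw
  set X : ℝ≥0∞ := ∑' e : {e : Idx × Fin 3 // MinEdge v I e ∧ edge v e ⊆ squ v s},
    ENNReal.ofReal ((1 / 2 ^ e.1.1.1) ^ (1 - p)) * ℓ e.1 ^ p with hX
  have e1 : ∑' e : {e : Idx × Fin 3 // MinEdge v I e ∧ edge v e ⊆ squ v s},
      w * (ENNReal.ofReal ((1 / 2 ^ e.1.1.1) ^ (1 - p)) * ℓ e.1 ^ p) = w * X :=
    ENNReal.tsum_mul_left
  rw [e1]
  have hw1 : w ≤ 1 := by
    rw [hw]
    refine ENNReal.ofReal_le_one.2 ?_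
    have h1 : (1:ℝ) / 2 ^ i.1 ≤ 1 := by
      rw [div_le_one (by positivity)]
      exact one_le_pow₀ (by norm_num)
    have h2 : (1:ℝ) / 2 ^ s.1.1 ≤ 1 := by
      rw [div_le_one (by positivity)]
      exact one_le_pow₀ (by norm_num)
    exact mul_le_one₀ h1 (by positivity) h2
  have h2p : (2:ℝ≥0∞) ^ (p - 1) = ENNReal.ofReal (2 ^ (p - 1)) := by
    rw [← ENNReal.ofReal_rpow_of_pos (by norm_num)]
    norm_num
  -- the sum
  have hsum : ∑' e : {e : Idx × Fin 3 // MinEdge v I e ∧ edge v e ⊆ squ v s},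
      ENNReal.ofReal ((1 / 2 ^ e.1.1.1) ^ (1 - p)) * (ℓ e.1 + ENNReal.ofReal b') ^ p ≤
      2 ^ (p - 1) * X + 2 ^ (p - 1) * wE p v I s * ENNReal.ofReal b' ^ p := by
    have h1 : 2 ^ (p - 1) * X + 2 ^ (p - 1) * wE p v I s * ENNReal.ofReal b' ^ p =
        ∑' e : {e : Idx × Fin 3 // MinEdge v I e ∧ edge v e ⊆ squ v s},
          (2 ^ (p - 1) * (ENNReal.ofReal ((1 / 2 ^ e.1.1.1) ^ (1 - p)) * ℓ e.1 ^ p) +
            2 ^ (p - 1) * ENNReal.ofReal ((1 / 2 ^ e.1.1.1) ^ (1 - p)) *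
              ENNReal.ofReal b' ^ p) := by
      rw [ENNReal.tsum_add, ENNReal.tsum_mul_left, ENNReal.tsum_mul_right, ENNReal.tsum_mul_left]
      rfl
    rw [h1]
    refine ENNReal.tsum_le_tsum fun e => ?_
    calc ENNReal.ofReal ((1 / 2 ^ e.1.1.1) ^ (1 - p)) * (ℓ e.1 + ENNReal.ofReal b') ^ p
        ≤ ENNReal.ofReal ((1 / 2 ^ e.1.1.1) ^ (1 - p)) *
          (2 ^ (p - 1) * (ℓ e.1 ^ p + ENNReal.ofReal b' ^ p)) := by
          gcongr
          exact ENNReal.rpow_add_le_mul_rpow_add_rpow _ _ hp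
      _ = _ := by ring
  have hwD : ENNReal.ofReal (1 / 2 / 2 ^ i.1 / (1 / 2 / 2 ^ s.1.1)) *
      ENNReal.ofReal (D₁ * (1 / 2 ^ s.1.1) ^ 2) = ENNReal.ofReal D₁ * w := by
    rw [hw, ← ENNReal.ofReal_mul (by positivity), ← ENNReal.ofReal_mul hD1]
    congr 1
    field_simp
  have hbD : ENNReal.ofReal D₁ * ENNReal.ofReal b' ^ p ≤ ENNReal.ofReal b ^ p := by
    have hD'0 : 0 < D' := by linarith
    have h1 : ENNReal.ofReal b' ^ p ≤ ENNReal.ofReal (b / D') ^ p :=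
      ENNReal.rpow_le_rpow (ENNReal.ofReal_le_ofReal hb') (by linarith)
    have h2 : ENNReal.ofReal (b / D') ^ p = ENNReal.ofReal ((b / D') ^ p) :=
      ENNReal.ofReal_rpow_of_pos (by positivity)
    have h3 : ENNReal.ofReal b ^ p = ENNReal.ofReal (b ^ p) := ENNReal.ofReal_rpow_of_pos hb
    rw [h2] at h1
    rw [h3]
    calc ENNReal.ofReal D₁ * ENNReal.ofReal b' ^ p
        ≤ ENNReal.ofReal D' * ENNReal.ofReal ((b / D') ^ p) := by
          gcongr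
      _ = ENNReal.ofReal (D' * (b / D') ^ p) := by rw [← ENNReal.ofReal_mul hD'0.le]
      _ ≤ ENNReal.ofReal (b ^ p) := by
          refine ENNReal.ofReal_le_ofReal ?_
          rw [Real.div_rpow hb.le hD'0.le]
          have h4 : D' ≤ D' ^ p := by
            calc D' = D' ^ (1:ℝ) := (Real.rpow_one _).symm
              _ ≤ D' ^ p := Real.rpow_le_rpow_of_exponent_le hD' hp
          have h5 : (0:ℝ) < D' ^ p := by positivity
          have h6 : (0:ℝ) ≤ b ^ p := by positivity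
          rw [mul_div_assoc', div_le_iff₀ h5, mul_comm]
          gcongr
  calc ENNReal.ofReal (1 / 2 / 2 ^ i.1 / (1 / 2 / 2 ^ s.1.1)) * E
      ≤ ENNReal.ofReal (1 / 2 / 2 ^ i.1 / (1 / 2 / 2 ^ s.1.1)) *
        (ENNReal.ofReal (D₁ * (1 / 2 ^ s.1.1) ^ 2) *
          (2 ^ (p - 1) * X + 2 ^ (p - 1) * wE p v I s * ENNReal.ofReal b' ^ p)) := by
        gcongr
        exact hE.trans (by gcongr)
    _ = (ENNReal.ofReal D₁ * w) *
          (2 ^ (p - 1) * X + 2 ^ (p - 1) * wE p v I s * ENNReal.ofReal b' ^ p) := by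
        rw [← mul_assoc, hwD]
    _ = 2 ^ (p - 1) * ENNReal.ofReal D₁ * (w * X) +
          w * (2 ^ (p - 1) * wE p v I s * (ENNReal.ofReal D₁ * ENNReal.ofReal b' ^ p)) := by
        ring
    _ ≤ 2 ^ (p - 1) * ENNReal.ofReal D₁ * (w * X) +
          1 * (2 ^ (p - 1) * wE p v I s * ENNReal.ofReal b ^ p) := by
        gcongr
    _ ≤ 2 ^ (p - 1) * ENNReal.ofReal D₁ * (w * X) + τ := by
        rw [one_mul]
        gcongr
    _ = _ := by
        rw [h2p, ← ENNReal.ofReal_mul (by positivity)]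

end Sums

/-- **[BOX-SUM]** -/
theorem specBoxSum : SpecBoxSum := by
  classical
  intro p hp
  refine ⟨2 ^ (p - 1), by positivity, ?_⟩
  intro a Λ fc δ ha hΛ P
  have hΩ := isOpen_Bx a
  refine ⟨bcells hΩ P.part, fun k x₀ h => dec_bcells P.part h, ?_⟩
  intro t ht
  obtain ⟨τ, hτ0, hτ⟩ := ENNReal.exists_pos_sum_of_countable'
    (ε := ENNReal.ofReal (t / 2)) (by simpa using ht) (Idx × (Idx × Fin 3))
  obtain ⟨β, hβ0, hβ⟩ := exists_beta (p := p) P.part hp hτ0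
  refine ⟨β, hβ0, ?_⟩
  intro D μ D' r c Y g β' hD hDD' hβ' hg S
  have hD'1 : 1 ≤ D' := hD.trans hDD'
  set v := P.v with hv
  set I := P.I with hIdef
  set ℓ := P.ℓ with hℓ
  -- the energy of a cube
  set E : Idx → ℝ≥0∞ := fun i =>
    ∑' s : {s : Idx × Fin 3 // MinSq v I s ∧ squ v s ⊆ dyc v i.1 i.2},
      ENNReal.ofReal (1 / 2 / 2 ^ i.1 / (1 / 2 / 2 ^ s.1.1.1)) *
        faceL p g.toFun (sc v s.1) s.1.2 (1 / 2 / 2 ^ s.1.1.1) with hE
  have hEi : ∀ i : {q : Idx // q ∈ I \ ∅}, enL (bcells hΩ P.part) p g.toFun i = E i.1 := by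
    intro i
    exact sum_bd hΩ P.part (empty_subset I) i (fun s => ENNReal.ofReal
      (1 / 2 / 2 ^ i.1.1 / (1 / 2 / 2 ^ s.1.1)) * faceL p g.toFun (sc v s) s.2 (1 / 2 / 2 ^ s.1.1))
  set Q : Idx → Prop := fun i => i ∈ I ∧ (dyc v i.1 i.2 ∩ S).Nonempty with hQ
  set R : Idx → Prop := fun i => (dyc v i.1 i.2 ∩ ⋃ s ∈ Y, squ v s).Nonempty with hR
  set T : Idx → ℝ≥0∞ := fun i => ∑' s : Idx × Fin 3, τ (i, s) with hT
  have hstart : enS (bcells hΩ P.part) p g.toFun S ≤ ∑' i : {i // Q i}, E i.1 := by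
    unfold enS
    have h1 : ∑' i : {i : (bcells hΩ P.part).ι // (cube ((bcells hΩ P.part).c i)
        ((bcells hΩ P.part).ρ i) ∩ S).Nonempty}, enL (bcells hΩ P.part) p g.toFun i.1 =
        ∑' i : {i : (bcells hΩ P.part).ι // (cube ((bcells hΩ P.part).c i)
        ((bcells hΩ P.part).ρ i) ∩ S).Nonempty}, E i.1.1 := tsum_congr fun i => hEi i.1
    rw [h1]
    refine ENNReal.tsum_comp_le_tsum_of_injective
      (f := fun i : {i : (bcells hΩ P.part).ι // (cube ((bcells hΩ P.part).c i)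
        ((bcells hΩ P.part).ρ i) ∩ S).Nonempty} => (⟨i.1.1, i.1.2.1, by
          have h2 := i.2
          have h3 : cube ((bcells hΩ P.part).c i.1) ((bcells hΩ P.part).ρ i.1) =
            dyc v i.1.1.1 i.1.1.2 := cube_eq v i.1.1.1 i.1.1.2
          rwa [h3] at h2⟩ : {i // Q i})) ?_ (fun i : {i // Q i} => E i.1)
    intro i j hij
    exact Subtype.ext (Subtype.ext (congrArg (fun x : {i // Q i} => x.1) hij))
  -- one cube
  have hcube : ∀ i ∈ I, ∀ D₁ : ℝ, 0 ≤ D₁ → D₁ ≤ D' →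
      (∀ s, MinSq v I s → squ v s ⊆ dyc v i.1 i.2 →
        (if meetY v Y (squ v s) then D' else D) ≤ D₁) →
      E i ≤ ENNReal.ofReal (2 ^ (p - 1) * D₁) * gE p v I ℓ i + T i := by
    intro i hi D₁ hD1 hD1' hle
    rw [hE, gE]
    simp only
    rw [← ENNReal.tsum_mul_left]
    have e0 : ∑' s : {s : Idx × Fin 3 // MinSq v I s ∧ squ v s ⊆ dyc v i.1 i.2},
        τ (i, s.1) ≤ T i := tsum_subset_le _ fun s => τ (i, s)
    refine le_trans ?_ (add_le_add le_rfl e0)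
    rw [← ENNReal.tsum_add]
    refine ENNReal.tsum_le_tsum fun s => ?_
    refine square_le hp hD1 hD1' hD'1 (hβ0 s.1) (hβ' s.1) ?_ (hβ s.1 s.2.1 i hi s.2.2)
    refine (hg.energy s.1 s.2.1).trans ?_
    have h4 := hle s.1 s.2.1 s.2.2
    gcongr
  have hsplit : ∑' i : {i // Q i}, E i.1 ≤
      ∑' i : {i // Q i ∧ R i}, (ENNReal.ofReal (2 ^ (p - 1) * D') * gE p v I ℓ i.1 + T i.1) +
        ∑' i : {i // Q i ∧ ¬ R i},
          (ENNReal.ofReal (2 ^ (p - 1) * D) * gE p v I ℓ i.1 + T i.1) := by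
    refine tsum_split_le Q R (H₁ := fun i => ENNReal.ofReal (2 ^ (p - 1) * D') * gE p v I ℓ i + T i)
      (H₂ := fun i => ENNReal.ofReal (2 ^ (p - 1) * D) * gE p v I ℓ i + T i) ?_ ?_
    · intro i hi _
      refine hcube i hi.1 D' (by linarith) le_rfl fun s _ _ => ?_
      split_ifs
      · exact le_rfl
      · exact hDD'
    · intro i hi hRi
      refine hcube i hi.1 D (by linarith) hDD' fun s hs hsi => ?_
      rw [if_neg]
      rintro ⟨s', hs', y, hy, hy'⟩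
      exact hRi ⟨y, hsi hy, mem_biUnion hs' hy'⟩
  have hTt : ∑' i, T i ≤ ENNReal.ofReal (t / 2) := by
    rw [hT]
    have : ∑' i : Idx, ∑' s : Idx × Fin 3, τ (i, s) = ∑' a, τ a := (ENNReal.tsum_prod (f := fun i s => τ (i, s))).symm
    rw [this]
    exact hτ.le
  calc enS (bcells hΩ P.part) p g.toFun S ≤ ∑' i : {i // Q i}, E i.1 := hstart
    _ ≤ _ := hsplit
    _ = (ENNReal.ofReal (2 ^ (p - 1) * D') * ∑' i : {i // Q i ∧ R i}, gE p v I ℓ i.1 +
          ∑' i : {i // Q i ∧ R i}, T i.1) +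
        (ENNReal.ofReal (2 ^ (p - 1) * D) * ∑' i : {i // Q i ∧ ¬ R i}, gE p v I ℓ i.1 +
          ∑' i : {i // Q i ∧ ¬ R i}, T i.1) := by
        rw [ENNReal.tsum_add, ENNReal.tsum_add, ENNReal.tsum_mul_left, ENNReal.tsum_mul_left]
    _ ≤ (ENNReal.ofReal (2 ^ (p - 1) * D') * eSum p v I ℓ (⋃ s ∈ Y, squ v s) +
          ENNReal.ofReal (t / 2)) +
        (ENNReal.ofReal (2 ^ (p - 1) * D) * eSum p v I ℓ S + ENNReal.ofReal (t / 2)) := by
        rw [eSum_eq, eSum_eq]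
        have h1 : ∑' i : {i // Q i ∧ R i}, gE p v I ℓ i.1 ≤
            ∑' i : {i : Idx // i ∈ I ∧ (dyc v i.1 i.2 ∩ ⋃ s ∈ Y, squ v s).Nonempty},
              gE p v I ℓ i.1 :=
          tsum_subset_le' (fun i hi => ⟨hi.1.1, hi.2⟩) _
        have h2 : ∑' i : {i // Q i ∧ ¬ R i}, gE p v I ℓ i.1 ≤
            ∑' i : {i : Idx // i ∈ I ∧ (dyc v i.1 i.2 ∩ S).Nonempty}, gE p v I ℓ i.1 :=
          tsum_subset_le' (fun i hi => hi.1) _
        have h3 : ∑' i : {i // Q i ∧ R i}, T i.1 ≤ ENNReal.ofReal (t / 2) :=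
          (tsum_subset_le _ T).trans hTt
        have h4 : ∑' i : {i // Q i ∧ ¬ R i}, T i.1 ≤ ENNReal.ofReal (t / 2) :=
          (tsum_subset_le _ T).trans hTt
        gcongr
    _ = ENNReal.ofReal (2 ^ (p - 1) * D) * eSum p v I ℓ S +
          ENNReal.ofReal (2 ^ (p - 1) * D') * eSum p v I ℓ (⋃ s ∈ Y, squ v s) +
            (ENNReal.ofReal (t / 2) + ENNReal.ofReal (t / 2)) := by ring
    _ = _ := by
        rw [← ENNReal.ofReal_add (by positivity) (by positivity), add_halves]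

end Vale.Agent.P073.H439
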