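import Vale.Agent.P073.H439.CloseFin
import Vale.Agent.P073.H953.Bm5

/-!
# P073: the approximation theorem with closeness for `2 < q < 3`
-/

namespace Vale.Agent.P073.H439

/-- **[G1]**: uniformly continuous Sobolev homeomorphisms of bounded domains, `2 < q < 3`, are
limits of diffeomorphisms, with uniform closeness which tends to zero at the boundary -/
theorem closeK {q : ℝ} (hq : 2 < q) (hq3 : q < 3) : H989.CloseK q :=
  closeK_final hq.le hq3 (H953.closeFD hq hq3)

end Vale.Agent.P073.H439
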