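import Vale.Agent.P073.H439.CloseSubW

/-!
# P073, P2h (exponent two, rank three): [CLOSE-SUB], local form

The hypotheses are only needed for the squares of the own lattice in one cell.
-/

namespace Vale.Agent.P073.H439

open Set Filter Topology Metric Vale.Agent.P073.St Vale.Agent.P073.AB
open Vale.Agent.P073.AB.P86 (rel)
open _root_.P073.Net (dyc dyo)
open _root_.P073 (ConHomeo ConBall)
open scoped ENNReal

variable {Ω Λ : Set V} {v : V}

/-- the relative interior of a square and another square of the same generation -/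
theorem eq_of_rel_squ {s t : Idx × Fin 3} (hst : s.1.1 = t.1.1) {x : V} (hx : x ∈ rel v s)
    (hx' : x ∈ squ v t) : s = t := by
  have hp : (0:ℝ) < 2 ^ t.1.1 := by positivity
  have h1 := hx.1
  rw [hst] at h1
  -- the same direction
  have hk : t.2 = s.2 := by
    by_contra hk
    obtain ⟨h2, h3⟩ := hx.2 t.2 hk
    rw [hst] at h2 h3
    rw [hx'.1] at h2 h3
    have h4 : (s.1.2 t.2 : ℝ) / 2 ^ t.1.1 < t.1.2 t.2 / 2 ^ t.1.1 := by linarith
    have h5 : (t.1.2 t.2 : ℝ) / 2 ^ t.1.1 < (s.1.2 t.2 + 1) / 2 ^ t.1.1 := by linarith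
    rw [div_lt_div_iff_of_pos_right hp] at h4 h5
    have h6 : s.1.2 t.2 < t.1.2 t.2 := by exact_mod_cast h4
    have h7 : t.1.2 t.2 < s.1.2 t.2 + 1 := by exact_mod_cast h5
    omega
  refine Prod.ext (Prod.ext hst ?_) hk.symm
  funext k
  by_cases hks : k = s.2
  · subst hks
    have h2 := hx'.1
    rw [hk] at h2
    have h3 : (s.1.2 s.2 : ℝ) / 2 ^ t.1.1 = t.1.2 s.2 / 2 ^ t.1.1 := by linarith
    have h4 := (div_left_inj' hp.ne').1 h3
    exact_mod_cast h4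
  · obtain ⟨h2, h3⟩ := hx.2 k hks
    obtain ⟨h4, h5⟩ := hx'.2 k (by rw [hk]; exact hks)
    rw [hst] at h2 h3
    have h6 : (s.1.2 k : ℝ) / 2 ^ t.1.1 < (t.1.2 k + 1) / 2 ^ t.1.1 := by linarith
    have h7 : (t.1.2 k : ℝ) / 2 ^ t.1.1 < (s.1.2 k + 1) / 2 ^ t.1.1 := by linarith
    rw [div_lt_div_iff_of_pos_right hp] at h6 h7
    have h8 : s.1.2 k < t.1.2 k + 1 := by exact_mod_cast h6
    have h9 : t.1.2 k < s.1.2 k + 1 := by exact_mod_cast h7
    omega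

theorem squ_sub_of_faceOf {t : Idx × Fin 3} {q : Idx} (h : FaceOf t q) :
    squ v t ⊆ dyc v q.1 q.2 := by
  rcases P86.faceOf_iff.1 h with rfl | rfl
  · exact P86.squ_sub_hi
  · exact P86.squ_sub_lo

/-- closeness on one square -/
theorem close_squL {N : ℕ} {t : Idx × Fin 3} (ht : t.1.1 = N) {ι : Type*} {D c : ι → Set V}
    {s : ι → Idx × Fin 3} (hs : ∀ i, (s i).1.1 = N)
    (hball : ∀ i, ConBall 2 (D i) (c i)) (hsub : ∀ i, D i ⊆ rel v (s i))
    (hdisj : ∀ i i', i ≠ i' → Disjoint (D i) (D i'))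
    {A : V → V} {L : V →L[ℝ] V} {M a : ℝ} {g : V → V}
    (haff : ∀ x y, A y - A x = L (y - x)) (habove : ∀ w, ‖L w‖ ≤ M * ‖w‖) (hM : 0 ≤ M)
    (ha : 0 ≤ a)
    (hgood : ∀ x ∈ squ v t, (∀ i, x ∉ D i \ c i) → ‖g x - A x‖ ≤ a / 2 ^ N)
    (hdisc : ∀ i, s i = t → ∀ x ∈ D i, ∀ y ∈ D i, ‖g x - g y‖ ≤ 2 * a / 2 ^ N)
    {x : V} (hx : x ∈ squ v t) : ‖g x - A x‖ ≤ (M + 3 * a) / 2 ^ N := by
  have hp : (0:ℝ) < 2 ^ N := by positivity
  by_cases hxD : ∀ i, x ∉ D i \ c i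
  · refine (hgood x hx hxD).trans ?_
    gcongr
    linarith
  · push Not at hxD
    obtain ⟨i, hxi, hxc⟩ := hxD
    obtain ⟨y, hy⟩ := bdry_nonempty (hball i)
    have hyD : y ∈ D i := (hball i).1 hy
    have hxs : x ∈ rel v (s i) := hsub i hxi
    have hys : y ∈ rel v (s i) := hsub i hyD
    have hst : s i = t := eq_of_rel_squ (by rw [hs i, ht]) hxs hx
    have hyt : y ∈ squ v t := by rw [← hst]; exact P86.rel_sub hys
    have h1 : ‖g y - A y‖ ≤ a / 2 ^ N := by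
      refine hgood y hyt fun i' hi' => ?_
      by_cases hii : i' = i
      · subst hii
        exact hi'.2 hy
      · exact disjoint_left.1 (hdisj i' i hii) hi'.1 hyD
    have h2 := hdisc i hst x hxi y hyD
    have h3 : ‖x - y‖ ≤ 1 / 2 ^ N := by
      have := norm_sub_le_of_dyc (squ_sub_dyc hx) (squ_sub_dyc hyt)
      rwa [ht] at this
    have h4 : ‖A y - A x‖ ≤ M / 2 ^ N := by
      rw [haff]
      refine (habove _).trans ?_
      rw [norm_sub_rev]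
      calc M * ‖x - y‖ ≤ M * (1 / 2 ^ N) := by gcongr
        _ = _ := by rw [mul_one_div]
    calc ‖g x - A x‖ = ‖(g x - g y) + (g y - A y) + (A y - A x)‖ := by congr 1; abel
      _ ≤ ‖g x - g y‖ + ‖g y - A y‖ + ‖A y - A x‖ := norm_add₃_le
      _ ≤ 2 * a / 2 ^ N + a / 2 ^ N + M / 2 ^ N := by gcongr
      _ = _ := by ring

/-- **[CLOSE-SUB], local form**: closeness on the closed cell `q`; only the squares of the lattice
of generation `N` in `q` matter -/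
theorem close_cellL {N n : ℕ} (hn : n ≤ N) {q : Fin 3 → ℤ} (hΛ : IsOpen Λ) (h : ConHomeo Ω Λ)
    (hΩ : dyc v n q ⊆ Ω) {ι : Type*} {D c : ι → Set V} {s : ι → Idx × Fin 3}
    (hs : ∀ i, (s i).1.1 = N) (hball : ∀ i, ConBall 2 (D i) (c i))
    (hsub : ∀ i, D i ⊆ rel v (s i)) (hdisj : ∀ i i', i ≠ i' → Disjoint (D i) (D i'))
    {A : V → V} {L : V →L[ℝ] V} {M a : ℝ}
    (haff : ∀ x y, A y - A x = L (y - x)) (habove : ∀ w, ‖L w‖ ≤ M * ‖w‖) (hM : 0 ≤ M)
    (ha : 0 ≤ a)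
    (hgood : ∀ t : Idx × Fin 3, t.1.1 = N → squ v t ⊆ dyc v n q → ∀ x ∈ squ v t,
      (∀ i, x ∉ D i \ c i) → ‖h.toFun x - A x‖ ≤ a / 2 ^ N)
    (hdisc : ∀ i, squ v (s i) ⊆ dyc v n q → ∀ x ∈ D i, ∀ y ∈ D i,
      ‖h.toFun x - h.toFun y‖ ≤ 2 * a / 2 ^ N) :
    ∀ x ∈ dyc v n q, ‖h.toFun x - A x‖ ≤ (2 * M + 3 * a) / 2 ^ N := by
  intro x hx
  obtain ⟨w, hxw, hwq⟩ := exists_sub hn hx
  refine (close_cubeW hΛ h haff habove hM (hwq.trans hΩ) (b := M + 3 * a)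
    (fun t ht y hy => ?_) hxw).trans (le_of_eq ?_)
  · have htN : t.1.1 = N := ht.1
    have htq : squ v t ⊆ dyc v n q := (squ_sub_of_faceOf ht).trans hwq
    exact close_squL htN hs hball hsub hdisj haff habove hM ha (hgood t htN htq)
      (fun i hi => hdisc i (by rw [hi]; exact htq)) hy
  · ring

end Vale.Agent.P073.H439
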