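import Vale.Agent.P073.H234.RData
import Vale.Agent.P073.H439.CloseLoc

/-!
# P073, P2h (exponent two, rank three): [CLOSE-R], closeness after the retractions

`h'`: the homeomorphism after the retractions of the discs in the sub-family `S`.  At the points of
the clean squares off the discs, and at the points of the own edges, `h'` is `h₀` or in the neck
cube of a neck which is close to the point.
-/

namespace Vale.Agent.P073.H439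

open MeasureTheory Set Filter Topology Metric Vale.Agent.P073.St Vale.Agent.P073.AB
open Vale.Agent.P073.SQ (ev)
open Vale.Agent.P073.AB.P86 (rel)
open Vale.Agent.P073.H234
open _root_.P073.Net (dyc dyo)
open _root_.P073 (ConBall ConHomeo)
open scoped ENNReal

variable {p : ℝ} {ε : ℝ≥0∞} {θ M κ c₀ t₀ δ₀ ε₁ : ℝ} {j : ℕ} {Ω Λ : Set V} {f : V → V}
  {F : V → Mat} {T : Set V} {v : V} {m : ℕ}
  {C : P2Cells p ε θ M κ c₀ t₀ δ₀ j Ω Λ f F T v m} {β σ : ℝ} {b o : V} {z : Fin 3 → ℤ}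
  {s : Idx × Fin 3}

/-- the centre of the neck is close to the affine images of the points near `o` -/
theorem near_b (hT : TSet θ M κ t₀ δ₀ ε₁ Ω f F T) (hN : Num θ M κ β) (hβθ : 16 * β ≤ θ)
    (H : NeckPt C β b o z s) {z' : Fin 3 → ℤ} (hz' : z' ∈ C.J) {a : Fin 3 → ℤ}
    (ha : pt v (m + j) a ∈ dyc v m z') {x : V} (hxa : ‖x - pt v (m + j) a‖ ≤ 1 / 2 ^ (m + j))
    (hxo : ‖x - o‖ ≤ 16 * β / θ / 2 ^ (m + j)) :
    ‖C.A z' x - b‖ ≤ (16 * M / θ + 5 / 2) * β / 2 ^ (m + j) := by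
  have hθ := hN.θ0
  have hβ := hN.β0
  have hM := hN.M0
  have hκβ := hN.κβ
  have hr : (0:ℝ) < 1 / 2 ^ (m + j) := by positivity
  have hk := kap_nonneg C H.mem
  have hl := C.lat_le
  have ht := hT.t_pos C
  obtain ⟨h1, h2, h3⟩ := H.vert
  have h4 : ‖C.A z' x - C.A z' x‖ ≤ 0 := by rw [sub_self, norm_zero]
  have h5 := C.at_vertex hz' ha h4
  have h6 : κ * ‖x - pt v (m + j) a‖ ≤ κ * (1 / 2 ^ (m + j)) := mul_le_mul_of_nonneg_left hxa hk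
  have hR : 16 * β / θ ≤ 1 := by rw [div_le_one hθ]; exact hβθ
  have hxo' : ‖x - o‖ ≤ 1 / 2 ^ (m + j) := hxo.trans (by gcongr)
  have h7 : ‖pt v (m + j) a - pt v (m + j) s.1.2‖ ≤ 3 * (1 / 2 ^ (m + j)) := by
    calc ‖pt v (m + j) a - pt v (m + j) s.1.2‖
        = ‖-(x - pt v (m + j) a) + (x - o) + (o - pt v (m + j) s.1.2)‖ := by
          congr 1; abel
      _ ≤ ‖-(x - pt v (m + j) a)‖ + ‖x - o‖ + ‖o - pt v (m + j) s.1.2‖ := norm_add₃_le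
      _ ≤ 1 / 2 ^ (m + j) + 1 / 2 ^ (m + j) + 1 / 2 ^ (m + j) := by
          rw [norm_neg]
          gcongr
      _ = _ := by ring
  have h8 := hT.upp_of (C.vert z' hz' a ha).1 h1 (by linarith) h5 h3
  have h9 : M * ‖x - o‖ ≤ 16 * M / θ * β * (1 / 2 ^ (m + j)) := by
    calc M * ‖x - o‖ ≤ M * (16 * β / θ / 2 ^ (m + j)) := by gcongr
      _ = _ := by ring
  have h10 : κ * ‖pt v (m + j) a - pt v (m + j) s.1.2‖ ≤ κ * (3 * (1 / 2 ^ (m + j))) :=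
    mul_le_mul_of_nonneg_left h7 hk
  have h11 : 8 * κ * (1 / 2 ^ (m + j)) ≤ β / 2 * (1 / 2 ^ (m + j)) :=
    mul_le_mul_of_nonneg_right (by linarith) hr.le
  have e1 : κ / 2 ^ (m + j) = κ * (1 / 2 ^ (m + j)) := by ring
  have e2 : (2 * β + 2 * κ) / 2 ^ (m + j) = (2 * β + 2 * κ) * (1 / 2 ^ (m + j)) := by ring
  have e3 : (16 * M / θ + 5 / 2) * β / 2 ^ (m + j) =
    16 * M / θ * β * (1 / 2 ^ (m + j)) + 5 / 2 * β * (1 / 2 ^ (m + j)) := by ring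
  rw [e1, e2] at h8
  rw [e3]
  linarith

/-- `f` on the own edges -/
theorem edge_close (hT : TSet θ M κ t₀ δ₀ ε₁ Ω f F T) (hN : Num θ M κ β)
    {z' : Fin 3 → ℤ} {e : Idx × Fin 3} (hz' : z' ∈ C.J) (he : e.1.1 = m + j)
    (hez : edge v e ⊆ dyc v m z') {x : V} (hx : x ∈ edge v e) :
    ‖f x - C.A z' x‖ ≤ β / 2 ^ (m + j) ∧ pt v (m + j) e.1.2 ∈ dyc v m z' ∧
      ‖x - pt v (m + j) e.1.2‖ ≤ 1 / 2 ^ (m + j) := by
  obtain ⟨t, ht0, ht1, rfl⟩ := exists_of_mem_edge hx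
  have hr : (0:ℝ) < 1 / 2 ^ (m + j) := by positivity
  have hk := kap_nonneg C hz'
  have hl := C.lat_le
  have ht := hT.t_pos C
  have ha : pt v e.1.1 e.1.2 ∈ edge v e := left_mem_segment ℝ _ _
  have ha' : pt v (m + j) e.1.2 ∈ dyc v m z' := by
    have := hez ha
    rwa [he] at this
  obtain ⟨h1, h2, h3⟩ := C.vert z' hz' _ ha'
  rw [he] at ht1 ⊢
  set a := pt v (m + j) e.1.2 with hadef
  have hxa : a + t • ev e.2 - a = t • ev e.2 := add_sub_cancel_left _ _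
  have hn : ‖t • ev e.2‖ = t := by rw [norm_smul, S293.ev_norm, mul_one, Real.norm_eq_abs,
    abs_of_nonneg ht0]
  have h4 := hT.ray a h1 e.2 t (by rw [abs_of_nonneg ht0]; linarith)
  rw [abs_of_nonneg ht0] at h4
  refine ⟨?_, ha', by rw [hxa, hn]; exact ht1⟩
  have h5 : ‖(cl (F a) - C.L z') (t • ev e.2)‖ ≤ κ * t := by
    calc _ ≤ ‖cl (F a) - C.L z'‖ * ‖t • ev e.2‖ := (cl (F a) - C.L z').le_opNorm _
      _ ≤ κ * t := by rw [hn]; gcongr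
  have h6 := C.aff z' hz' a (a + t • ev e.2)
  rw [hxa] at h6
  have e1 : f (a + t • ev e.2) - C.A z' (a + t • ev e.2) =
      (f (a + t • ev e.2) - f a - t • cl (F a) (ev e.2)) + (f a - C.A z' a) +
        (cl (F a) - C.L z') (t • ev e.2) := by
    rw [ContinuousLinearMap.sub_apply, ← h6, map_smul]
    abel
  rw [e1]
  have h7 : κ * t ≤ κ * (1 / 2 ^ (m + j)) := mul_le_mul_of_nonneg_left ht1 hk
  have hκβ := hN.κβ
  have hβ := hN.β0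
  calc _ ≤ ‖f (a + t • ev e.2) - f a - t • cl (F a) (ev e.2)‖ + ‖f a - C.A z' a‖ +
        ‖(cl (F a) - C.L z') (t • ev e.2)‖ := norm_add₃_le
    _ ≤ κ * (1 / 2 ^ (m + j)) + κ / 2 ^ (m + j) + κ * (1 / 2 ^ (m + j)) := by
        gcongr
        · exact h4.trans h7
        · exact h5.trans h7
    _ = 3 * κ * (1 / 2 ^ (m + j)) := by ring
    _ ≤ β * (1 / 2 ^ (m + j)) := mul_le_mul_of_nonneg_right (by linarith) hr.le
    _ = _ := by ring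

/-- **The homeomorphism after the retractions of the discs in `S`** (output of `retract_all`, the
data of `exists_data`) -/
structure Retr (C : P2Cells p ε θ M κ c₀ t₀ δ₀ j Ω Λ f F T v m)
    (Nk : Necks θ M β σ f v m j C.J C.A) (o : Nk.γ → V) (S : Set Nk.ι) (h₀ h' : V → V) :
    Prop where
  disc : ∀ i ∈ S, ∃ g, ∀ x ∈ Nk.D i, h' x ∈ Metric.ball (Nk.b g) (Nk.ρ g)
  near : ∀ x ∈ Ω, (∀ i ∈ S, x ∉ qC v (Nk.s i)) →
    h' x = h₀ x ∨ ∃ g, h' x ∈ Metric.ball (Nk.b g) (Nk.ρ g)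
  avoid : ∀ g, ∀ x ∈ NSet v m j C.J t₀ Nk.D Nk.c Ω (o g) (16 * β / θ / 2 ^ (m + j)),
    h' x ∉ closedBall (Nk.b g) (Nk.ρ g)

section

variable {Nk : Necks θ M β σ f v m j C.J C.A} {o : Nk.γ → V} {zz : Nk.γ → Fin 3 → ℤ}
  {ss : Nk.γ → Idx × Fin 3} {S : Set Nk.ι} {h₀ h' : V → V} {η : ℝ}

/-- the common step -/
theorem Retr.close_of (R : Retr C Nk o S h₀ h') (hT : TSet θ M κ t₀ δ₀ ε₁ Ω f F T)
    (hN : Num θ M κ β) (hβθ : 16 * β ≤ θ) (hρ : ∀ g, Nk.ρ g ≤ β / 2 / 2 ^ (m + j))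
    (Ho : ∀ g, NeckPt C β (Nk.b g) (o g) (zz g) (ss g)) (hη : η ≤ β / 2 / 2 ^ (m + j))
    (hclose : ∀ x ∈ Ω, ‖h₀ x - f x‖ ≤ η) {z' : Fin 3 → ℤ} (hz' : z' ∈ C.J)
    {a : Fin 3 → ℤ} (ha : pt v (m + j) a ∈ dyc v m z') {x : V} (hxΩ : x ∈ Ω)
    (hxa : ‖x - pt v (m + j) a‖ ≤ 1 / 2 ^ (m + j)) (hxw : ∀ w, x ∉ dyo v (m + j) w)
    (hfx : ‖f x - C.A z' x‖ ≤ β / 2 ^ (m + j))
    (hfar : ∀ g, 16 * β / θ / 2 ^ (m + j) < ‖x - o g‖ →
      x ∈ NSet v m j C.J t₀ Nk.D Nk.c Ω (o g) (16 * β / θ / 2 ^ (m + j))) :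
    ‖h' x - C.A z' x‖ ≤ (16 * M / θ + 3) * β / 2 ^ (m + j) := by
  have hθ := hN.θ0
  have hβ := hN.β0
  have hM := hN.M0
  have hr : (0:ℝ) < 1 / 2 ^ (m + j) := by positivity
  have hxq : ∀ i ∈ S, x ∉ qC v (Nk.s i) := by
    intro i _
    obtain ⟨z₁, hz₁, hs₁⟩ := Nk.clean i
    refine qC_notMem fun w => ?_
    rw [hs₁.1]
    exact hxw w
  have hK : 0 ≤ 16 * M / θ * β * (1 / 2 ^ (m + j)) := by positivity
  have e3 : (16 * M / θ + 3) * β / 2 ^ (m + j) =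
    16 * M / θ * β * (1 / 2 ^ (m + j)) + 3 * β * (1 / 2 ^ (m + j)) := by ring
  rcases R.near x hxΩ hxq with h1 | ⟨g, hg⟩
  · rw [h1, e3]
    have h2 := hclose x hxΩ
    have h3 : ‖h₀ x - C.A z' x‖ ≤ ‖h₀ x - f x‖ + ‖f x - C.A z' x‖ :=
      norm_sub_le_norm_sub_add_norm_sub _ _ _
    have e1 : β / 2 ^ (m + j) = β * (1 / 2 ^ (m + j)) := by ring
    have e2 : β / 2 / 2 ^ (m + j) = β / 2 * (1 / 2 ^ (m + j)) := by ring
    rw [e1] at hfx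
    rw [e2] at hη
    have h4 : 0 < β * (1 / 2 ^ (m + j)) := by positivity
    linarith
  · have hxo : ‖x - o g‖ ≤ 16 * β / θ / 2 ^ (m + j) := by
      by_contra hcon
      exact R.avoid g x (hfar g (not_le.1 hcon)) (ball_subset_closedBall hg)
    have h2 := near_b hT hN hβθ (Ho g) hz' ha hxa hxo
    have h3 := hρ g
    rw [Metric.mem_ball, dist_eq_norm] at hg
    have h4 : ‖h' x - C.A z' x‖ ≤ ‖h' x - Nk.b g‖ + ‖C.A z' x - Nk.b g‖ := by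
      rw [norm_sub_rev (C.A z' x)]
      exact norm_sub_le_norm_sub_add_norm_sub _ _ _
    have e1 : (16 * M / θ + 5 / 2) * β / 2 ^ (m + j) =
      16 * M / θ * β * (1 / 2 ^ (m + j)) + 5 / 2 * β * (1 / 2 ^ (m + j)) := by ring
    have e2 : β / 2 / 2 ^ (m + j) = β / 2 * (1 / 2 ^ (m + j)) := by ring
    rw [e1] at h2
    rw [e2] at h3
    rw [e3]
    linarith

/-- **(a)** clean squares off the open discs -/
theorem Retr.close_sq (R : Retr C Nk o S h₀ h') (hT : TSet θ M κ t₀ δ₀ ε₁ Ω f F T)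
    (hN : Num θ M κ β) (hβθ : 16 * β ≤ θ) (hρ : ∀ g, Nk.ρ g ≤ β / 2 / 2 ^ (m + j))
    (Ho : ∀ g, NeckPt C β (Nk.b g) (o g) (zz g) (ss g)) (hη : η ≤ β / 2 / 2 ^ (m + j))
    (hclose : ∀ x ∈ Ω, ‖h₀ x - f x‖ ≤ η) {z' : Fin 3 → ℤ} (hz' : z' ∈ C.J) {t : Idx × Fin 3}
    (ht : Clean v m j z' t) {x : V} (hx : x ∈ squ v t) (hxD : ∀ i, x ∉ Nk.D i \ Nk.c i) :
    ‖h' x - C.A z' x‖ ≤ (16 * M / θ + 3) * β / 2 ^ (m + j) := by
  obtain ⟨h1, h2⟩ := ht.vertex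
  have h3 := squ_dist hx h2
  rw [ht.1] at h3
  refine R.close_of hT hN hβθ hρ Ho hη hclose hz' h1 (C.sub hT hz' (ht.sub hx)) h3
    (squ_notMem_dyo ht.1 hx) (Nk.close z' hz' t ht x hx hxD) fun g hg => ?_
  by_cases hc : ∃ i, x ∈ Nk.D i
  · obtain ⟨i, hi⟩ := hc
    have hxc : x ∈ Nk.c i := by
      by_contra hn
      exact hxD i ⟨hi, hn⟩
    exact Or.inl (Or.inl (Or.inr ⟨i, hxc, x, hxc, hg⟩))
  · push Not at hc
    exact Or.inl (Or.inl (Or.inl (Or.inr ⟨⟨z', hz', t, ht, hx⟩, hc, hg⟩)))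

/-- **(a)** own edges -/
theorem Retr.close_edge (R : Retr C Nk o S h₀ h') (hT : TSet θ M κ t₀ δ₀ ε₁ Ω f F T)
    (hN : Num θ M κ β) (hβθ : 16 * β ≤ θ) (hρ : ∀ g, Nk.ρ g ≤ β / 2 / 2 ^ (m + j))
    (Ho : ∀ g, NeckPt C β (Nk.b g) (o g) (zz g) (ss g)) (hη : η ≤ β / 2 / 2 ^ (m + j))
    (hclose : ∀ x ∈ Ω, ‖h₀ x - f x‖ ≤ η) {z' : Fin 3 → ℤ} (hz' : z' ∈ C.J) {e : Idx × Fin 3}
    (he : e.1.1 = m + j) (hez : edge v e ⊆ dyc v m z') {x : V} (hx : x ∈ edge v e) :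
    ‖h' x - C.A z' x‖ ≤ (16 * M / θ + 3) * β / 2 ^ (m + j) := by
  obtain ⟨h1, h2, h3⟩ := edge_close hT hN hz' he hez hx
  exact R.close_of hT hN hβθ hρ Ho hη hclose hz' h2 (C.sub hT hz' (hez hx)) h3
    (edge_notMem_dyo he hx) h1 fun g hg => Or.inl (Or.inr ⟨⟨z', hz', e, he, hez, hx⟩, hg⟩)

/-- on an own edge, `h'` is `h₀` or in a neck cube -/
theorem Retr.near_edge (R : Retr C Nk o S h₀ h') (hT : TSet θ M κ t₀ δ₀ ε₁ Ω f F T)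
    {z' : Fin 3 → ℤ} (hz' : z' ∈ C.J) {e : Idx × Fin 3} (he : e.1.1 = m + j)
    (hez : edge v e ⊆ dyc v m z') {x : V} (hx : x ∈ edge v e) :
    h' x = h₀ x ∨ ∃ g, h' x ∈ Metric.ball (Nk.b g) (Nk.ρ g) := by
  refine R.near x (C.sub hT hz' (hez hx)) fun i _ => ?_
  obtain ⟨z₁, hz₁, hs₁⟩ := Nk.clean i
  refine qC_notMem fun w => ?_
  rw [hs₁.1]
  exact edge_notMem_dyo he hx w

end

/-- **(c) [CLOSE-R]** closeness on a closed cell all of whose lattice squares are clean, after the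
retractions and a small Lipschitz map `T'` of the target -/
theorem Retr.close_cell {Nk : Necks θ M β σ f v m j C.J C.A} {o : Nk.γ → V}
    {zz : Nk.γ → Fin 3 → ℤ} {ss : Nk.γ → Idx × Fin 3} {S : Set Nk.ι} {h₀ h' : V → V} {η τ : ℝ}
    (R : Retr C Nk o S h₀ h') (hT : TSet θ M κ t₀ δ₀ ε₁ Ω f F T)
    (hN : Num θ M κ β) (hβθ : 16 * β ≤ θ) (hρ : ∀ g, Nk.ρ g ≤ β / 2 / 2 ^ (m + j))
    (Ho : ∀ g, NeckPt C β (Nk.b g) (o g) (zz g) (ss g)) (hη : η ≤ β / 2 / 2 ^ (m + j))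
    (hclose : ∀ x ∈ Ω, ‖h₀ x - f x‖ ≤ η) (hΛ : IsOpen Λ) {T' : V → V}
    (hT'1 : ∀ y, ‖T' y - y‖ ≤ τ / 2 ^ (m + j)) (hT'2 : ∀ y y', ‖T' y - T' y'‖ ≤ 3 * ‖y - y'‖)
    {h₁ : ConHomeo Ω Λ} (h1 : ∀ x ∈ Ω, h₁.toFun x = T' (h' x)) {z' : Fin 3 → ℤ}
    (hz' : z' ∈ C.J) {n : ℕ} (hn : n ≤ m + j) {q : Fin 3 → ℤ} (hq : dyc v n q ⊆ dyc v m z')
    (hqc : ∀ t : Idx × Fin 3, t.1.1 = m + j → squ v t ⊆ dyc v n q →
      Clean v m j z' t ∧ ∀ i, Nk.s i = t → i ∈ S) :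
    ∀ x ∈ dyc v n q, ‖h₁.toFun x - C.A z' x‖ ≤
      (2 * M + 3 * ((16 * M / θ + 3) * β + τ)) / 2 ^ (m + j) := by
  have hθ := hN.θ0
  have hβ := hN.β0
  have hM := hN.M0
  have hp : (0:ℝ) < 2 ^ (m + j) := by positivity
  have hτ : 0 ≤ τ := by
    have h2 := (norm_nonneg _).trans (hT'1 0)
    rwa [le_div_iff₀ hp, zero_mul] at h2
  have hK0 : 0 ≤ 16 * M / θ * β := by positivity
  have hzΩ : dyc v m z' ⊆ Ω := C.sub hT hz'
  refine close_cellL (s := Nk.s) (D := Nk.D) (c := Nk.c) hn hΛ h₁ (hq.trans hzΩ) (fun i => ?_)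
    Nk.ball Nk.sub Nk.disj
    (C.aff z' hz') (C.above z' hz') hM (by linarith) (fun t ht htq x hx hxD => ?_)
    (fun i hi x hx y hy => ?_)
  · obtain ⟨z₁, -, hs₁⟩ := Nk.clean i
    exact hs₁.1
  · obtain ⟨hcl, -⟩ := hqc t ht htq
    have hxΩ : x ∈ Ω := hzΩ (hcl.sub hx)
    have h2 := R.close_sq hT hN hβθ hρ Ho hη hclose hz' hcl hx hxD
    rw [h1 x hxΩ]
    calc ‖T' (h' x) - C.A z' x‖ ≤ ‖T' (h' x) - h' x‖ + ‖h' x - C.A z' x‖ :=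
          norm_sub_le_norm_sub_add_norm_sub _ _ _
      _ ≤ τ / 2 ^ (m + j) + (16 * M / θ + 3) * β / 2 ^ (m + j) := add_le_add (hT'1 _) h2
      _ = _ := by ring
  · have hs : (Nk.s i).1.1 = m + j := by
      obtain ⟨z₁, -, hs₁⟩ := Nk.clean i
      exact hs₁.1
    obtain ⟨hcl, hS⟩ := hqc (Nk.s i) hs hi
    obtain ⟨g, hg⟩ := R.disc i (hS i rfl)
    have hxΩ : x ∈ Ω := hzΩ (hcl.sub (P86.rel_sub (Nk.sub i hx)))
    have hyΩ : y ∈ Ω := hzΩ (hcl.sub (P86.rel_sub (Nk.sub i hy)))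
    have hx' := hg x hx
    have hy' := hg y hy
    rw [Metric.mem_ball, dist_eq_norm] at hx' hy'
    have h3 := hρ g
    have h4 : ‖h' x - h' y‖ ≤ 2 * (β / 2 / 2 ^ (m + j)) := by
      have := norm_sub_le_norm_sub_add_norm_sub (h' x) (Nk.b g) (h' y)
      rw [norm_sub_rev (Nk.b g)] at this
      linarith
    rw [h1 x hxΩ, h1 y hyΩ]
    refine (hT'2 _ _).trans ?_
    have e1 : 2 * ((16 * M / θ + 3) * β + τ) / 2 ^ (m + j) =
      (2 * (16 * M / θ * β) + 6 * β + 2 * τ) * (1 / 2 ^ (m + j)) := by ring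
    have e2 : 2 * (β / 2 / 2 ^ (m + j)) = β * (1 / 2 ^ (m + j)) := by ring
    rw [e1]
    rw [e2] at h4
    have hr : (0:ℝ) < 1 / 2 ^ (m + j) := by positivity
    have h5 : 0 ≤ 16 * M / θ * β * (1 / 2 ^ (m + j)) := by positivity
    have h6 : 0 ≤ τ * (1 / 2 ^ (m + j)) := by positivity
    have h7 : 0 ≤ β * (1 / 2 ^ (m + j)) := by positivity
    nlinarith

end Vale.Agent.P073.H439
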