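import Vale.Agent.P073.H439.CloseSub

/-!
# P073, P2h (exponent two, rank three): [CLOSE-SUB] for any class of clean squares

`Cl z s`: the clean squares of the big cube `z` (any class of squares whose two adjacent cubes of
the own lattice are in the big cube).
-/

namespace Vale.Agent.P073.H439

open Set Filter Topology Metric Vale.Agent.P073.St Vale.Agent.P073.AB
open Vale.Agent.P073.H234
open Vale.Agent.P073.AB.P86 (rel)
open _root_.P073.Net (dyc dyo)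
open _root_.P073 (ConHomeo ConBall)
open scoped ENNReal

variable {Ω Λ : Set V} {v : V} {m j : ℕ}

/-- closeness on the whole clean squares, from the closeness off the discs and the size of the
images of the discs -/
theorem close_squW {ι : Type} {D c : ι → Set V} {s : ι → Idx × Fin 3} {J : Finset (Fin 3 → ℤ)}
    {A : (Fin 3 → ℤ) → V → V} {L : (Fin 3 → ℤ) → V →L[ℝ] V} {M a : ℝ} {g : V → V}
    {Cl : (Fin 3 → ℤ) → Idx × Fin 3 → Prop} (hCl : ∀ z s, Cl z s → Clean v m j z s)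
    (hclean : ∀ i, ∃ z ∈ J, Cl z (s i))
    (hball : ∀ i, ConBall 2 (D i) (c i)) (hsub : ∀ i, D i ⊆ rel v (s i))
    (hdisj : ∀ i i', i ≠ i' → Disjoint (D i) (D i'))
    (haff : ∀ z ∈ J, ∀ x y, A z y - A z x = L z (y - x))
    (habove : ∀ z ∈ J, ∀ w, ‖L z w‖ ≤ M * ‖w‖) (hM : 0 ≤ M) (ha : 0 ≤ a)
    (hgood : ∀ z ∈ J, ∀ s, Cl z s → ∀ x ∈ squ v s, (∀ i, x ∉ D i \ c i) →
      ‖g x - A z x‖ ≤ a / 2 ^ (m + j))
    (hdisc : ∀ i, ∀ x ∈ D i, ∀ y ∈ D i, ‖g x - g y‖ ≤ 2 * a / 2 ^ (m + j))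
    {z : Fin 3 → ℤ} (hz : z ∈ J) {t : Idx × Fin 3} (ht : Cl z t) {x : V}
    (hx : x ∈ squ v t) : ‖g x - A z x‖ ≤ (M + 3 * a) / 2 ^ (m + j) := by
  have hp : (0:ℝ) < 2 ^ (m + j) := by positivity
  by_cases hxD : ∀ i, x ∉ D i \ c i
  · refine (hgood z hz t ht x hx hxD).trans ?_
    gcongr
    linarith
  · push Not at hxD
    obtain ⟨i, hxi, hxc⟩ := hxD
    obtain ⟨z', hz', hcl⟩ := hclean i
    have hcl' := hCl z' (s i) hcl
    have ht' := hCl z t ht
    obtain ⟨y, hy⟩ := bdry_nonempty (hball i)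
    have hyD : y ∈ D i := (hball i).1 hy
    have hxs : x ∈ rel v (s i) := hsub i hxi
    have hys : y ∈ rel v (s i) := hsub i hyD
    -- the same big cube
    have hzz : z = z' := by
      refine eq_of_mem (rel_sub_dyo hcl' hxs) ?_
      have h1 := squ_sub_dyc hx
      rw [ht'.1] at h1
      exact ht'.2.1 h1
    subst hzz
    have h1 : ‖g y - A z y‖ ≤ a / 2 ^ (m + j) := by
      refine hgood z hz (s i) hcl y (P86.rel_sub hys) fun i' hi' => ?_
      by_cases hii : i' = i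
      · subst hii
        exact hi'.2 hy
      · exact disjoint_left.1 (hdisj i' i hii) hi'.1 hyD
    have h2 := hdisc i x hxi y hyD
    have h3 : ‖x - y‖ ≤ 1 / 2 ^ (m + j) := by
      have := norm_sub_le_of_dyc (squ_sub_dyc (P86.rel_sub hxs)) (squ_sub_dyc (P86.rel_sub hys))
      rwa [hcl'.1] at this
    have h4 : ‖A z y - A z x‖ ≤ M / 2 ^ (m + j) := by
      rw [haff z hz]
      refine (habove z hz _).trans ?_
      rw [norm_sub_rev]
      calc M * ‖x - y‖ ≤ M * (1 / 2 ^ (m + j)) := by gcongr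
        _ = _ := by rw [mul_one_div]
    calc ‖g x - A z x‖ = ‖(g x - g y) + (g y - A z y) + (A z y - A z x)‖ := by congr 1; abel
      _ ≤ ‖g x - g y‖ + ‖g y - A z y‖ + ‖A z y - A z x‖ := norm_add₃_le
      _ ≤ 2 * a / 2 ^ (m + j) + a / 2 ^ (m + j) + M / 2 ^ (m + j) := by gcongr
      _ = _ := by ring

/-- a frontier point of a cube is on a face -/
theorem exists_face {N : ℕ} {w : Fin 3 → ℤ} {x : V} (hx : x ∈ frontier (dyc v N w)) :
    ∃ t, FaceOf t (N, w) ∧ x ∈ squ v t := by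
  obtain ⟨hxw, l, hl⟩ := Vale.Agent.P073.H83.frontier_dyc hx
  rcases hl with hl | hl
  · exact ⟨((N, w), l), ⟨rfl, Or.inl rfl, fun _ _ => rfl⟩, hl, fun k _ => hxw k⟩
  · refine ⟨((N, Function.update w l (w l + 1)), l), ⟨rfl, Or.inr (by simp), fun k hk => ?_⟩, ?_,
      fun k hk => ?_⟩
    · have hk' : k ≠ l := hk
      simp [hk']
    · simp only [Function.update_self]
      push_cast
      exact hl
    · simp only [Function.update_of_ne hk]
      exact hxw k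

/-- closeness on a cube of the own lattice, from the closeness on its faces -/
theorem close_cubeW (hΛ : IsOpen Λ) (h : ConHomeo Ω Λ) {A : V → V} {L : V →L[ℝ] V} {M b : ℝ}
    {N : ℕ} (haff : ∀ x y, A y - A x = L (y - x)) (habove : ∀ w, ‖L w‖ ≤ M * ‖w‖) (hM : 0 ≤ M)
    {w : Fin 3 → ℤ} (hΩ : dyc v N w ⊆ Ω)
    (hsq : ∀ t, FaceOf t (N, w) → ∀ x ∈ squ v t, ‖h.toFun x - A x‖ ≤ b / 2 ^ N)
    {x : V} (hx : x ∈ dyc v N w) : ‖h.toFun x - A x‖ ≤ (M + b) / 2 ^ N := by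
  have hp : (0:ℝ) < 2 ^ N := by positivity
  have hA : ∀ y ∈ dyc v N w, ‖A y - A x‖ ≤ M / 2 ^ N := by
    intro y hy
    rw [haff]
    refine (habove _).trans ?_
    calc M * ‖y - x‖ ≤ M * (1 / 2 ^ N) := by
          gcongr
          exact norm_sub_le_of_dyc hy hx
      _ = _ := by rw [mul_one_div]
  have h1 : h.toFun '' frontier (dyc v N w) ⊆ closedBall (A x) ((M + b) / 2 ^ N) := by
    rintro _ ⟨y, hy, rfl⟩
    obtain ⟨t, ht, hyt⟩ := exists_face hy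
    have h2 := hsq t ht y hyt
    have hyw : y ∈ dyc v N w := (Vale.Agent.P073.H83.frontier_dyc hy).1
    have h3 := hA y hyw
    rw [mem_closedBall, dist_eq_norm]
    calc ‖h.toFun y - A x‖ = ‖(h.toFun y - A y) + (A y - A x)‖ := by congr 1; abel
      _ ≤ ‖h.toFun y - A y‖ + ‖A y - A x‖ := norm_add_le _ _
      _ ≤ b / 2 ^ N + M / 2 ^ N := by gcongr
      _ = _ := by ring
  have h4 := _root_.P073.H953.fill_dyc hΛ h hΩ h1 (mem_image_of_mem _ hx)
  rwa [mem_closedBall, dist_eq_norm] at h4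

/-- **[CLOSE-SUB]**, any class `Cl` of clean squares which contains the faces of all cubes of the
own lattice in `q` -/
theorem close_subW {p : ℝ} {ε : ℝ≥0∞} {θ M κ c₀ t₀ δ₀ : ℝ} {f : V → V} {F : V → Mat} {T : Set V}
    (hΛ : IsOpen Λ) (P : P2Cells p ε θ M κ c₀ t₀ δ₀ j Ω Λ f F T v m) (hM : 0 ≤ M)
    {Cl : (Fin 3 → ℤ) → Idx × Fin 3 → Prop} (hCl : ∀ z s, Cl z s → Clean v m j z s)
    {ι : Type} {D c : ι → Set V} {s : ι → Idx × Fin 3}
    (hclean : ∀ i, ∃ z ∈ P.J, Cl z (s i))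
    (hball : ∀ i, ConBall 2 (D i) (c i)) (hsub : ∀ i, D i ⊆ rel v (s i))
    (hdisj : ∀ i i', i ≠ i' → Disjoint (D i) (D i')) {a : ℝ} (ha : 0 ≤ a) (h : ConHomeo Ω Λ)
    (hgood : ∀ z ∈ P.J, ∀ s, Cl z s → ∀ x ∈ squ v s, (∀ i, x ∉ D i \ c i) →
      ‖h.toFun x - P.A z x‖ ≤ a / 2 ^ (m + j))
    (hdisc : ∀ i, ∀ x ∈ D i, ∀ y ∈ D i, ‖h.toFun x - h.toFun y‖ ≤ 2 * a / 2 ^ (m + j))
    {z : Fin 3 → ℤ} (hz : z ∈ P.J) {n : ℕ} (hn : n ≤ m + j) {q : Fin 3 → ℤ}
    (hΩ : dyc v n q ⊆ Ω)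
    (hq : ∀ w, dyc v (m + j) w ⊆ dyc v n q → ∀ t, FaceOf t (m + j, w) → Cl z t) :
    ∀ x ∈ dyc v n q, ‖h.toFun x - P.A z x‖ ≤ (2 * M + 3 * a) / 2 ^ (m + j) := by
  intro x hx
  obtain ⟨w, hxw, hwq⟩ := exists_sub hn hx
  refine (close_cubeW hΛ h (P.aff z hz) (P.above z hz) hM (hwq.trans hΩ) (b := M + 3 * a)
    (fun t ht y hy => ?_) hxw).trans (le_of_eq ?_)
  · exact close_squW hCl hclean hball hsub hdisj P.aff P.above hM ha hgood hdisc hz (hq w hwq t ht)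
      hy
  · ring

end Vale.Agent.P073.H439
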