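import Vale.Agent.P073.ConHomeo

/-!
# P073, H439, COLB: collapse of a finite family of cubes with small local sums of radii

`Coll K c ρ R ι S`: `S` contracts the cube `closedBall c ρ` by the factor `ι`, is the identity
off `ball c R` and `(1 + K ρ / R)`-Lipschitz.  Composition, one cube at a time, with the common
support radius `R`: no disjointness of the cubes is used.
-/

open Set Metric Topology Filter

namespace P073.H439

open P073

variable {V : Type*} [NormedAddCommGroup V] [NormedSpace ℝ V]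

/-- collapse of one ball -/
structure Coll (K : ℝ) (c : V) (ρ R ι : ℝ) (S : V → V) : Prop where
  lip : ∀ y y', ‖S y - S y'‖ ≤ (1 + K * ρ / R) * ‖y - y'‖
  off : ∀ y, R ≤ ‖y - c‖ → S y = y
  near : ∀ y, ‖S y - y‖ ≤ K * ρ
  small : ∀ y ∈ closedBall c ρ, ∀ y' ∈ closedBall c ρ, ‖S y - S y'‖ ≤ ι * ‖y - y'‖

/-- collapses of one ball exist -/
def HasColl (V : Type*) [NormedAddCommGroup V] [NormedSpace ℝ V] (K : ℝ) : Prop :=
  ∀ (c : V) (ρ R ι : ℝ), 0 < ρ → 4 * ρ ≤ R → 0 < ι → ι ≤ 1 →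
    ∃ S : ConHomeo (univ : Set V) (univ : Set V), Coll K c ρ R ι S.toFun

theorem prod_le_exp {J : Type*} (s : Finset J) (x : J → ℝ) (hx : ∀ i, 0 ≤ x i) :
    ∏ i ∈ s, (1 + x i) ≤ Real.exp (∑ i ∈ s, x i) := by
  rw [Real.exp_sum]
  refine Finset.prod_le_prod (fun i _ => by have := hx i; linarith) fun i _ => ?_
  have := Real.add_one_le_exp (x i)
  linarith

theorem one_le_prod' {J : Type*} (s : Finset J) (x : J → ℝ) (hx : ∀ i, 0 ≤ x i) :
    1 ≤ ∏ i ∈ s, (1 + x i) := by
  have : ∏ i ∈ s, (1 : ℝ) ≤ ∏ i ∈ s, (1 + x i) :=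
    Finset.prod_le_prod (fun i _ => zero_le_one) fun i _ => by have := hx i; linarith
  simpa using this

theorem exp_le_of {x : ℝ} (h0 : 0 ≤ x) (h1 : x ≤ 1) : Real.exp x ≤ 1 + 2 * x := by
  have h := Real.abs_exp_sub_one_le (x := x) (by rwa [abs_of_nonneg h0])
  rw [abs_of_nonneg h0] at h
  have := (abs_le.1 h).2
  linarith

/-- from a local to a global Lipschitz estimate -/
theorem lip_of_local {T : V → V} {L R : ℝ} (hL : 0 ≤ L) (hR : 0 < R)
    (h : ∀ y a b, ‖a - y‖ ≤ R → ‖b - y‖ ≤ R → ‖T a - T b‖ ≤ L * ‖a - b‖) (a b : V) :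
    ‖T a - T b‖ ≤ L * ‖a - b‖ := by
  obtain ⟨n, hn⟩ := exists_nat_gt (‖a - b‖ / R)
  have hn0 : (0 : ℝ) < n := lt_of_le_of_lt (by positivity) hn
  have hn1 : ‖a - b‖ < n * R := by rwa [div_lt_iff₀ hR] at hn
  set x : ℕ → V := fun i => a + ((i : ℝ) / n) • (b - a) with hx
  have hstep : ∀ i, x (i + 1) - x i = (1 / (n : ℝ)) • (b - a) := by
    intro i
    simp only [hx]
    rw [add_sub_add_left_eq_sub, ← sub_smul]
    congr 1
    push_cast
    ring
  have hns : ∀ i, ‖x i - x (i + 1)‖ = ‖a - b‖ / n := by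
    intro i
    rw [norm_sub_rev, hstep, norm_smul, norm_sub_rev b a, Real.norm_of_nonneg (by positivity)]
    ring
  have hle : ‖a - b‖ / n ≤ R := by rw [div_le_iff₀ hn0]; linarith
  have h1 : ∀ i, dist (T (x i)) (T (x (i + 1))) ≤ L * (‖a - b‖ / n) := by
    intro i
    rw [dist_eq_norm]
    have := h (x i) (x i) (x (i + 1)) (by simp [hR.le]) (by rw [norm_sub_rev, hns]; exact hle)
    rwa [hns] at this
  have h2 := dist_le_range_sum_of_dist_le (f := fun i => T (x i)) (d := fun _ => L * (‖a - b‖ / n))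
    n (fun {i} _ => h1 i)
  have h3 : x 0 = a := by simp [hx]
  have h4 : x n = b := by
    simp only [hx]
    rw [div_self hn0.ne', one_smul]; abel
  simp only [Finset.sum_const, Finset.card_range, nsmul_eq_mul] at h2
  rw [h3, h4, dist_eq_norm] at h2
  refine h2.trans (le_of_eq ?_)
  field_simp

section aux

variable {J : Type*} (c : J → V) (ρ : J → ℝ) (R : ℝ)

/-- local sum of the radii -/
noncomputable def ls (s : Finset J) (r : ℝ) (y : V) : ℝ := by
  classical
  exact ∑ i ∈ s with ‖c i - y‖ ≤ r, ρ i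

/-- local product of the Lipschitz constants -/
noncomputable def lp (K : ℝ) (s : Finset J) (y : V) : ℝ := by
  classical
  exact ∏ i ∈ s with ‖c i - y‖ ≤ 4 * R, (1 + 2 * K * ρ i / R)

variable {c ρ R}

theorem ls_mono (hρ : ∀ j, 0 ≤ ρ j) {s t : Finset J} (hst : s ⊆ t) {r r' : ℝ} (hr : r ≤ r')
    (y : V) : ls c ρ s r y ≤ ls c ρ t r' y := by
  classical
  unfold ls
  refine Finset.sum_le_sum_of_subset_of_nonneg ?_ fun i _ _ => hρ i
  intro i hi
  simp only [Finset.mem_filter] at hi ⊢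
  exact ⟨hst hi.1, hi.2.trans hr⟩

theorem ls_nonneg (hρ : ∀ j, 0 ≤ ρ j) (s : Finset J) (r : ℝ) (y : V) : 0 ≤ ls c ρ s r y := by
  classical
  unfold ls
  exact Finset.sum_nonneg fun i _ => hρ i

theorem ls_cons {s : Finset J} {k : J} (hk : k ∉ s) {r : ℝ} {y : V} (h : ‖c k - y‖ ≤ r) :
    ls c ρ (Finset.cons k s hk) r y = ρ k + ls c ρ s r y := by
  classical
  unfold ls
  rw [Finset.filter_cons, if_pos h, Finset.sum_cons]

theorem le_ls (hρ : ∀ j, 0 ≤ ρ j) {s : Finset J} {k : J} (hk : k ∈ s) {r : ℝ} {y : V}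
    (h : ‖c k - y‖ ≤ r) : ρ k ≤ ls c ρ s r y := by
  classical
  unfold ls
  exact Finset.single_le_sum (f := ρ) (fun i _ => hρ i) (by simp [hk, h])

theorem lp_mono {K : ℝ} (hK : 0 ≤ K) (hR : 0 < R) (hρ : ∀ j, 0 ≤ ρ j) {s t : Finset J}
    (hst : s ⊆ t) (y : V) : lp c ρ R K s y ≤ lp c ρ R K t y := by
  classical
  unfold lp
  have hsub : (s.filter fun i => ‖c i - y‖ ≤ 4 * R) ⊆ t.filter fun i => ‖c i - y‖ ≤ 4 * R := by
    intro i hi
    simp only [Finset.mem_filter] at hi ⊢
    exact ⟨hst hi.1, hi.2⟩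
  have h0 : ∀ i, 0 ≤ 2 * K * ρ i / R := fun i => by have := hρ i; positivity
  rw [← Finset.prod_sdiff hsub]
  exact le_mul_of_one_le_left (Finset.prod_nonneg fun i _ => by have := h0 i; linarith)
    (one_le_prod' _ _ h0)

theorem one_le_lp {K : ℝ} (hK : 0 ≤ K) (hR : 0 < R) (hρ : ∀ j, 0 ≤ ρ j) (s : Finset J)
    (y : V) : 1 ≤ lp c ρ R K s y := by
  classical
  unfold lp
  exact one_le_prod' _ _ fun i => by have := hρ i; positivity

theorem lp_cons {K : ℝ} {s : Finset J} {k : J} (hk : k ∉ s) {y : V} (h : ‖c k - y‖ ≤ 4 * R) :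
    lp c ρ R K (Finset.cons k s hk) y = (1 + 2 * K * ρ k / R) * lp c ρ R K s y := by
  classical
  unfold lp
  rw [Finset.filter_cons, if_pos h, Finset.prod_cons]

theorem lp_le {K : ℝ} (hK : 0 ≤ K) (hR : 0 < R) (hρ : ∀ j, 0 ≤ ρ j) {s : Finset J} {y : V}
    {ε : ℝ} (h : ls c ρ s (4 * R) y ≤ ε * R) (hε : 2 * K * ε ≤ 1) :
    lp c ρ R K s y ≤ 1 + 4 * K * ε := by
  classical
  have h0 : 0 ≤ ls c ρ s (4 * R) y := ls_nonneg hρ s _ y
  have hε0 : 0 ≤ ε := by
    by_contra hlt
    push Not at hlt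
    nlinarith
  have h1 : lp c ρ R K s y ≤ Real.exp (2 * K * ε) := by
    unfold lp
    refine (prod_le_exp _ _ fun i => by have := hρ i; positivity).trans ?_
    apply Real.exp_le_exp.2
    have h2 : ∑ i ∈ s with ‖c i - y‖ ≤ 4 * R, 2 * K * ρ i / R =
        2 * K / R * ls c ρ s (4 * R) y := by
      unfold ls
      rw [Finset.mul_sum]
      exact Finset.sum_congr rfl fun i _ => by ring
    rw [h2]
    calc 2 * K / R * ls c ρ s (4 * R) y ≤ 2 * K / R * (ε * R) := by gcongr
      _ = 2 * K * ε := by field_simp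
  refine h1.trans ((exp_le_of (by positivity) hε).trans ?_)
  linarith

theorem colb_aux {K : ℝ} (hK1 : 1 ≤ K) (hK : HasColl V K) (hρ : ∀ j, 0 < ρ j) (hR : 0 < R)
    {ε : ℝ} (hε : 8 * K * ε ≤ 1) {ι : ℝ} (hι : 0 < ι) (hι1 : ι ≤ 1) (s : Finset J) :
    (∀ y, ls c ρ s (4 * R) y ≤ ε * R) →
    ∃ T : ConHomeo (univ : Set V) (univ : Set V),
      (∀ y, ‖T.toFun y - y‖ ≤ 2 * K * ls c ρ s (2 * R) y) ∧
      (∀ y a b, ‖a - y‖ ≤ R → ‖b - y‖ ≤ R →
        ‖T.toFun a - T.toFun b‖ ≤ lp c ρ R K s y * ‖a - b‖) ∧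
      (∀ j ∈ s, ∀ a ∈ closedBall (c j) (ρ j), ∀ b ∈ closedBall (c j) (ρ j),
        ‖T.toFun a - T.toFun b‖ ≤ 2 * ι * lp c ρ R K s (c j) * ‖a - b‖) := by
  classical
  have hK0 : 0 ≤ K := by linarith
  have hρ0 : ∀ j, 0 ≤ ρ j := fun j => (hρ j).le
  induction s using Finset.cons_induction with
  | empty =>
    intro _
    refine ⟨ConHomeo.refl isOpen_univ.conicalSet, fun y => ?_, fun y a b _ _ => ?_, ?_⟩
    · simp [ls, ConHomeo.refl]
    · simp [lp, ConHomeo.refl]
    · intro j hj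
      exact absurd hj (Finset.notMem_empty j)
  | cons k s hk ih =>
    intro hsum
    have hsub : s ⊆ Finset.cons k s hk := Finset.subset_cons hk
    have hsum' : ∀ y, ls c ρ s (4 * R) y ≤ ε * R := fun y =>
      (ls_mono hρ0 hsub le_rfl y).trans (hsum y)
    obtain ⟨T, hT1, hT2, hT3⟩ := ih hsum'
    have hε0 : 0 ≤ ε := by
      have := (ls_nonneg hρ0 (c := c) s (4 * R) 0).trans (hsum' 0)
      by_contra hlt
      push Not at hlt
      nlinarith
    have hρk : ρ k ≤ ε * R :=
      (le_ls hρ0 (Finset.mem_cons_self k s) (by simp; positivity)).trans (hsum (c k))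
    have hε8 : ε * 8 ≤ 1 := by nlinarith
    -- displacement of `T`
    have hD : ∀ y, ‖T.toFun y - y‖ ≤ R / 4 := by
      intro y
      refine (hT1 y).trans ?_
      have h1 : ls c ρ s (2 * R) y ≤ ε * R :=
        (ls_mono hρ0 (Finset.Subset.refl s) (by linarith) y).trans (hsum' y)
      calc 2 * K * ls c ρ s (2 * R) y ≤ 2 * K * (ε * R) := by gcongr
        _ = (8 * K * ε) * R / 4 := by ring
        _ ≤ 1 * R / 4 := by gcongr
        _ = R / 4 := by ring
    have hlp2 : ∀ y, lp c ρ R K s y ≤ 2 := fun y =>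
      (lp_le hK0 hR hρ0 (hsum' y) (by nlinarith)).trans (by nlinarith)
    obtain ⟨S, hS⟩ := hK (T.toFun (c k)) (2 * ρ k) R ι (by linarith [hρ k])
      (by nlinarith) hι hι1
    have hball : ∀ y, ‖T.toFun y - T.toFun (c k)‖ < R → ‖c k - y‖ ≤ 2 * R := by
      intro y hy
      have h1 := hD y
      have h2 := hD (c k)
      have h3 : c k - y = (T.toFun y - y) - (T.toFun (c k) - c k) -
          (T.toFun y - T.toFun (c k)) := by abel
      rw [h3]
      refine (norm_sub_le _ _).trans ?_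
      have := norm_sub_le (T.toFun y - y) (T.toFun (c k) - c k)
      linarith
    have hSlip : ∀ y y', ‖S.toFun y - S.toFun y'‖ ≤ (1 + 2 * K * ρ k / R) * ‖y - y'‖ := by
      intro y y'
      refine (hS.lip y y').trans (le_of_eq ?_)
      ring
    -- the key step for the local Lipschitz constant
    have hkey : ∀ y a b, ‖a - y‖ ≤ R → ‖b - y‖ ≤ R → ∀ M, 0 ≤ M →
        ‖T.toFun a - T.toFun b‖ ≤ M * lp c ρ R K s y * ‖a - b‖ →
        ‖S.toFun (T.toFun a) - S.toFun (T.toFun b)‖ ≤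
          M * lp c ρ R K (Finset.cons k s hk) y * ‖a - b‖ := by
      intro y a b ha hb M hM hab
      by_cases hc : ‖c k - y‖ ≤ 4 * R
      · rw [lp_cons hk hc]
        refine (hSlip _ _).trans ?_
        have h0 : 0 ≤ 1 + 2 * K * ρ k / R := by have := hρ0 k; positivity
        calc (1 + 2 * K * ρ k / R) * ‖T.toFun a - T.toFun b‖
            ≤ (1 + 2 * K * ρ k / R) * (M * lp c ρ R K s y * ‖a - b‖) := by gcongr
          _ = _ := by ring
      · push Not at hc
        have hout : ∀ x, ‖x - y‖ ≤ R → S.toFun (T.toFun x) = T.toFun x := by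
          intro x hx
          refine hS.off _ ?_
          by_contra hlt
          push Not at hlt
          have h1 := hball x hlt
          have h2 : c k - y = (c k - x) + (x - y) := by abel
          have h3 := norm_add_le (c k - x) (x - y)
          rw [← h2] at h3
          linarith
        rw [hout a ha, hout b hb]
        refine hab.trans ?_
        have := lp_mono hK0 hR hρ0 hsub (c := c) y
        gcongr
    refine ⟨T.trans S, fun y => ?_, fun y a b ha hb => ?_, fun j hj a ha b hb => ?_⟩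
    · rw [ConHomeo.trans_toFun, Function.comp_apply]
      by_cases hy : R ≤ ‖T.toFun y - T.toFun (c k)‖
      · rw [hS.off _ hy]
        refine (hT1 y).trans ?_
        have := ls_mono hρ0 hsub (c := c) (le_refl (2 * R)) y
        gcongr
      · push Not at hy
        rw [ls_cons hk (hball y hy)]
        have h1 := hS.near (T.toFun y)
        have h2 := hT1 y
        have h3 : S.toFun (T.toFun y) - y = (S.toFun (T.toFun y) - T.toFun y) +
            (T.toFun y - y) := by abel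
        rw [h3]
        refine (norm_add_le _ _).trans ?_
        nlinarith
    · rw [ConHomeo.trans_toFun, Function.comp_apply, Function.comp_apply]
      have := hkey y a b ha hb 1 zero_le_one (by rw [one_mul]; exact hT2 y a b ha hb)
      rwa [one_mul] at this
    · rw [ConHomeo.trans_toFun, Function.comp_apply, Function.comp_apply]
      rw [mem_closedBall, dist_eq_norm] at ha hb
      rw [Finset.mem_cons] at hj
      rcases hj with rfl | hj
      · have hρR : ρ j ≤ R := by nlinarith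
        have hT : ∀ x, ‖x - c j‖ ≤ ρ j → ‖T.toFun x - T.toFun (c j)‖ ≤ 2 * ρ j := by
          intro x hx
          refine (hT2 (c j) x (c j) (hx.trans hρR) (by simp [hR.le])).trans ?_
          have h2 := hlp2 (c j)
          have h0 := norm_nonneg (x - c j)
          have h1 := one_le_lp hK0 hR hρ0 (c := c) s (c j)
          nlinarith
        have h1 := hS.small (T.toFun a) (by rw [mem_closedBall, dist_eq_norm]; exact hT a ha)
          (T.toFun b) (by rw [mem_closedBall, dist_eq_norm]; exact hT b hb)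
        refine h1.trans ?_
        have h2 := hT2 (c j) a b (ha.trans hρR) (hb.trans hρR)
        have h3 := hlp2 (c j)
        have h4 := one_le_lp hK0 hR hρ0 (c := c) (Finset.cons j s hk) (c j)
        have h5 := norm_nonneg (a - b)
        calc ι * ‖T.toFun a - T.toFun b‖ ≤ ι * (2 * ‖a - b‖) := by
              gcongr
              exact h2.trans (by gcongr)
          _ = 2 * ι * 1 * ‖a - b‖ := by ring
          _ ≤ _ := by gcongr
      · have hρj : ρ j ≤ ε * R :=
          (le_ls hρ0 hj (by simp; positivity)).trans (hsum' (c j))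
        have hρR : ρ j ≤ R := by nlinarith
        exact hkey (c j) a b (ha.trans hρR) (hb.trans hρR) (2 * ι) (by positivity)
          (hT3 j hj a (by rw [mem_closedBall, dist_eq_norm]; exact ha) b
            (by rw [mem_closedBall, dist_eq_norm]; exact hb))

end aux

/-- **COLB**, composition: collapse of a finite family of balls with small local sums of radii;
the balls may overlap -/
theorem colb_of {K : ℝ} (hK1 : 1 ≤ K) (hK : HasColl V K) {J : Type*} [Finite J] (c : J → V)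
    (ρ : J → ℝ) {R ε : ℝ} (hρ : ∀ j, 0 < ρ j) (hR : 0 < R) (hε : 16 * K * ε ≤ 1)
    (hsum : ∀ (y : V) (s : Finset J), (∀ j ∈ s, ‖c j - y‖ ≤ 4 * R) → ∑ j ∈ s, ρ j ≤ ε * R)
    {ι : ℝ} (hι : 0 < ι) :
    ∃ T : ConHomeo (univ : Set V) (univ : Set V),
      (∀ y y', ‖T.toFun y - T.toFun y'‖ ≤ (1 + 4 * K * ε) * ‖y - y'‖) ∧
      (∀ y, ‖T.toFun y - y‖ ≤ 2 * K * ε * R) ∧
      (∀ y, (∀ j, 2 * R < ‖y - c j‖) → T.toFun y = y) ∧
      (∀ j, ∀ a ∈ closedBall (c j) (ρ j), ∀ b ∈ closedBall (c j) (ρ j),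
        ‖T.toFun a - T.toFun b‖ ≤ ι * ‖a - b‖) := by
  classical
  have := Fintype.ofFinite J
  have hK0 : 0 ≤ K := by linarith
  have hρ0 : ∀ j, 0 ≤ ρ j := fun j => (hρ j).le
  have hε0 : 0 ≤ ε := by
    have := hsum 0 ∅ (by simp)
    simp only [Finset.sum_empty] at this
    by_contra hlt
    push Not at hlt
    nlinarith
  have hls : ∀ y, ls c ρ Finset.univ (4 * R) y ≤ ε * R := by
    intro y
    unfold ls
    exact hsum y _ fun j hj => (Finset.mem_filter.1 hj).2
  have hι4 : 0 < min (ι / 4) 1 := lt_min (by linarith) one_pos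
  obtain ⟨T, h1, h2, h3⟩ := colb_aux hK1 hK hρ hR (by nlinarith) hι4 (min_le_right _ _)
    Finset.univ hls
  have hlp : ∀ y, lp c ρ R K Finset.univ y ≤ 1 + 4 * K * ε := fun y =>
    lp_le hK0 hR hρ0 (hls y) (by nlinarith)
  refine ⟨T, ?_, ?_, ?_, ?_⟩
  · apply lip_of_local (by positivity) hR
    intro y a b ha hb
    exact (h2 y a b ha hb).trans (by have := hlp y; gcongr)
  · intro y
    refine (h1 y).trans ?_
    have := (ls_mono hρ0 (Finset.Subset.refl _) (by linarith : 2 * R ≤ 4 * R) y).trans (hls y)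
    calc 2 * K * ls c ρ Finset.univ (2 * R) y ≤ 2 * K * (ε * R) := by gcongr
      _ = _ := by ring
  · intro y hy
    have h4 := h1 y
    have h5 : ls c ρ Finset.univ (2 * R) y = 0 := by
      unfold ls
      rw [Finset.sum_eq_zero]
      intro j hj
      exfalso
      have := (Finset.mem_filter.1 hj).2
      rw [norm_sub_rev] at this
      linarith [hy j]
    rw [h5, mul_zero] at h4
    exact sub_eq_zero.1 (norm_le_zero_iff.1 h4)
  · intro j a ha b hb
    refine (h3 j (Finset.mem_univ j) a ha b hb).trans ?_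
    have h4 := hlp (c j)
    have h5 : min (ι / 4) 1 ≤ ι / 4 := min_le_left _ _
    have h6 : lp c ρ R K Finset.univ (c j) ≤ 2 := h4.trans (by nlinarith)
    have h7 := one_le_lp hK0 hR hρ0 (c := c) Finset.univ (c j)
    calc 2 * min (ι / 4) 1 * lp c ρ R K Finset.univ (c j) * ‖a - b‖
        ≤ 2 * (ι / 4) * 2 * ‖a - b‖ := by gcongr
      _ = ι * ‖a - b‖ := by ring

/-- a conical homeomorphism of the whole space which is the identity off the open set `Λ`,
as a conical homeomorphism of `Λ` -/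
def onSet (T : ConHomeo (univ : Set V) (univ : Set V)) {Λ : Set V} (hΛ : IsOpen Λ)
    (h : ∀ y, y ∉ Λ → T.toFun y = y) : ConHomeo Λ Λ where
  toFun := T.toFun
  invFun := T.invFun
  mapsTo := fun y hy => by
    by_contra hn
    have h1 := h _ hn
    have h2 : T.toFun y = y := T.injOn (mem_univ _) (mem_univ _) h1
    rw [h2] at hn
    exact hn hy
  mapsTo_inv := fun y hy => by
    by_contra hn
    have h1 := h _ hn
    rw [T.right_inv (mem_univ y)] at h1
    rw [← h1] at hn
    exact hn hy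
  left_inv := fun y _ => T.left_inv (mem_univ y)
  right_inv := fun y _ => T.right_inv (mem_univ y)
  cont := T.cont.mono (subset_univ _)
  cont_inv := T.cont_inv.mono (subset_univ _)
  conical := T.conical.mono hΛ.conicalSet (subset_univ _)

@[simp] theorem onSet_toFun (T : ConHomeo (univ : Set V) (univ : Set V)) {Λ : Set V}
    (hΛ : IsOpen Λ) (h : ∀ y, y ∉ Λ → T.toFun y = y) : (onSet T hΛ h).toFun = T.toFun := rfl

/-- **COLB** in an open set `Λ` which contains the supports -/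
theorem colb_on {K : ℝ} (hK1 : 1 ≤ K) (hK : HasColl V K) {J : Type*} [Finite J] (c : J → V)
    (ρ : J → ℝ) {R ε : ℝ} (hρ : ∀ j, 0 < ρ j) (hR : 0 < R) (hε : 16 * K * ε ≤ 1)
    (hsum : ∀ (y : V) (s : Finset J), (∀ j ∈ s, ‖c j - y‖ ≤ 4 * R) → ∑ j ∈ s, ρ j ≤ ε * R)
    {Λ : Set V} (hΛ : IsOpen Λ) (hsup : ∀ j, closedBall (c j) (2 * R) ⊆ Λ)
    {ι : ℝ} (hι : 0 < ι) :
    ∃ T : ConHomeo Λ Λ,
      (∀ y y', ‖T.toFun y - T.toFun y'‖ ≤ (1 + 4 * K * ε) * ‖y - y'‖) ∧
      (∀ y, ‖T.toFun y - y‖ ≤ 2 * K * ε * R) ∧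
      (∀ y, (∀ j, 2 * R < ‖y - c j‖) → T.toFun y = y) ∧
      (∀ j, ∀ a ∈ closedBall (c j) (ρ j), ∀ b ∈ closedBall (c j) (ρ j),
        ‖T.toFun a - T.toFun b‖ ≤ ι * ‖a - b‖) := by
  obtain ⟨T, h1, h2, h3, h4⟩ := colb_of hK1 hK c ρ hρ hR hε hsum hι
  refine ⟨onSet T hΛ fun y hy => h3 y fun j => ?_, h1, h2, h3, h4⟩
  by_contra hle
  exact hy (hsup j (by rw [mem_closedBall, dist_eq_norm]; exact not_lt.1 hle))

end P073.H439
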