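import Vale.Agent.P073.H439.EnF1
import Vale.Agent.P073.H239.FSpec1

/-!
# P073, block B10, rank one: **[EN-B]**
-/

namespace Vale.Agent.P073.H439.EN

open MeasureTheory Set Filter Topology Metric Vale.Agent.P073.St Vale.Agent.P073.AB
open Vale.Agent.P073.H235
open Vale.Agent.P073.H239 (enX EnB1)
open Vale.Agent.P073.H253 (BVData)
open Vale.Agent.P073.H696 (HF R2)
open Vale.Agent.P073.H851 (M3)
open scoped ENNReal

theorem volume_beam {θ₁ θ₂ : ℝ} (h1 : 0 < θ₁) :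
    volume (Bx (bm θ₁ θ₂)) ≤ ENNReal.ofReal (4 * (θ₁ * θ₂)) := by
  have h := volume_box 0 (bm θ₁ θ₂)
  have h3 : Bx (bm θ₁ θ₂) = {x : V | ∀ i, (0 : V) i < x i ∧ x i < bm θ₁ θ₂ i} := rfl
  rw [h3, h, Fin.prod_univ_three, bm0, bm1, bm2, ← ENNReal.ofReal_mul (by simp),
    ← ENNReal.ofReal_mul (by simp [h1.le])]
  refine ENNReal.ofReal_le_ofReal (le_of_eq ?_)
  simp only [Pi.zero_apply]
  ring

/-- **[EN-B]** -/
theorem specEnB {p : ℝ} (hp : 1 ≤ p) : H239.SpecEnB p := by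
  intro C₁ hC₁
  have h2p : (0:ℝ) < 2 ^ p := by positivity
  refine ⟨(C₁ * 2 ^ p * (1 + 4 + 48) + 1) * (3 / 2), by positivity, ?_⟩
  intro θ₁ θ₂ ν₁ κ m₀ Λ f F D h1 h1' h2 h2' hν hν' hκ
  have E := ED.of_beam hp h1' h2' D
  have hpos : 0 < θ₁ * θ₂ := mul_pos h1 h2
  obtain ⟨r₀, hr₀, ε₂, hε₂, H⟩ := E.energies (ν := 3 / 2 * ν₁) (s := θ₁ * θ₂) (κ := κ) (b := 4)
    (c := 48) (C₁ := C₁) (J := {0, 2}) D.small ⟨0, by simp⟩
    (fun i _ => H190.bm_pos h1 h2 i) hpos (by positivity) (by linarith) (by norm_num)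
    (by norm_num) hC₁ (by nlinarith) (volume_beam h1)
    ((volume_frameB h1 h2 (by positivity)).trans (ENNReal.ofReal_le_ofReal (le_of_eq (by ring))))
    1 0 one_pos
  refine ⟨r₀, hr₀, ε₂, hε₂, fun Cu Lc δ j ε X hX => ?_⟩
  obtain ⟨a1, a2, -⟩ := H (enX X) hX
  refine ⟨a1.trans (ENNReal.ofReal_le_ofReal ?_), ?_⟩
  · have : 0 ≤ (C₁ * 2 ^ p * (1 + 4 + 48) + 1) * (θ₁ * θ₂) := by positivity
    nlinarith
  · have e : 2 * (3 / 2 * ν₁) = 3 * ν₁ := by ring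
    rw [e] at a2
    exact a2.trans (ENNReal.ofReal_le_ofReal (le_of_eq (by ring)))

end Vale.Agent.P073.H439.EN
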