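import Vale.Agent.P073.H439.EnerB
import Vale.Agent.P073.H696.BSpec

/-!
# P073, block B10: the energy of the compressed map near frames and planes
-/

namespace Vale.Agent.P073.H439.EN

open MeasureTheory Set Filter Topology Metric Vale.Agent.P073.St Vale.Agent.P073.AB
open Vale.Agent.P073.H235
open Vale.Agent.P073.H696 (HF)
open scoped ENNReal

/-- neighbourhood of a frame -/
theorem near_frame {a : V} {ν r₀ : ℝ} {J : Finset (Fin 3)} (hJ : J.Nonempty)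
    (hr : ∀ i ∈ J, r₀ < ν * a i) :
    {y | y ∈ Bx a ∧ infDist y (Fr a (2 * ν) J) ≤ r₀} ⊆ Bx a ∩ Fr a (3 * ν) J := by
  rintro y ⟨hy, h⟩
  have hne : (Fr a (2 * ν) J).Nonempty := by
    obtain ⟨i, hi⟩ := hJ
    exact ⟨fun j => 2 * ν * a j, i, hi, Or.inl le_rfl⟩
  obtain ⟨i₀, hi₀, hmin⟩ := J.exists_min_image (fun i => ν * a i) hJ
  obtain ⟨z, hz, hd⟩ := (infDist_lt_iff hne).1 (h.trans_lt (hr i₀ hi₀))
  obtain ⟨i, hi, hc⟩ := hz
  have h1 : |y i - z i| < ν * a i := by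
    have h2 := (dist_le_pi_dist y z i).trans_lt hd
    rw [Real.dist_eq] at h2
    exact h2.trans_le (hmin i hi)
  have h3 := abs_lt.1 h1
  refine ⟨hy, i, hi, ?_⟩
  rcases hc with hc | hc
  · left
    linarith [h3.2]
  · right
    linarith [h3.1]

/-- neighbourhood of a part of a plane -/
theorem near_layer {U A : Set V} {i : Fin 3} {c r₀ s : ℝ} (hA : A.Nonempty)
    (hAc : ∀ x ∈ A, x i = c) (hr : r₀ < s) :
    {y | y ∈ U ∧ infDist y A ≤ r₀} ⊆ U ∩ {y | |y i - c| ≤ s} := by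
  rintro y ⟨hy, h⟩
  obtain ⟨z, hz, hd⟩ := (infDist_lt_iff hA).1 (h.trans_lt hr)
  have h2 := (dist_le_pi_dist y z i).trans_lt hd
  rw [Real.dist_eq, hAc z hz] at h2
  exact ⟨hy, h2.le⟩

theorem measurableSet_near {U : Set V} (hU : MeasurableSet U) (A : Set V) (r₀ : ℝ) :
    MeasurableSet {y | y ∈ U ∧ infDist y A ≤ r₀} :=
  hU.inter (isClosed_le (continuous_infDist_pt _) continuous_const).measurableSet

namespace ED

variable {p : ℝ} {U : Set V} {L₀ : V →L[ℝ] V} {v : V} {N : Set V} {H H₁ : V → ℝ≥0∞}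
  {F : V → Mat}

theorem HF_eq (E : ED p U L₀ (fun x => cl (F x)) v N H H₁) {x : V} (hx : x ∈ U) (hN : x ∉ N) :
    HF p U F x = H x := by
  unfold HF
  rw [indicator_of_mem hx, E.eq x hx hN]

/-- the energy of the compressed map in a set -/
theorem int_HF (E : ED p U L₀ (fun x => cl (F x)) v N H H₁) {R : Set V} (hR : R ⊆ U)
    (hRm : MeasurableSet R) :
    ∫⁻ y in R, HF p U F y ≤ ∫⁻ x in R, (H x + H194.Bk 1 x) := by
  have hae : ∀ᵐ x : V, x ∉ N := measure_eq_zero_iff_ae_notMem.1 E.null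
  refine lintegral_mono_ae ?_
  filter_upwards [ae_restrict_mem hRm, ae_restrict_of_ae hae] with x h1 h2
  rw [E.HF_eq (hR h1) h2]
  exact le_self_add

theorem int_HF_le (E : ED p U L₀ (fun x => cl (F x)) v N H H₁) {R : Set V} (hR : R ⊆ U)
    (hRm : MeasurableSet R) :
    ∫⁻ y in R, HF p U F y ≤ ENNReal.ofReal (2 ^ p) * ((∫⁻ x in U, H₁ x) + volume R) := by
  refine (E.int_HF hR hRm).trans ((E.int_le hR hRm).trans ?_)
  gcongr

/-- **bulk** -/
theorem near_univ (E : ED p U L₀ (fun x => cl (F x)) v N H H₁) (hU : MeasurableSet U)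
    (A : Set V) (r₀ : ℝ) : ∫⁻ y in {y | y ∈ U ∧ infDist y A ≤ r₀}, HF p U F y ≤
      ENNReal.ofReal (2 ^ p) * ((∫⁻ x in U, H₁ x) + volume U) := by
  refine (E.int_HF_le (fun y hy => hy.1) (measurableSet_near hU A r₀)).trans ?_
  gcongr
  exact fun y hy => hy.1

/-- **layers** -/
theorem near_small (E : ED p U L₀ (fun x => cl (F x)) v N H H₁) (hU : MeasurableSet U)
    (i : Fin 3) (c : ℝ) {ε : ℝ} (hε : 0 < ε) : ∃ r₀ > 0, ∀ A : Set V, A.Nonempty →
      (∀ x ∈ A, x i = c) → ∫⁻ y in {y | y ∈ U ∧ infDist y A ≤ r₀}, HF p U F y ≤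
        ENNReal.ofReal ε := by
  obtain ⟨n, -, hn⟩ := E.layer hU i c hε 0
  refine ⟨1 / 2 ^ (n + 1), by positivity, fun A hA hAc => ?_⟩
  have hs := near_layer (U := U) hA hAc (r₀ := 1 / 2 ^ (n + 1)) (s := 1 / 2 ^ n) (by
    rw [pow_succ]
    have : (0:ℝ) < 2 ^ n := by positivity
    apply one_div_lt_one_div_of_lt this
    linarith)
  have hm : MeasurableSet (U ∩ {x : V | |x i - c| ≤ 1 / 2 ^ n}) :=
    hU.inter (isClosed_le (by fun_prop) continuous_const).measurableSet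
  calc ∫⁻ y in {y | y ∈ U ∧ infDist y A ≤ 1 / 2 ^ (n + 1)}, HF p U F y
      ≤ ∫⁻ y in U ∩ {x | |x i - c| ≤ 1 / 2 ^ n}, HF p U F y := lintegral_mono_set hs
    _ ≤ ∫⁻ x in U ∩ {x | |x i - c| ≤ 1 / 2 ^ n}, (H x + H194.Bk 1 x) :=
        E.int_HF inter_subset_left hm
    _ ≤ _ := hn

end ED

end Vale.Agent.P073.H439.EN
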