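import Vale.Agent.P073.H439.EnF

/-!
# P073, block B10: bulk, frame and layer energies, any box
-/

namespace Vale.Agent.P073.H439.EN

open MeasureTheory Set Filter Topology Metric Vale.Agent.P073.St Vale.Agent.P073.AB
open Vale.Agent.P073.H235
open Vale.Agent.P073.H696 (HF)
open scoped ENNReal

theorem measurableSet_Fr' (a : V) (ν : ℝ) (J : Finset (Fin 3)) : MeasurableSet (Fr a ν J) := by
  have : Fr a ν J = ⋃ i ∈ J, {x : V | x i ≤ ν * a i ∨ (1 - ν) * a i ≤ x i} := by
    ext x; simp [Fr]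
  rw [this]
  refine Finset.measurableSet_biUnion _ fun i _ => ?_
  exact (measurableSet_le (measurable_pi_apply i) measurable_const).union
    (measurableSet_le measurable_const (measurable_pi_apply i))

/-- **energies of a functional `T` which is estimated locally.** `s`: the volume of the box, up to
the factor `b`; `i`, `t`: the plane. -/
theorem ED.energies {p : ℝ} {a : V} {L₀ : V →L[ℝ] V} {v : V} {N : Set V} {H H₁ : V → ℝ≥0∞}
    {F : V → Mat} (E : ED p (Bx a) L₀ (fun x => cl (F x)) v N H H₁) {κ s ν b c C₁ : ℝ}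
    (hsm : ∫⁻ x in Bx a, H₁ x ≤ ENNReal.ofReal κ) {J : Finset (Fin 3)} (hJ : J.Nonempty)
    (ha : ∀ i ∈ J, 0 < a i) (hs : 0 < s) (hν : 0 < ν) (hν1 : ν ≤ 1) (hb : 0 ≤ b) (hc : 0 ≤ c)
    (hC₁ : 1 ≤ C₁) (hκ : κ ≤ ν * s) (hvb : volume (Bx a) ≤ ENNReal.ofReal (b * s))
    (hvf : volume (Bx a ∩ Fr a (3 * ν) J) ≤ ENNReal.ofReal (c * ν * s)) (i : Fin 3) (t : ℝ)
    {ε : ℝ} (hε : 0 < ε) : ∃ r₀ > 0, ∃ ε₂ > 0, ∀ T : Set V → ℝ≥0∞,
      (∀ A : Set V, T A ≤ ENNReal.ofReal C₁ *
        (∫⁻ y in {y | y ∈ Bx a ∧ infDist y A ≤ r₀}, HF p (Bx a) F y) + ENNReal.ofReal ε₂) →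
      T univ ≤ ENNReal.ofReal ((C₁ * 2 ^ p * (1 + b + c) + 1) * s) ∧
      T (Fr a (2 * ν) J) ≤ ENNReal.ofReal ((C₁ * 2 ^ p * (1 + b + c) + 1) * ν * s) ∧
      ∀ A : Set V, A.Nonempty → (∀ x ∈ A, x i = t) → T A ≤ ENNReal.ofReal ε := by
  have hU : MeasurableSet (Bx a) := (isOpen_Bx _).measurableSet
  have h2p : (0:ℝ) < 2 ^ p := by positivity
  obtain ⟨r₁, hr₁, H1⟩ := E.near_small hU i t (ε := ε / (2 * C₁)) (by positivity)
  obtain ⟨i₀, hi₀, hmin⟩ := J.exists_min_image (fun i => ν * a i) hJ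
  have hpos : 0 < ν * a i₀ := mul_pos hν (ha i₀ hi₀)
  refine ⟨min r₁ (ν * a i₀ / 2), lt_min hr₁ (by positivity), min (ε / 2) (ν * s),
    lt_min (by positivity) (by positivity), fun T hT => ⟨?_, ?_, fun A hA hAc => ?_⟩⟩
  · have h1 := E.near_univ hU univ (min r₁ (ν * a i₀ / 2))
    calc T univ ≤ ENNReal.ofReal C₁ * (ENNReal.ofReal (2 ^ p) *
          (ENNReal.ofReal κ + ENNReal.ofReal (b * s))) +
          ENNReal.ofReal (min (ε / 2) (ν * s)) := by
          refine (hT univ).trans ?_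
          gcongr
          exact h1.trans (by gcongr)
      _ ≤ ENNReal.ofReal C₁ * (ENNReal.ofReal (2 ^ p) *
          (ENNReal.ofReal s + ENNReal.ofReal (b * s))) + ENNReal.ofReal s := by
          gcongr
          · nlinarith
          · exact (min_le_right _ _).trans (by nlinarith)
      _ = ENNReal.ofReal (C₁ * (2 ^ p * (s + b * s)) + s) := by
          rw [← ENNReal.ofReal_add hs.le (by positivity), ← ENNReal.ofReal_mul h2p.le,
            ← ENNReal.ofReal_mul (by linarith), ← ENNReal.ofReal_add (by positivity) hs.le]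
      _ ≤ _ := by
          refine ENNReal.ofReal_le_ofReal ?_
          have : 0 ≤ C₁ * 2 ^ p * c * s := by positivity
          nlinarith
  · have hsub := near_frame (a := a) (ν := ν) (r₀ := min r₁ (ν * a i₀ / 2)) hJ fun i hi =>
      (min_le_right _ _).trans_lt (by have : ν * a i₀ ≤ ν * a i := hmin i hi; linarith)
    have hm : MeasurableSet (Bx a ∩ Fr a (3 * ν) J) := hU.inter (measurableSet_Fr' _ _ _)
    have h1 : ∫⁻ y in {y | y ∈ Bx a ∧ infDist y (Fr a (2 * ν) J) ≤ min r₁ (ν * a i₀ / 2)},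
        HF p (Bx a) F y ≤ ENNReal.ofReal (2 ^ p) *
          (ENNReal.ofReal κ + ENNReal.ofReal (c * ν * s)) := by
      refine (lintegral_mono_set hsub).trans ((E.int_HF_le inter_subset_left hm).trans ?_)
      gcongr
    calc T (Fr a (2 * ν) J) ≤ ENNReal.ofReal C₁ * (ENNReal.ofReal (2 ^ p) *
          (ENNReal.ofReal κ + ENNReal.ofReal (c * ν * s))) +
          ENNReal.ofReal (min (ε / 2) (ν * s)) := by
          refine (hT _).trans ?_
          gcongr
      _ ≤ ENNReal.ofReal C₁ * (ENNReal.ofReal (2 ^ p) *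
          (ENNReal.ofReal (ν * s) + ENNReal.ofReal (c * ν * s))) + ENNReal.ofReal (ν * s) := by
          gcongr
          exact min_le_right _ _
      _ = ENNReal.ofReal (C₁ * (2 ^ p * (ν * s + c * ν * s)) + ν * s) := by
          rw [← ENNReal.ofReal_add (by positivity) (by positivity),
            ← ENNReal.ofReal_mul h2p.le, ← ENNReal.ofReal_mul (by linarith),
            ← ENNReal.ofReal_add (by positivity) (by positivity)]
      _ ≤ _ := by
          refine ENNReal.ofReal_le_ofReal ?_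
          have : 0 ≤ C₁ * 2 ^ p * b * ν * s := by positivity
          nlinarith
  · have h1 : ∫⁻ y in {y | y ∈ Bx a ∧ infDist y A ≤ min r₁ (ν * a i₀ / 2)}, HF p (Bx a) F y ≤
        ENNReal.ofReal (ε / (2 * C₁)) :=
      (lintegral_mono_set (fun y (hy : y ∈ Bx a ∧ infDist y A ≤ min r₁ (ν * a i₀ / 2)) =>
        (⟨hy.1, hy.2.trans (min_le_left _ _)⟩ : y ∈ Bx a ∧ infDist y A ≤ r₁))).trans (H1 A hA hAc)
    calc T A ≤ ENNReal.ofReal C₁ * ENNReal.ofReal (ε / (2 * C₁)) + ENNReal.ofReal (ε / 2) := by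
          refine (hT _).trans ?_
          gcongr
          exact min_le_left _ _
      _ = ENNReal.ofReal ε := by
          rw [← ENNReal.ofReal_mul (by linarith), ← ENNReal.ofReal_add (by positivity)
            (by positivity)]
          congr 1
          field_simp
          ring

end Vale.Agent.P073.H439.EN
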