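import Vale.Agent.P073.H439.Ener
import Vale.Agent.P073.H253.R1Parts

/-!
# P073, block A16: energy densities on flat boxes and beams, general form
-/

namespace Vale.Agent.P073.H439.EN

open MeasureTheory Set Filter Topology Metric Vale.Agent.P073.St Vale.Agent.P073.AB
open Vale.Agent.P073.H235
open Vale.Agent.P073.SQ (ev)
open Vale.Agent.P073.H194 (sInt Gen idx measurableSet_dyc update_mem_squ)
open _root_.P073.Net (len dyc dyo)
open scoped ENNReal

/-- `G ≤ 2 ^ p (H₁ + 1)`, any linear map of norm at most one -/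
theorem dens_le' {p : ℝ} (hp : 1 ≤ p) {L₀ : V →L[ℝ] V} (hL : ‖L₀‖ ≤ 1) (A : V →L[ℝ] V) :
    ‖A‖ₑ ^ p + 1 ≤ ENNReal.ofReal (2 ^ p) * (‖A - L₀‖ₑ ^ p + 1) := by
  have h0 : (0:ℝ) ≤ p := zero_le_one.trans hp
  have h1 : ‖A‖ₑ ≤ ‖A - L₀‖ₑ + 1 := by
    have h2 : ‖A‖ ≤ ‖A - L₀‖ + 1 := by
      have h3 := norm_add_le (A - L₀) L₀
      rw [sub_add_cancel] at h3
      linarith
    rw [← ofReal_norm, ← ofReal_norm, ← ENNReal.ofReal_one,
      ← ENNReal.ofReal_add (norm_nonneg _) zero_le_one]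
    exact ENNReal.ofReal_le_ofReal h2
  have h2 : (2:ℝ≥0∞) ^ (p - 1) + 1 ≤ ENNReal.ofReal (2 ^ p) := by
    have e1 : (2:ℝ≥0∞) ^ (p - 1) = ENNReal.ofReal (2 ^ (p - 1)) := by
      rw [← ENNReal.ofReal_rpow_of_pos (by norm_num)]
      norm_num
    rw [e1, ← ENNReal.ofReal_one, ← ENNReal.ofReal_add (by positivity) (by norm_num)]
    refine ENNReal.ofReal_le_ofReal ?_
    have e2 : (2:ℝ) ^ p = 2 * 2 ^ (p - 1) := by
      rw [Real.rpow_sub_one (by norm_num)]
      ring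
    have e3 : (1:ℝ) ≤ 2 ^ (p - 1) := Real.one_le_rpow (by norm_num) (by linarith)
    linarith
  calc ‖A‖ₑ ^ p + 1 ≤ (‖A - L₀‖ₑ + 1) ^ p + 1 := by
        gcongr
    _ ≤ 2 ^ (p - 1) * (‖A - L₀‖ₑ ^ p + 1 ^ p) + 1 := by
        gcongr
        exact ENNReal.rpow_add_le_mul_rpow_add_rpow _ _ hp
    _ = 2 ^ (p - 1) * (‖A - L₀‖ₑ ^ p + 1) + 1 := by rw [ENNReal.one_rpow]
    _ ≤ 2 ^ (p - 1) * (‖A - L₀‖ₑ ^ p + 1) + 1 * (‖A - L₀‖ₑ ^ p + 1) := by
        gcongr
        rw [one_mul]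
        exact le_add_self
    _ = ((2:ℝ≥0∞) ^ (p - 1) + 1) * (‖A - L₀‖ₑ ^ p + 1) := by rw [add_mul]
    _ ≤ _ := by gcongr

theorem eInt_const (v : V) (e : Idx × Fin 3) (c : ℝ≥0∞) :
    eInt v e (fun _ => c) = c * ENNReal.ofReal (1 / 2 ^ e.1.1) := by
  unfold eInt
  rw [setLIntegral_const, Real.volume_Icc]
  simp [mul_comm]

/-- linearity on edges -/
theorem eInt_affine (v : V) (e : Idx × Fin 3) {H : V → ℝ≥0∞} (hH : Measurable H) (a b : ℝ≥0∞) :
    eInt v e (fun x => a * H x + b) = a * eInt v e H + b * ENNReal.ofReal (1 / 2 ^ e.1.1) := by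
  have hm : Measurable fun t : ℝ =>
      H (pt v e.1.1 e.1.2 + t • ((1 / 2 ^ e.1.1 : ℝ) • ev e.2)) :=
    hH.comp (measurable_const.add (measurable_id.smul_const _))
  have h1 : eInt v e (fun x => a * H x + b) =
      eInt v e (fun x => a * H x) + eInt v e (fun _ => b) := by
    unfold eInt
    rw [← mul_add, lintegral_add_right _ measurable_const]
  have h2 : eInt v e (fun x => a * H x) = a * eInt v e H := by
    unfold eInt
    rw [lintegral_const_mul _ hm]
    ring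
  rw [h1, h2, eInt_const]

theorem mem_edge_of {v : V} {e : Idx × Fin 3} {t : ℝ} (ht : t ∈ Icc (0:ℝ) 1) :
    pt v e.1.1 e.1.2 + t • ((1 / 2 ^ e.1.1 : ℝ) • ev e.2) ∈ edge v e := by
  unfold edge
  rw [segment_eq_image']
  exact ⟨t, ht, by simp⟩

/-- densities `H` of `A` and `H₁` of `A - L₀` on `U`, generic representatives -/
structure ED (p : ℝ) (U : Set V) (L₀ : V →L[ℝ] V) (A : V → V →L[ℝ] V) (v : V) (N : Set V)
    (H H₁ : V → ℝ≥0∞) : Prop where
  hp : 1 ≤ p
  hL : ‖L₀‖ ≤ 1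
  ball : U ⊆ closedBall 0 1
  null : volume N = 0
  rep : ∀ B B' : V → ℝ≥0∞, (∀ x, x ∉ N → B x = B' x) →
    (∀ e, eInt v e B = eInt v e B') ∧ ∀ s, sInt v s B = sInt v s B'
  meas : Measurable H
  meas₁ : Measurable H₁
  fin : ∫⁻ x, H x ≠ ⊤
  eq : ∀ x ∈ U, x ∉ N → H x = ‖A x‖ₑ ^ p
  eq₁ : ∀ x ∈ U, x ∉ N → H₁ x = ‖A x - L₀‖ₑ ^ p

namespace ED

variable {p : ℝ} {U : Set V} {L₀ : V →L[ℝ] V} {A : V → V →L[ℝ] V} {v : V} {N : Set V}
  {H H₁ : V → ℝ≥0∞}

theorem bk (E : ED p U L₀ A v N H H₁) {x : V} (hx : x ∈ U) : H194.Bk 1 x = 1 := by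
  unfold H194.Bk
  refine indicator_of_mem ?_ _
  have := E.ball hx
  simpa using this

theorem dens (E : ED p U L₀ A v N H H₁) {x : V} (hx : x ∈ U) (hN : x ∉ N) :
    H x + H194.Bk 1 x ≤ ENNReal.ofReal (2 ^ p) * (H₁ x + 1) := by
  rw [E.eq x hx hN, E.eq₁ x hx hN, E.bk hx]
  exact dens_le' E.hp E.hL _

/-- integrals over sets -/
theorem int_le (E : ED p U L₀ A v N H H₁) {R : Set V} (hR : R ⊆ U) (hRm : MeasurableSet R) :
    ∫⁻ x in R, (H x + H194.Bk 1 x) ≤
      ENNReal.ofReal (2 ^ p) * ((∫⁻ x in R, H₁ x) + volume R) := by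
  have hae : ∀ᵐ x : V, x ∉ N := measure_eq_zero_iff_ae_notMem.1 E.null
  calc ∫⁻ x in R, (H x + H194.Bk 1 x)
      ≤ ∫⁻ x in R, ENNReal.ofReal (2 ^ p) * (H₁ x + 1) := by
        refine lintegral_mono_ae ?_
        filter_upwards [ae_restrict_mem hRm, ae_restrict_of_ae hae] with x h1 h2
        exact E.dens (hR h1) h2
    _ = _ := by
        rw [lintegral_const_mul _ (E.meas₁.add_const 1),
          lintegral_add_right _ measurable_const, setLIntegral_const, one_mul]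

/-- squares -/
theorem squ_le (E : ED p U L₀ A v N H H₁) {s : Idx × Fin 3} (hs : squ v s ⊆ U) :
    sInt v s (fun x => H x + H194.Bk 1 x) ≤
      ENNReal.ofReal (2 ^ p) * (sInt v s H₁ + ENNReal.ofReal (1 / 4 ^ s.1.1)) := by
  classical
  set A' : V → ℝ≥0∞ := fun x => if x ∈ N then 0 else H x + H194.Bk 1 x with hA'
  have h2 : sInt v s (fun x => H x + H194.Bk 1 x) = sInt v s A' :=
    (E.rep _ _ fun x hx => by rw [hA']; simp [hx]).2 _
  have h3 : sInt v s A' ≤ sInt v s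
      (fun x => ENNReal.ofReal (2 ^ p) * H₁ x + ENNReal.ofReal (2 ^ p)) := by
    refine H194.sInt_mono fun x hx => ?_
    by_cases hN : x ∈ N
    · simp [hA', hN]
    · have h4 := E.dens (hs hx) hN
      rw [mul_add, mul_one] at h4
      simpa [hA', hN] using h4
  rw [h2]
  refine h3.trans (le_of_eq ?_)
  rw [sInt_affine _ _ E.meas₁, mul_add]

/-- edges -/
theorem edge_le (E : ED p U L₀ A v N H H₁) {e : Idx × Fin 3} (he : edge v e ⊆ U) :
    eInt v e (fun x => H x + H194.Bk 1 x) ≤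
      ENNReal.ofReal (2 ^ p) * (eInt v e H₁ + ENNReal.ofReal (1 / 2 ^ e.1.1)) := by
  classical
  set A' : V → ℝ≥0∞ := fun x => if x ∈ N then 0 else H x + H194.Bk 1 x with hA'
  have h2 : eInt v e (fun x => H x + H194.Bk 1 x) = eInt v e A' :=
    (E.rep _ _ fun x hx => by rw [hA']; simp [hx]).1 _
  have h3 : eInt v e A' ≤ eInt v e
      (fun x => ENNReal.ofReal (2 ^ p) * H₁ x + ENNReal.ofReal (2 ^ p)) := by
    refine H194.eInt_mono fun t ht => ?_
    have hx := mem_edge_of (v := v) (e := e) ht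
    by_cases hN : pt v e.1.1 e.1.2 + t • ((1 / 2 ^ e.1.1 : ℝ) • ev e.2) ∈ N
    · simp only [hA', hN, if_true]
      exact zero_le
    · have h4 := E.dens (he hx) hN
      rw [mul_add, mul_one] at h4
      simpa only [hA', hN, if_false] using h4
  rw [h2]
  refine h3.trans (le_of_eq ?_)
  rw [eInt_affine _ _ E.meas₁, mul_add]

/-- Young, squares -/
theorem squ_young (E : ED p U L₀ A v N H H₁) {s : Idx × Fin 3} (hs : squ v s ⊆ U) {t : ℝ}
    (ht : 0 < t) : sInt v s (fun x => ‖A x - L₀‖ₑ) ≤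
      ENNReal.ofReal (t ^ (1 - p)) * sInt v s H₁ +
        ENNReal.ofReal t * ENNReal.ofReal (1 / 4 ^ s.1.1) := by
  classical
  set B : V → ℝ≥0∞ := fun x => ‖A x - L₀‖ₑ with hB
  set B' : V → ℝ≥0∞ := fun x => if x ∈ N then 0 else B x with hB'
  have h2 : sInt v s B = sInt v s B' :=
    (E.rep _ _ fun x hx => by rw [hB']; simp [hx]).2 _
  have h3 : sInt v s B' ≤ sInt v s
      (fun x => ENNReal.ofReal (t ^ (1 - p)) * H₁ x + ENNReal.ofReal t) := by
    refine H194.sInt_mono fun x hx => ?_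
    by_cases hN : x ∈ N
    · simp [hB', hN]
    · have h4 := young E.hp ht (B x)
      have h5 : H₁ x = B x ^ p := E.eq₁ x (hs hx) hN
      rw [add_comm, ← h5] at h4
      simpa [hB', hN] using h4
  rw [h2]
  refine h3.trans (le_of_eq ?_)
  rw [sInt_affine _ _ E.meas₁]

/-- Young, edges -/
theorem edge_young (E : ED p U L₀ A v N H H₁) {e : Idx × Fin 3} (he : edge v e ⊆ U) {t : ℝ}
    (ht : 0 < t) : eInt v e (fun x => ‖A x - L₀‖ₑ) ≤
      ENNReal.ofReal (t ^ (1 - p)) * eInt v e H₁ +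
        ENNReal.ofReal t * ENNReal.ofReal (1 / 2 ^ e.1.1) := by
  classical
  set B : V → ℝ≥0∞ := fun x => ‖A x - L₀‖ₑ with hB
  set B' : V → ℝ≥0∞ := fun x => if x ∈ N then 0 else B x with hB'
  have h2 : eInt v e B = eInt v e B' :=
    (E.rep _ _ fun x hx => by rw [hB']; simp [hx]).1 _
  have h3 : eInt v e B' ≤ eInt v e
      (fun x => ENNReal.ofReal (t ^ (1 - p)) * H₁ x + ENNReal.ofReal t) := by
    refine H194.eInt_mono fun u hu => ?_
    have hx := mem_edge_of (v := v) (e := e) hu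
    by_cases hN : pt v e.1.1 e.1.2 + u • ((1 / 2 ^ e.1.1 : ℝ) • ev e.2) ∈ N
    · simp only [hB', hN, if_true]
      exact zero_le
    · have h4 := young E.hp ht (B (pt v e.1.1 e.1.2 + u • ((1 / 2 ^ e.1.1 : ℝ) • ev e.2)))
      have h5 := E.eq₁ _ (he hx) hN
      simp only [hB', hN, if_false]
      rw [h5]
      exact h4.trans_eq (add_comm _ _)
  rw [h2]
  refine h3.trans (le_of_eq ?_)
  rw [eInt_affine _ _ E.meas₁]

/-- finite energy on `U` -/
theorem fin_U (E : ED p U L₀ A v N H H₁) (hU : MeasurableSet U) :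
    ∫⁻ x in U, (H x + H194.Bk 1 x) ≠ ⊤ := by
  rw [lintegral_add_left E.meas]
  refine ENNReal.add_ne_top.2 ⟨ne_top_of_le_ne_top E.fin (setLIntegral_le_lintegral _ _), ?_⟩
  have h1 : ∫⁻ x in U, H194.Bk 1 x ≤ volume U := by
    rw [setLIntegral_congr_fun hU fun x hx => E.bk hx, setLIntegral_const, one_mul]
  exact ne_top_of_le_ne_top ((measure_mono E.ball).trans_lt measure_closedBall_lt_top).ne h1

/-- thin layers have small energy -/
theorem layer (E : ED p U L₀ A v N H H₁) (hU : MeasurableSet U) (i : Fin 3) (c : ℝ) {ε : ℝ}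
    (hε : 0 < ε) (N₀ : ℕ) : ∃ n ≥ N₀,
      ∫⁻ x in U ∩ {x | |x i - c| ≤ 1 / 2 ^ n}, (H x + H194.Bk 1 x) ≤ ENNReal.ofReal ε := by
  have hlim : Tendsto (fun n : ℕ => volume.restrict U {x : V | |x i - c| ≤ 1 / 2 ^ n})
      atTop (𝓝 0) := by
    have hup : ∀ n : ℕ, volume.restrict U {x : V | |x i - c| ≤ 1 / 2 ^ n} ≤
        ENNReal.ofReal (8 * (1 / 2) ^ n) := by
      intro n
      have hm : MeasurableSet {x : V | |x i - c| ≤ 1 / 2 ^ n} :=
        (isClosed_le (by fun_prop) continuous_const).measurableSet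
      rw [Measure.restrict_apply hm, inter_comm]
      have hsub : U ∩ {x : V | |x i - c| ≤ 1 / 2 ^ n} ⊆
          pi univ fun j => if j = i then Icc (c - 1 / 2 ^ n) (c + 1 / 2 ^ n) else Icc (-1) 1 := by
        rintro x ⟨hx, hx'⟩ j -
        have h3 : -(1 / 2 ^ n) ≤ x i - c ∧ x i - c ≤ 1 / 2 ^ n := abs_le.1 hx'
        by_cases hj : j = i
        · subst hj
          simp only [if_true]
          exact ⟨by linarith [h3.1], by linarith [h3.2]⟩
        · simp only [hj, if_false]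
          have h4 := mem_closedBall_zero_iff.1 (E.ball hx)
          have h5 := (norm_le_pi_norm x j).trans h4
          rw [Real.norm_eq_abs] at h5
          exact abs_le.1 h5
      refine (measure_mono hsub).trans ?_
      rw [volume_pi_pi]
      have e1 : (c + 1 / 2 ^ n - (c - 1 / 2 ^ n) : ℝ) = 2 * (1 / 2) ^ n := by
        rw [one_div_pow]
        ring
      have e3 : (1 - -1 : ℝ) = 2 := by norm_num
      have h6 : ∀ j, volume (if j = i then Icc (c - 1 / 2 ^ n) (c + 1 / 2 ^ n) else Icc (-1) 1) =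
          if j = i then ENNReal.ofReal (2 * (1 / 2) ^ n) else ENNReal.ofReal 2 := by
        intro j
        by_cases hj : j = i
        · rw [if_pos hj, if_pos hj, Real.volume_Icc, e1]
        · rw [if_neg hj, if_neg hj, Real.volume_Icc, e3]
      rw [Finset.prod_congr rfl fun j _ => h6 j]
      have e2 : ENNReal.ofReal (8 * (1 / 2) ^ n) =
          ENNReal.ofReal (2 * (1 / 2) ^ n) * (ENNReal.ofReal 2 * ENNReal.ofReal 2) := by
        rw [← ENNReal.ofReal_mul (by norm_num), ← ENNReal.ofReal_mul (by positivity)]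
        congr 1
        ring
      rw [e2]
      generalize ENNReal.ofReal (2 * (1 / 2) ^ n) = X
      generalize ENNReal.ofReal 2 = Y
      apply le_of_eq
      fin_cases i
      · simp [Fin.prod_univ_three, mul_assoc]
      · simp [Fin.prod_univ_three]
        ring
      · simp [Fin.prod_univ_three]
        ring
    refine tendsto_of_tendsto_of_tendsto_of_le_of_le tendsto_const_nhds ?_
      (fun n => zero_le) hup
    have h3 : Tendsto (fun n : ℕ => 8 * ((1:ℝ) / 2) ^ n) atTop (𝓝 (8 * 0)) :=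
      (tendsto_pow_atTop_nhds_zero_of_lt_one (by norm_num) (by norm_num)).const_mul 8
    have h4 := ENNReal.tendsto_ofReal h3
    simpa using h4
  have h5 := tendsto_setLIntegral_zero (E.fin_U hU) hlim
  have h6 := h5.eventually_le_const (ENNReal.ofReal_pos.2 hε)
  obtain ⟨n, hn, hnN⟩ := (h6.and (eventually_ge_atTop N₀)).exists
  refine ⟨n, hnN, ?_⟩
  have hm : MeasurableSet {x : V | |x i - c| ≤ 1 / 2 ^ n} :=
    (isClosed_le (by fun_prop) continuous_const).measurableSet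
  rw [Measure.restrict_restrict hm, inter_comm] at hn
  exact hn

end ED

end Vale.Agent.P073.H439.EN
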