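import Vale.Agent.P073.H439.EnB1
import Vale.Agent.P073.H16.RectB
import Vale.Agent.P073.H687.LenSeg
import Vale.Agent.P073.H687.PBa

/-!
# P073, block B10, rank one: **[EP-B]**, energies on the plane
-/

namespace Vale.Agent.P073.H439.EN

open MeasureTheory Set Filter Topology Metric Vale.Agent.P073.St Vale.Agent.P073.AB
open Vale.Agent.P073.SQ (ev)
open Vale.Agent.P073.H235
open Vale.Agent.P073.H73 (segP onSeg)
open Vale.Agent.P073.H194 (sInt fSum eInSq Sc sc_up up RgN Gen)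
open Vale.Agent.P073.H239 (enX EpB1 ll)
open Vale.Agent.P073.H253 (BVData rectN redgeN)
open Vale.Agent.P073.H333 (eInt_mono' eInt_mono_on)
open Vale.Agent.P073.H696 (HF R2)
open Vale.Agent.P073.H851 (M3)
open _root_.P073 (ConHomeo)
open _root_.P073.Net (len)
open scoped ENNReal

theorem norm_ev (i : Fin 3) : ‖(ev i : V)‖ ≤ 1 := by
  refine (pi_norm_le_iff_of_nonneg zero_le_one).2 fun j => ?_
  by_cases h : j = i
  · subst h; simp [ev]
  · simp [ev, h]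

/-- length of the edge, from the closeness of the derivatives -/
theorem len_edge_le {Ω Λ : Set V} {f : V → V} {F : V → Mat} {v : V} (rat : RatGood v Ω f F)
    (h : ConHomeo Ω Λ) {e : Idx × Fin 3} (he : edge v e ⊆ Ω) {b : ℝ} (hb : 0 ≤ b)
    (h1 : eInt v e (fun x => ENNReal.ofReal ‖lineDeriv ℝ h.toFun x (ev e.2) -
      cl (F x) (ev e.2)‖) ≤ ENNReal.ofReal (b / 2 ^ e.1.1)) :
    len (onSeg h.toFun (segP v e)) (Icc 0 1) ≤
      eInt v e (fun x => 2 * (‖cl (F x)‖ₑ + ENNReal.ofReal b)) := by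
  have h2 : eInt v e (fun x => ENNReal.ofReal ‖lineDeriv ℝ h.toFun x (ev e.2)‖) ≤
      eInt v e (fun x => ‖cl (F x)‖ₑ + ENNReal.ofReal b) := by
    have h3 : eInt v e (fun x => ENNReal.ofReal ‖lineDeriv ℝ h.toFun x (ev e.2)‖) ≤
        eInt v e (fun x => ENNReal.ofReal ‖lineDeriv ℝ h.toFun x (ev e.2) -
          cl (F x) (ev e.2)‖ + ENNReal.ofReal ‖cl (F x) (ev e.2)‖) := by
      refine eInt_mono' v e fun x => ?_
      rw [← ENNReal.ofReal_add (norm_nonneg _) (norm_nonneg _)]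
      refine ENNReal.ofReal_le_ofReal ?_
      have := norm_add_le (lineDeriv ℝ h.toFun x (ev e.2) - cl (F x) (ev e.2))
        (cl (F x) (ev e.2))
      rwa [sub_add_cancel] at this
    refine h3.trans ?_
    rw [S293.eInt_add]
    · rw [add_comm]
      have h4 : eInt v e (fun x => ‖cl (F x)‖ₑ + ENNReal.ofReal b) =
          eInt v e (fun x => ‖cl (F x)‖ₑ) + ENNReal.ofReal (b / 2 ^ e.1.1) := by
        rw [S293.eInt_add _ _ _ _ aemeasurable_const, eInt_const,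
          ← ENNReal.ofReal_mul hb]
        congr 2
        ring
      rw [h4]
      refine add_le_add (eInt_mono' v e fun x => ?_) h1
      rw [← ofReal_norm]
      refine ENNReal.ofReal_le_ofReal ?_
      calc ‖cl (F x) (ev e.2)‖ ≤ ‖cl (F x)‖ * ‖(ev e.2 : V)‖ := (cl (F x)).le_opNorm _
        _ ≤ ‖cl (F x)‖ * 1 := by
            gcongr
            exact norm_ev _
        _ = _ := mul_one _
    · have := S293.aemeas_pow rat he 0 1 1
      simpa using this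
  calc len (onSeg h.toFun (segP v e)) (Icc 0 1)
      ≤ 2 * eInt v e (fun x => ENNReal.ofReal ‖lineDeriv ℝ h.toFun x (ev e.2)‖) :=
        H687.len_onSeg_le h he
    _ ≤ 2 * eInt v e (fun x => ‖cl (F x)‖ₑ + ENNReal.ofReal b) := by gcongr
    _ = _ := by rw [S293.eInt_const_mul _ _ _ (by norm_num)]

/-- the energy of one edge -/
theorem ED.edge_term {p : ℝ} {U : Set V} {L₀ : V →L[ℝ] V} {v : V} {N : Set V}
    {H H₁ : V → ℝ≥0∞} {F : V → Mat} (E : ED p U L₀ (fun x => cl (F x)) v N H H₁)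
    {e : Idx × Fin 3} (he : edge v e ⊆ U) {b : ℝ} (hb1 : b ≤ 1) {ℓ : ℝ≥0∞}
    (hℓ : ℓ ≤ eInt v e (fun x => 2 * (‖cl (F x)‖ₑ + ENNReal.ofReal b))) :
    ENNReal.ofReal ((1 / 2 ^ e.1.1) ^ (1 - p)) * ℓ ^ p ≤
      ENNReal.ofReal (4 ^ p) * eInt v e (fun x => H x + H194.Bk 1 x) := by
  classical
  have hp := E.hp
  have hp0 : 0 ≤ p := by linarith
  refine (H687.term_le hp v e _ hℓ).trans ?_
  rw [← S293.eInt_const_mul _ _ _ ENNReal.ofReal_ne_top]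
  -- the representative
  set A' : V → ℝ≥0∞ := fun x => if x ∈ N then ⊤ else
    ENNReal.ofReal (4 ^ p) * (H x + H194.Bk 1 x) with hA'
  set B' : V → ℝ≥0∞ := fun x => if x ∈ N then 0 else
    (2 * (‖cl (F x)‖ₑ + ENNReal.ofReal b)) ^ p with hB'
  have h2 : eInt v e (fun x => (2 * (‖cl (F x)‖ₑ + ENNReal.ofReal b)) ^ p) = eInt v e B' :=
    (E.rep _ _ fun x hx => by rw [hB']; simp [hx]).1 _
  rw [h2]
  refine eInt_mono_on fun x hx => ?_
  by_cases hN : x ∈ N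
  · simp only [hB', hN, if_true]
    exact zero_le
  · simp only [hB', hN, if_false]
    have hU := he hx
    rw [E.eq x hU hN, E.bk hU]
    have h4 : ENNReal.ofReal (4 ^ p) = 2 ^ p * 2 ^ p := by
      rw [← ENNReal.mul_rpow_of_nonneg _ _ hp0, ← ENNReal.ofReal_rpow_of_pos (by norm_num)]
      congr 1
      rw [show (2:ℝ≥0∞) * 2 = ENNReal.ofReal 4 by
        rw [show (4:ℝ) = 2 * 2 by norm_num, ENNReal.ofReal_mul (by norm_num)]
        norm_num]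
    have h5 : (2:ℝ≥0∞) ^ (p - 1) ≤ 2 ^ p :=
      ENNReal.rpow_le_rpow_of_exponent_le (by norm_num) (by linarith)
    calc (2 * (‖cl (F x)‖ₑ + ENNReal.ofReal b)) ^ p
        = 2 ^ p * (‖cl (F x)‖ₑ + ENNReal.ofReal b) ^ p := ENNReal.mul_rpow_of_nonneg _ _ hp0
      _ ≤ 2 ^ p * (‖cl (F x)‖ₑ + 1) ^ p := by
          gcongr
          rw [← ENNReal.ofReal_one]
          exact ENNReal.ofReal_le_ofReal hb1
      _ ≤ 2 ^ p * (2 ^ (p - 1) * (‖cl (F x)‖ₑ ^ p + 1 ^ p)) := by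
          gcongr
          exact ENNReal.rpow_add_le_mul_rpow_add_rpow _ _ hp
      _ ≤ 2 ^ p * (2 ^ p * (‖cl (F x)‖ₑ ^ p + 1)) := by
          rw [ENNReal.one_rpow]
          gcongr
      _ = _ := by rw [h4, mul_assoc]

/-- the fine edges in the strips are edges of coarse squares in the strips (helper333) -/
theorem strip_cover {i : Fin 3} {m n : ℕ} {v : V} {ν : ℝ} (hν : 1 / 2 ^ m ≤ ν)
    {κ k : Fin 3 → ℤ} (hmn : m ≤ n) (hk : k ∈ eInSq ((m, κ), 1) n i)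
    (h : v 0 + k 0 / 2 ^ n ≤ 4 * ν ∨ 1 - 4 * ν ≤ v 0 + k 0 / 2 ^ n) :
    v 0 + κ 0 / 2 ^ m ≤ 5 * ν ∨ 1 - 5 * ν ≤ v 0 + κ 0 / 2 ^ m := by
  obtain ⟨h1, h2⟩ := H687.eInSq_pos hmn hk (j := 0) (by decide)
  have h3 : ((κ 0 : ℝ) + 1) / 2 ^ m = κ 0 / 2 ^ m + 1 / 2 ^ m := add_div _ _ _
  rcases h with h | h
  · left; linarith
  · right; linarith

theorem up_self (m : ℕ) (α : Fin 3 → ℤ) : up m m α = α := by
  funext j
  show 2 ^ (m - m) * α j = α j
  simp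

/-- **[EP-B]** -/
theorem specEpB {p : ℝ} (hp : 1 ≤ p) : H239.SpecEpB p := by
  classical
  have h2p : (0:ℝ) < 2 ^ p := by positivity
  have h4p : (0:ℝ) < 4 ^ p := by positivity
  refine ⟨2 * (4 ^ p * (41 * 2 ^ p + 1)), by positivity, ?_⟩
  intro θ₁ θ₂ ν κ m₀ Λ f F D α β hθ₁ hθ₁' hθ₂ hθ₂' hν hν' hκ hm₀ hα hlt hR hs0 hs2
  have E := ED.of_beam hp hθ₁' hθ₂' D
  have hνθ : 0 < ν * θ₂ := mul_pos hν hθ₂
  set G : V → ℝ≥0∞ := fun x => D.H x + H194.Bk 1 x with hG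
  have hgen : Gen D.v D.nn G := (D.gk 1).1
  set Q : Finset (Fin 3 → ℤ) := rectN 1 α β with hQ
  set c' : ℝ := ν * θ₂ / (Q.card + 1) with hc'
  have hc'p : 0 < c' := by positivity
  have hev : ∀ᶠ l in atTop, ∀ κ ∈ Q, ∀ i ∈ Finset.univ.erase (1 : Fin 3),
      fSum D.v ((m₀, κ), 1) (D.nn l) i G ≤ sInt D.v ((m₀, κ), 1) G + ENNReal.ofReal c' := by
    rw [Filter.eventually_all_finset]
    intro κ _
    rw [Filter.eventually_all_finset]
    intro i hi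
    exact hgen.square ((m₀, κ), 1) i (Finset.ne_of_mem_erase hi) _
      (ENNReal.ofReal_pos.2 hc'p).ne'
  obtain ⟨l₀, hl₀⟩ := Filter.eventually_atTop.1 hev
  refine ⟨l₀, 1, one_pos, fun l hl hml Cu Lc δ j ε X b hb hb1 hedge => ?_⟩
  set n := D.nn l with hn
  have hsc : Sc m₀ n α β (up m₀ n α) (up m₀ n β) := sc_up hml α β
  have hsc0 : Sc m₀ m₀ α β α β := by
    have := sc_up (le_refl m₀) α β
    rwa [up_self, up_self] at this
  have hsqU : ∀ κ ∈ Q, squ D.v ((m₀, κ), 1) ⊆ Bx (bm θ₁ θ₂) := fun κ hκ =>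
    (H194.squ_sub_RgN hsc0 hκ).trans hR
  -- energy of a family of squares
  have hS : ∀ Q' ⊆ Q, ∀ s : ℝ, (Q'.card : ℝ) / 4 ^ m₀ ≤ s →
      ∑ κ ∈ Q', sInt D.v ((m₀, κ), 1) G ≤ ENNReal.ofReal (2 ^ p * (ν * θ₂ + s)) := by
    intro Q' hQ' s hs
    have hs0 : 0 ≤ s := le_trans (by positivity) hs
    have h1 : ∑ κ ∈ Q', sInt D.v ((m₀, κ), 1) D.H₁ ≤ ENNReal.ofReal κ := by
      refine D.slice Q' fun k hk => ⟨?_, hsqU k (hQ' hk)⟩
      have := (H194.mem_rectN.1 (hQ' hk)).1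
      rw [this, hα]
    calc ∑ κ ∈ Q', sInt D.v ((m₀, κ), 1) G
        ≤ ∑ κ ∈ Q', ENNReal.ofReal (2 ^ p) * (sInt D.v ((m₀, κ), 1) D.H₁ +
            ENNReal.ofReal (1 / 4 ^ m₀)) :=
          Finset.sum_le_sum fun k hk => E.squ_le (s := ((m₀, k), 1)) (hsqU k (hQ' hk))
      _ = ENNReal.ofReal (2 ^ p) * ((∑ κ ∈ Q', sInt D.v ((m₀, κ), 1) D.H₁) +
            ENNReal.ofReal ((Q'.card : ℝ) / 4 ^ m₀)) := by
          rw [← Finset.mul_sum, Finset.sum_add_distrib, sum_scale']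
      _ ≤ ENNReal.ofReal (2 ^ p) * (ENNReal.ofReal (ν * θ₂) + ENNReal.ofReal s) := by
          gcongr
          exact h1.trans (ENNReal.ofReal_le_ofReal hκ)
      _ = _ := by
          rw [← ENNReal.ofReal_add hνθ.le hs0, ← ENNReal.ofReal_mul h2p.le]
  -- one direction
  have hdir : ∀ i, i ≠ 1 → ∀ T ⊆ redgeN 1 (up m₀ n α) (up m₀ n β) i, ∀ Q' ⊆ Q,
      (∀ k ∈ T, ∃ κ ∈ Q', k ∈ eInSq ((m₀, κ), 1) n i) → ∀ s : ℝ,
      (Q'.card : ℝ) / 4 ^ m₀ ≤ s →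
      ∑ k ∈ T, ENNReal.ofReal (1 / 2 ^ n) * (ENNReal.ofReal ((1 / 2 ^ n) ^ (1 - p)) *
        ll D.v X.h₁.toFun ((n, k), i) ^ p) ≤
        ENNReal.ofReal (4 ^ p * (2 ^ p * (ν * θ₂ + s) + ν * θ₂)) := by
    intro i hi T hT Q' hQ' hTQ s hs
    have hs0 : 0 ≤ s := le_trans (by positivity) hs
    have h1 : ∀ k ∈ T, ENNReal.ofReal (1 / 2 ^ n) * (ENNReal.ofReal ((1 / 2 ^ n) ^ (1 - p)) *
        ll D.v X.h₁.toFun ((n, k), i) ^ p) ≤ ENNReal.ofReal (4 ^ p) *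
          (ENNReal.ofReal (1 / 2 ^ n) * eInt D.v ((n, k), i) G) := by
      intro k hk
      have he : edge D.v ((n, k), i) ⊆ Bx (bm θ₁ θ₂) :=
        (H194.edge_sub_RgN hsc hi (hT hk)).trans hR
      have h2 := len_edge_le D.rat X.h₁ he hb.le (hedge i hi k (hT hk))
      have h3 := E.edge_term he hb1 h2
      calc ENNReal.ofReal (1 / 2 ^ n) * (ENNReal.ofReal ((1 / 2 ^ n) ^ (1 - p)) *
            ll D.v X.h₁.toFun ((n, k), i) ^ p)
          ≤ ENNReal.ofReal (1 / 2 ^ n) * (ENNReal.ofReal (4 ^ p) *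
            eInt D.v ((n, k), i) G) := mul_le_mul' le_rfl h3
        _ = _ := mul_left_comm _ _ _
    calc ∑ k ∈ T, ENNReal.ofReal (1 / 2 ^ n) * (ENNReal.ofReal ((1 / 2 ^ n) ^ (1 - p)) *
          ll D.v X.h₁.toFun ((n, k), i) ^ p)
        ≤ ∑ k ∈ T, ENNReal.ofReal (4 ^ p) *
          (ENNReal.ofReal (1 / 2 ^ n) * eInt D.v ((n, k), i) G) := Finset.sum_le_sum h1
      _ = ENNReal.ofReal (4 ^ p) *
          ∑ k ∈ T, ENNReal.ofReal (1 / 2 ^ n) * eInt D.v ((n, k), i) G := by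
          rw [← Finset.mul_sum]
      _ ≤ ENNReal.ofReal (4 ^ p) * ∑ κ ∈ Q', fSum D.v ((m₀, κ), 1) n i G := by
          gcongr
          exact H194.sum_edges_le G hTQ
      _ ≤ ENNReal.ofReal (4 ^ p) * ∑ κ ∈ Q', (sInt D.v ((m₀, κ), 1) G +
            ENNReal.ofReal c') := by
          gcongr with κ hκ
          exact hl₀ l hl κ (hQ' hκ) i (Finset.mem_erase.2 ⟨hi, Finset.mem_univ _⟩)
      _ ≤ ENNReal.ofReal (4 ^ p) * (ENNReal.ofReal (2 ^ p * (ν * θ₂ + s)) +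
            ENNReal.ofReal (ν * θ₂)) := by
          rw [Finset.sum_add_distrib]
          gcongr
          · exact hS Q' hQ' s hs
          · rw [Finset.sum_const, nsmul_eq_mul, ← ENNReal.ofReal_natCast,
              ← ENNReal.ofReal_mul (by positivity)]
            refine ENNReal.ofReal_le_ofReal ?_
            have h5 : (Q'.card : ℝ) ≤ Q.card := by exact_mod_cast Finset.card_le_card hQ'
            rw [hc']
            have h6 : (0:ℝ) < Q.card + 1 := by positivity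
            rw [mul_div_assoc', div_le_iff₀ h6]
            nlinarith
      _ = _ := by
          rw [← ENNReal.ofReal_add (by positivity) hνθ.le, ← ENNReal.ofReal_mul h4p.le]
  -- numbers of squares
  have hcnt := H16.specCountB D.v m₀ m₀ α β (2 * θ₂) le_rfl hlt hs0 hs2
  rw [up_self, up_self] at hcnt
  obtain ⟨hc1, hc2, -⟩ := hcnt
  have hcard2 : (Finset.univ.erase (1 : Fin 3)).card = 2 := by decide
  have hcor : ∀ x ∈ RgN 1 D.v m₀ α β, 0 < x 0 ∧ x 0 < 1 := fun x hx => (hR hx) 0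
  have hA : 0 ≤ D.v 0 + α 0 / 2 ^ m₀ := by
    have h1 : (fun j => D.v j + α j / 2 ^ m₀ : V) ∈ RgN 1 D.v m₀ α β := by
      refine ⟨rfl, fun j hj => ⟨le_rfl, ?_⟩⟩
      have := hlt j hj
      have h2 : (α j : ℝ) ≤ β j := by exact_mod_cast this.le
      show D.v j + α j / 2 ^ m₀ ≤ D.v j + β j / 2 ^ m₀
      gcongr
    exact (hcor _ h1).1.le
  have hB : D.v 0 + β 0 / 2 ^ m₀ ≤ 1 := by
    have h1 : (fun j => D.v j + (if j = 1 then (α j : ℝ) else β j) / 2 ^ m₀ : V) ∈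
        RgN 1 D.v m₀ α β := by
      refine ⟨by simp, fun j hj => ?_⟩
      simp only [hj, if_false]
      have := hlt j hj
      have h2 : (α j : ℝ) ≤ β j := by exact_mod_cast this.le
      exact ⟨by gcongr, le_rfl⟩
    have h2 := (hcor _ h1).2
    simpa using h2.le
  have hcover : ∀ i, i ≠ 1 → ∀ k ∈ redgeN 1 (up m₀ n α) (up m₀ n β) i,
      ∃ κ ∈ Q, k ∈ eInSq ((m₀, κ), 1) n i := fun i hi k hk => H194.redge_cover hsc hi hlt hk
  refine ⟨?_, ?_⟩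
  · have h1 : ∀ i ∈ Finset.univ.erase (1 : Fin 3),
        ∑ k ∈ redgeN 1 (up m₀ n α) (up m₀ n β) i, ENNReal.ofReal (1 / 2 ^ n) *
          (ENNReal.ofReal ((1 / 2 ^ n) ^ (1 - p)) * ll D.v X.h₁.toFun ((n, k), i) ^ p) ≤
        ENNReal.ofReal (4 ^ p * (2 ^ p * (ν * θ₂ + 2 * θ₂) + ν * θ₂)) := fun i hi =>
      hdir i (Finset.ne_of_mem_erase hi) _ (Finset.Subset.refl _) Q (Finset.Subset.refl _)
        (hcover i (Finset.ne_of_mem_erase hi)) _ hc1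
    refine (Finset.sum_le_card_nsmul _ _ _ h1).trans ?_
    rw [hcard2, nsmul_eq_mul, Nat.cast_ofNat, show (2:ℝ≥0∞) = ENNReal.ofReal 2 by norm_num,
      ← ENNReal.ofReal_mul (by norm_num)]
    refine ENNReal.ofReal_le_ofReal ?_
    have h3 : ν * θ₂ ≤ θ₂ := by nlinarith
    have h4 : 2 ^ p * (ν * θ₂ + 2 * θ₂) + ν * θ₂ ≤ (41 * 2 ^ p + 1) * θ₂ := by nlinarith
    calc 2 * (4 ^ p * (2 ^ p * (ν * θ₂ + 2 * θ₂) + ν * θ₂))
        ≤ 2 * (4 ^ p * ((41 * 2 ^ p + 1) * θ₂)) := by gcongr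
      _ = _ := by ring
  · set Q' : Finset (Fin 3 → ℤ) := Q.filter fun k =>
      D.v 0 + k 0 / 2 ^ m₀ ≤ 5 * ν ∨ 1 - 5 * ν ≤ D.v 0 + k 0 / 2 ^ m₀ with hQ'
    have hc3 : (Q'.card : ℝ) / 4 ^ m₀ ≤ 40 * (ν * θ₂) := by
      have h1 := hc2 (5 * ν) (by linarith) hA hB
      refine le_trans (le_of_eq ?_) (h1.trans (le_of_eq (by ring)))
      congr 3
    have h1 : ∀ i ∈ Finset.univ.erase (1 : Fin 3),
        ∑ k ∈ redgeN 1 (up m₀ n α) (up m₀ n β) i with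
          D.v 0 + k 0 / 2 ^ n ≤ 4 * ν ∨ 1 - 4 * ν ≤ D.v 0 + k 0 / 2 ^ n,
          ENNReal.ofReal (1 / 2 ^ n) *
          (ENNReal.ofReal ((1 / 2 ^ n) ^ (1 - p)) * ll D.v X.h₁.toFun ((n, k), i) ^ p) ≤
        ENNReal.ofReal (4 ^ p * (2 ^ p * (ν * θ₂ + 40 * (ν * θ₂)) + ν * θ₂)) := by
      intro i hi
      refine hdir i (Finset.ne_of_mem_erase hi) _ (Finset.filter_subset _ _) Q'
        (Finset.filter_subset _ _) (fun k hk => ?_) _ hc3
      obtain ⟨hk1, hk2⟩ := Finset.mem_filter.1 hk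
      obtain ⟨κ', hκ', hκk⟩ := hcover i (Finset.ne_of_mem_erase hi) k hk1
      exact ⟨κ', Finset.mem_filter.2 ⟨hκ', strip_cover hm₀ hml hκk hk2⟩, hκk⟩
    refine (Finset.sum_le_card_nsmul _ _ _ h1).trans ?_
    rw [hcard2, nsmul_eq_mul, Nat.cast_ofNat, show (2:ℝ≥0∞) = ENNReal.ofReal 2 by norm_num,
      ← ENNReal.ofReal_mul (by norm_num)]
    refine ENNReal.ofReal_le_ofReal (le_of_eq (by ring))

end Vale.Agent.P073.H439.EN
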