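import Vale.Agent.P073.H732.Dvar1
import Vale.Agent.P073.H190.ColB3
import Vale.Agent.P073.H333.NetInC

/-!
# P073, P2h (exponent two, rank three): [OWN-W11], the own edges after the retractions and the
collapse

`h₀` is close to the affine map in `W^{1,1}` on the edge, `h'` (after the retractions) is `h₀` or in
one of the neck cubes, `h₁ = T ∘ h'`, where `T` is helper190's collapse.
-/

namespace Vale.Agent.P073.H439

open MeasureTheory Set Filter Topology Metric Vale.Agent.P073.AB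
open Vale.Agent.P073.St (V Mat)
open Vale.Agent.P073.SQ (ev)
open Vale.Agent.P073.H190 (IsColB)
open Vale.Agent.P073.H333 (dvar_one len_le_sub)
open _root_.P073 (ConHomeo ConicalOn)
open _root_.P073.Gauge (gam dvar)
open _root_.P073.Gauge.C110 (mem_edge_iff)
open scoped ENNReal NNReal

variable {Ω Λ Λ' : Set V}

theorem isCompact_edge (v : V) (e : Idx × Fin 3) : IsCompact (edge v e) := by
  have h : edge v e = gam v e '' Icc 0 1 := by
    ext x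
    rw [mem_edge_iff]
    exact ⟨fun ⟨s, hs, h⟩ => ⟨s, hs, h.symm⟩, fun ⟨s, hs, h⟩ => ⟨s, hs, h.symm⟩⟩
  rw [h]
  exact isCompact_Icc.image (H732.continuous_gam v e)

/-- the length of a conical homeomorphism on an edge is finite -/
theorem dvar_ne_top (h : ConHomeo Ω Λ) {v : V} {e : Idx × Fin 3} (he : edge v e ⊆ Ω) (w : V) :
    dvar 1 h.toFun v e w ≠ ⊤ := by
  have h1 := H732.conical_integrable (H732.conical_edge h he)
  have h2 : IntegrableOn (fun t => deriv (fun s => h.toFun (gam v e s)) t - w) (Icc (0:ℝ) 1) :=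
    h1.sub (integrableOn_const (by simp))
  have h3 := h2.norm.lintegral_lt_top
  unfold dvar
  simp_rw [Real.rpow_one]
  exact h3.ne

/-- the Lipschitz constant of the collapse in the neck cubes can be chosen such that the parts of
finitely many edges in the neck cubes become short -/
theorem exists_l0 (h' : ConHomeo Ω Λ) {v : V} (S : Finset (Idx × Fin 3))
    (hS : ∀ e ∈ S, edge v e ⊆ Ω) {b : ℝ≥0∞} (hb : 0 < b) :
    ∃ l₀ : ℝ, 0 < l₀ ∧ ∀ l ≤ l₀, ∀ e ∈ S, ENNReal.ofReal l * dvar 1 h'.toFun v e 0 ≤ b := by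
  have hlim : ∀ e ∈ S, Tendsto (fun l : ℝ => ENNReal.ofReal l * dvar 1 h'.toFun v e 0)
      (𝓝[>] 0) (𝓝 0) := by
    intro e he
    have h1 : Tendsto (fun l : ℝ => ENNReal.ofReal l) (𝓝[>] 0) (𝓝 0) := by
      have h2 := (ENNReal.continuous_ofReal.tendsto 0)
      rw [ENNReal.ofReal_zero] at h2
      exact h2.mono_left nhdsWithin_le_nhds
    have h3 := ENNReal.Tendsto.mul_const (b := dvar 1 h'.toFun v e 0) h1
      (Or.inr (dvar_ne_top h' (hS e he) 0))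
    rwa [zero_mul] at h3
  have hev : ∀ᶠ l in 𝓝[>] (0:ℝ), ∀ e ∈ S, ENNReal.ofReal l * dvar 1 h'.toFun v e 0 ≤ b := by
    rw [eventually_all_finset]
    intro e he
    exact ((hlim e he).eventually (gt_mem_nhds hb)).mono fun l hl => hl.le
  obtain ⟨l₀, h1, h2⟩ := (hev.and self_mem_nhdsWithin).exists
  refine ⟨l₀, h2, fun l hl e he => le_trans ?_ (h1 e he)⟩
  gcongr

/-- **[OWN-W11]**, one edge -/
theorem own_edge {ι : Type*} {b : ι → Fin 3 → ℝ} {r : ι → ℝ} {Dd : (Fin 3 → ℝ) → ℝ} {J : Finset ι}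
    {ε l₀ : ℝ} {T : (Fin 3 → ℝ) → Fin 3 → ℝ} (HT : IsColB b r Dd J ε l₀ T) (hε : 0 ≤ ε)
    (hl : 0 ≤ l₀) (h₀ h' : ConHomeo Ω Λ) (h₁ : ConHomeo Ω Λ') {v : V} {e : Idx × Fin 3}
    (he : edge v e ⊆ Ω) (h1 : ∀ x ∈ edge v e, h₁.toFun x = T (h'.toFun x))
    (h2 : ∀ x ∈ edge v e, h'.toFun x = h₀.toFun x ∨ ∃ j ∈ J, h'.toFun x ∈ ball (b j) (r j))
    (hd : ∀ j ∈ J, ∀ j' ∈ J, j ≠ j' → Disjoint (ball (b j) (r j)) (ball (b j') (r j')))
    {w : V} {α β γ : ℝ} (hα : 0 ≤ α) (hβ : 0 ≤ β)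
    (ha : dvar 1 h₀.toFun v e w ≤ ENNReal.ofReal α)
    (hb : ENNReal.ofReal l₀ * dvar 1 h'.toFun v e 0 ≤ ENNReal.ofReal β)
    (hc : ‖h₁.toFun (gam v e 1) - h₁.toFun (gam v e 0) - w‖ ≤ γ) :
    dvar 1 h₁.toFun v e w ≤
      ENNReal.ofReal (3 * (2 * ((1 + 2 * (96 * ε)) * α + 2 * (96 * ε) * ‖w‖ + β) + γ)) := by
  classical
  have hcpt := isCompact_edge v e
  set U : {j // j ∈ J} → Set V := fun j => {x | x ∈ edge v e ∧ h'.toFun x ∈ ball (b j) (r j)}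
    with hUdef
  have hUm : ∀ j, MeasurableSet (U j) := by
    intro j
    obtain ⟨O, hO, hO'⟩ := (_root_.continuousOn_iff'.1 (h'.cont.mono he)) (ball (b j) (r j)) isOpen_ball
    have : U j = O ∩ edge v e := by
      rw [← hO']
      ext x
      exact and_comm
    rw [this]
    exact hO.measurableSet.inter hcpt.measurableSet
  have hUd : Pairwise (Function.onFun Disjoint U) := by
    intro j j' hjj
    rw [Function.onFun, disjoint_left]
    intro x hx hx'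
    exact disjoint_left.1 (hd j j.2 j' j'.2 fun h => hjj (Subtype.ext h)) hx.2 hx'.2
  have hsmall := H732.small_edge h' h₁ he hUm hUd hl fun j x hx y hy => by
    rw [h1 x hx.2, h1 y hy.2]
    have hx1 := hx.1.2
    have hy1 := hy.1.2
    rw [mem_ball, dist_eq_norm] at hx1 hy1
    exact HT.sq j j.2 _ hx1.le _ hy1.le
  refine H732.dvar1_edge (h₀ := h₀) (h₁ := h₁) he (T := T) (η := 96 * ε) (by positivity) ?_
    (U := ⋃ j, U j) (MeasurableSet.iUnion hUm) ?_ hα hβ ha (hsmall.trans hb) hc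
  · intro y y' i
    refine (HT.lip y y' i).trans ?_
    have : (1 + 48 * ε) * |y i - y' i| ≤ (1 + 96 * ε) * |y i - y' i| := by
      gcongr
      norm_num
    linarith
  · intro x hx hxU
    rw [h1 x hx]
    rcases h2 x hx with h3 | ⟨j, hj, hxj⟩
    · rw [h3]
    · exact absurd (mem_iUnion.2 ⟨(⟨j, hj⟩ : {j // j ∈ J}), (⟨hx, hxj⟩ : x ∈ U ⟨j, hj⟩)⟩) hxU

/-- **[OWN-W11]**, one edge of generation `N`, in the form of the hypotheses on a good cell -/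
theorem own_edge_eInt {ι : Type*} {b : ι → Fin 3 → ℝ} {r : ι → ℝ} {Dd : (Fin 3 → ℝ) → ℝ}
    {J : Finset ι} {ε l₀ : ℝ} {T : (Fin 3 → ℝ) → Fin 3 → ℝ} (HT : IsColB b r Dd J ε l₀ T)
    (hε : 0 ≤ ε) (hl : 0 ≤ l₀) (h₀ h' : ConHomeo Ω Λ) (h₁ : ConHomeo Ω Λ') {v : V}
    {e : Idx × Fin 3} (he : edge v e ⊆ Ω) (h1 : ∀ x ∈ edge v e, h₁.toFun x = T (h'.toFun x))
    (h2 : ∀ x ∈ edge v e, h'.toFun x = h₀.toFun x ∨ ∃ j ∈ J, h'.toFun x ∈ ball (b j) (r j))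
    (hd : ∀ j ∈ J, ∀ j' ∈ J, j ≠ j' → Disjoint (ball (b j) (r j)) (ball (b j') (r j')))
    {A : V → V} {L : V →L[ℝ] V} {M : ℝ} (haff : ∀ x y, A y - A x = L (y - x))
    (habove : ∀ w, ‖L w‖ ≤ M * ‖w‖) {α β γ : ℝ} (hα : 0 ≤ α) (hβ : 0 ≤ β)
    (ha : eInt v e (fun x => ENNReal.ofReal ‖lineDeriv ℝ h₀.toFun x (ev e.2) - L (ev e.2)‖) ≤
      ENNReal.ofReal (α / 2 ^ e.1.1))
    (hb : ENNReal.ofReal l₀ * dvar 1 h'.toFun v e 0 ≤ ENNReal.ofReal (β / 2 ^ e.1.1))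
    (hc0 : ‖h₁.toFun (gam v e 0) - A (gam v e 0)‖ ≤ γ / 2 ^ e.1.1)
    (hc1 : ‖h₁.toFun (gam v e 1) - A (gam v e 1)‖ ≤ γ / 2 ^ e.1.1) :
    eInt v e (fun x => ENNReal.ofReal ‖lineDeriv ℝ h₁.toFun x (ev e.2) - L (ev e.2)‖) ≤
      ENNReal.ofReal (3 * (2 * ((1 + 2 * (96 * ε)) * α + 2 * (96 * ε) * M + β) + 2 * γ) /
        2 ^ e.1.1) := by
  have hp : (0:ℝ) < 2 ^ e.1.1 := by positivity
  have hw : L ((1 / 2 ^ e.1.1 : ℝ) • ev e.2) = (1 / 2 ^ e.1.1 : ℝ) • L (ev e.2) := map_smul _ _ _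
  rw [← dvar_one] at ha ⊢
  have hM0 : 0 ≤ M := by
    have h3 := (norm_nonneg _).trans (habove (ev 0))
    have h4 : ‖ev (0 : Fin 3)‖ = 1 := by
      rw [ev, Pi.norm_single]
      simp
    rwa [h4, mul_one] at h3
  have hev : ‖ev e.2‖ = 1 := by
    rw [ev, Pi.norm_single]
    simp
  have hwn : ‖(1 / 2 ^ e.1.1 : ℝ) • L (ev e.2)‖ ≤ M / 2 ^ e.1.1 := by
    rw [norm_smul, Real.norm_of_nonneg (by positivity)]
    have := habove (ev e.2)
    rw [hev, mul_one] at this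
    calc 1 / 2 ^ e.1.1 * ‖L (ev e.2)‖ ≤ 1 / 2 ^ e.1.1 * M := by gcongr
      _ = _ := by ring
  have hc : ‖h₁.toFun (gam v e 1) - h₁.toFun (gam v e 0) - (1 / 2 ^ e.1.1 : ℝ) • L (ev e.2)‖ ≤
      2 * γ / 2 ^ e.1.1 := by
    have e1 : A (gam v e 1) - A (gam v e 0) = (1 / 2 ^ e.1.1 : ℝ) • L (ev e.2) := by
      rw [haff, ← hw]
      congr 1
      simp [gam]
    have e2 : h₁.toFun (gam v e 1) - h₁.toFun (gam v e 0) - (1 / 2 ^ e.1.1 : ℝ) • L (ev e.2) =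
        (h₁.toFun (gam v e 1) - A (gam v e 1)) - (h₁.toFun (gam v e 0) - A (gam v e 0)) := by
      rw [← e1]; abel
    rw [e2]
    refine (norm_sub_le _ _).trans ?_
    calc _ ≤ γ / 2 ^ e.1.1 + γ / 2 ^ e.1.1 := add_le_add hc1 hc0
      _ = _ := by ring
  have hkey := own_edge HT hε hl h₀ h' h₁ he h1 h2 hd (w := (1 / 2 ^ e.1.1 : ℝ) • L (ev e.2))
    (div_nonneg hα hp.le) (div_nonneg hβ hp.le) ha hb hc
  refine hkey.trans (ENNReal.ofReal_le_ofReal ?_)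
  have hε' : 0 ≤ 2 * (96 * ε) := by positivity
  calc 3 * (2 * ((1 + 2 * (96 * ε)) * (α / 2 ^ e.1.1) +
        2 * (96 * ε) * ‖(1 / 2 ^ e.1.1 : ℝ) • L (ev e.2)‖ + β / 2 ^ e.1.1) + 2 * γ / 2 ^ e.1.1)
      ≤ 3 * (2 * ((1 + 2 * (96 * ε)) * (α / 2 ^ e.1.1) +
        2 * (96 * ε) * (M / 2 ^ e.1.1) + β / 2 ^ e.1.1) + 2 * γ / 2 ^ e.1.1) := by
        gcongr
    _ = _ := by ring

/-- from the fine edges to a coarse edge -/
theorem own_coarse {h₁ : V → V} {L : V →L[ℝ] V} {v : V} {e : Idx × Fin 3} {d : ℕ} {η : ℝ}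
    (h : ∀ j < 2 ^ d, eInt v (subEdge e d j)
      (fun x => ENNReal.ofReal ‖lineDeriv ℝ h₁ x (ev e.2) - L (ev e.2)‖) ≤
        ENNReal.ofReal (η / 2 ^ (e.1.1 + d))) :
    eInt v e (fun x => ENNReal.ofReal ‖lineDeriv ℝ h₁ x (ev e.2) - L (ev e.2)‖) ≤
      ENNReal.ofReal (η / 2 ^ e.1.1) :=
  len_le_sub v e d _ h

end Vale.Agent.P073.H439
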