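import Vale.Agent.P073.H234.Cleaned
import Vale.Agent.P073.H439.CloseLoc
import Vale.Agent.P073.AB.Graph907

/-!
# P073, P2h (exponent two, rank three): [K0], lattice facts for the selected squares
-/

namespace Vale.Agent.P073.H439

open MeasureTheory Set Filter Topology Metric Vale.Agent.P073.St Vale.Agent.P073.AB
open Vale.Agent.P073.SQ (ev)
open Vale.Agent.P073.AB.P86 (rel)
open Vale.Agent.P073.H234
open _root_.P073.Net (dyc dyo)
open _root_.P073 (ConBall ConHomeo)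
open scoped ENNReal

variable {v : V} {m j n N : ℕ}

/-- a tile which touches a good cell is in the big cube -/
theorem touch_sub {z Z u : Fin 3 → ℤ} (hz : dyc v n z ⊆ dyo v m Z) (hmN : m ≤ N)
    (h : Touch v n N z u) : dyc v N u ⊆ dyc v m Z := by
  obtain ⟨x, hx, hxz⟩ := h
  exact _root_.P073.Net.NC.dyc_sub (_root_.P073.Net.NC.fine_sub hmN (hz hxz) hx)

theorem touch_near {z u : Fin 3 → ℤ} (h : Touch v n N z u) {x : V} (hx : x ∈ dyc v N u) :
    ∃ y ∈ dyc v n z, ‖x - y‖ ≤ 1 / 2 ^ N := by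
  obtain ⟨y, hy, hyz⟩ := h
  exact ⟨y, hyz, H234.dyc_dist hx hy⟩

/-- selected squares are clean -/
theorem sel_clean {J' : Finset (Fin 3 → ℤ)} {π : (Fin 3 → ℤ) → Fin 3 → ℤ}
    (hsub : ∀ z ∈ J', dyc v n z ⊆ dyo v m (π z)) (hmN : m ≤ N) {s : Idx × Fin 3}
    (hs : Sel v (m + j) n N J' s) : ∃ z ∈ J', Clean v m j (π z) s := by
  obtain ⟨h0, z, hz, u, u', hu, hu', h1, h2⟩ := hs
  exact ⟨z, hz, h0, h1.trans (touch_sub (hsub z hz) hmN hu),
    h2.trans (touch_sub (hsub z hz) hmN hu')⟩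

/-- the lattice squares in a good cell are selected, and clean -/
theorem sel_of_cell {J' : Finset (Fin 3 → ℤ)} {z : Fin 3 → ℤ} (hz : z ∈ J') (hNj : N ≤ m + j)
    {t : Idx × Fin 3} (ht : t.1.1 = m + j) (hsub : squ v t ⊆ dyc v n z) :
    Sel v (m + j) n N J' t := by
  obtain ⟨u, hu⟩ := Gr.exists_ancestor' v hNj t.1.2
  obtain ⟨u', hu'⟩ := Gr.exists_ancestor' v hNj (dn t)
  have hx : pt v t.1.1 t.1.2 ∈ squ v t := pt_mem_squ t
  have h1 : pt v t.1.1 t.1.2 ∈ dyc v (m + j) t.1.2 := by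
    have := squ_sub_up hx
    rwa [ht] at this ⊢
  have h2 : pt v t.1.1 t.1.2 ∈ dyc v (m + j) (dn t) := by
    have := squ_sub_dn hx
    rwa [ht] at this ⊢
  exact ⟨ht, z, hz, u, u', ⟨_, hu h1, hsub hx⟩, ⟨_, hu' h2, hsub hx⟩, hu, hu'⟩

theorem clean_of_cell {z Z : Fin 3 → ℤ} (hz : dyc v n z ⊆ dyo v m Z)
    {t : Idx × Fin 3} (ht : t.1.1 = m + j) (hsub : squ v t ⊆ dyc v n z) :
    Clean v m j Z t := by
  have hx : pt v t.1.1 t.1.2 ∈ squ v t := pt_mem_squ t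
  have h1 : pt v t.1.1 t.1.2 ∈ dyc v (m + j) t.1.2 := by
    have := squ_sub_up hx
    rwa [ht] at this ⊢
  have h2 : pt v t.1.1 t.1.2 ∈ dyc v (m + j) (dn t) := by
    have := squ_sub_dn hx
    rwa [ht] at this ⊢
  exact ⟨ht, touch_sub hz (by omega) ⟨_, h1, hsub hx⟩, touch_sub hz (by omega) ⟨_, h2, hsub hx⟩⟩

/-- the sub-squares of a square -/
theorem exists_subsq {M' : ℕ} (hN : N ≤ M') {s : Idx × Fin 3} (hs : s.1.1 = N) {x : V}
    (hx : x ∈ squ v s) : ∃ t : Idx × Fin 3, t.1.1 = M' ∧ t.2 = s.2 ∧ x ∈ squ v t ∧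
      squ v t ⊆ squ v s ∧ dyc v M' t.1.2 ⊆ dyc v N s.1.2 ∧ dyc v M' (dn t) ⊆ dyc v N (dn s) := by
  have hxs : x ∈ dyc v N s.1.2 := by
    have := squ_sub_up hx
    rwa [hs] at this
  obtain ⟨w, hxw, hw⟩ := exists_sub hN hxs
  have hin := P86.sub_ineq hw
  have hpl : (w s.2 : ℝ) / 2 ^ M' = s.1.2 s.2 / 2 ^ N := by
    apply le_antisymm
    · have h1 := (hxw s.2).1
      rw [hx.1, hs] at h1
      linarith
    · exact (hin s.2).1
  refine ⟨((M', w), s.2), rfl, rfl, ⟨?_, fun k _ => hxw k⟩, fun y hy => ⟨?_, fun k hk => ?_⟩, hw,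
    _root_.P073.Net.NC.dyc_sub fun k => ?_⟩
  · show x s.2 = v s.2 + w s.2 / 2 ^ M'
    rw [hx.1, hpl, hs]
  · have h1 : y s.2 = v s.2 + w s.2 / 2 ^ M' := hy.1
    rw [h1, hpl, hs]
  · have h1 := hy.2 k hk
    have h2 := hin k
    rw [hs]
    have h3 : v k + (w k : ℝ) / 2 ^ M' ≤ y k := h1.1
    have h4 : y k ≤ v k + (w k + 1 : ℝ) / 2 ^ M' := h1.2
    constructor <;> linarith [h2.1, h2.2]
  · by_cases hk : k = s.2
    · subst hk
      simp only [dn, if_true]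
      push_cast
      rw [sub_add_cancel, sub_add_cancel, sub_div, sub_div, hpl]
      refine ⟨?_, le_rfl⟩
      have : (1:ℝ) / 2 ^ M' ≤ 1 / 2 ^ N := by
        apply one_div_le_one_div_of_le (by positivity)
        exact pow_le_pow_right₀ (by norm_num) hN
      linarith
    · simp only [dn, if_neg hk]
      exact hin k

/-- the sub-squares of a square between two tiles which touch a good cell are selected -/
theorem sel_of_sub {J' : Finset (Fin 3 → ℤ)} {z : Fin 3 → ℤ} (hz : z ∈ J') {s t : Idx × Fin 3}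
    (h1 : Touch v n N z s.1.2) (h2 : Touch v n N z (dn s)) (ht : t.1.1 = m + j)
    (h3 : dyc v (m + j) t.1.2 ⊆ dyc v N s.1.2) (h4 : dyc v (m + j) (dn t) ⊆ dyc v N (dn s)) :
    Sel v (m + j) n N J' t :=
  ⟨ht, z, hz, s.1.2, dn s, h1, h2, h3, h4⟩

/-- the two open cubes at a selected square are in the open tiles -/
theorem dyo_sub_dyo {M' : ℕ} {w u : Fin 3 → ℤ} (h : dyc v M' w ⊆ dyc v N u) :
    dyo v M' w ⊆ dyo v N u := by
  intro x hx k
  have h1 := P86.sub_ineq h k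
  have h2 := hx k
  constructor <;> linarith [h1.1, h1.2, h2.1, h2.2]

theorem qC_sub_of_sel {J' : Finset (Fin 3 → ℤ)} {s : Idx × Fin 3}
    (hs : Sel v (m + j) n N J' s) : ∃ z ∈ J', ∃ u u', Touch v n N z u ∧ Touch v n N z u' ∧
      qC v s ⊆ dyo v N u ∪ dyo v N u' := by
  obtain ⟨h0, z, hz, u, u', hu, hu', h1, h2⟩ := hs
  refine ⟨z, hz, u, u', hu, hu', ?_⟩
  rintro x (hx | hx)
  · rw [h0] at hx
    exact Or.inl (dyo_sub_dyo h1 hx)
  · rw [h0] at hx
    exact Or.inr (dyo_sub_dyo h2 hx)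

end Vale.Agent.P073.H439
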